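import Vale.Agent.P254.X.Chain447
import Vale.Agent.P227.M.SC2.MargN
import Vale.Agent.P227.M.SC.HeatDone

/-! # P254, stage 3: near-sharp slicing for every convex body (no hypotheses) -/

namespace Vale.Agent.P254.X.Chain

open Vale.Agent.P227.M

theorem final_all {n : ℕ} (hn : 1 ≤ n) {K S : Set (Fin n → ℝ)}
    (hK : IsConvexBody K) (hSi : IsSimplex S) :
    isoConst K ≤ Real.exp (19 / 100 * (((n : ℝ) + 1) / n)) * isoConst S ∧
      isoConst K ≤ Real.exp (-(81 / 100)) :=
  final_of_sc (HL.stmtSC_of_heat SC.stmtHeat) hn hK hSi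

end Vale.Agent.P254.X.Chain
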