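import Vale.Agent.P254.X.Top
import Vale.Agent.P254.St625.W833

/-!
P254, stage 3 (helper821): the final theorem from the output `StmtNice` of block S5.
-/

open MeasureTheory Set Matrix

namespace Vale.Agent.P254.X.Top

theorem final (h : StmtNice) {n : ℕ} (hn : 1 ≤ n) {K S : Set (Fin n → ℝ)}
    (hK : IsConvexBody K) (hS : IsSimplex S) :
    isoConst K ≤ Real.exp (19 / 100 * (((n : ℝ) + 1) / n)) * isoConst S ∧
      isoConst K ≤ Real.exp (-(81 / 100)) := by
  refine ⟨?_, ?_⟩
  · have h1 := isoConst_le St625.W833.wp h hn hK hS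
    rwa [mul_div_assoc] at h1
  · have h1 := isoConst_le_abs St625.W833.wp h hn hK
    have e : (19 / 100 - 1 : ℝ) = -(81 / 100) := by norm_num
    rwa [e] at h1

end Vale.Agent.P254.X.Top
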