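import Vale.Agent.P254.St625.Def0
import Vale.Agent.P254.St625.Z3
import Vale.Agent.P254.X.Loss
import Vale.Agent.P254.Frame829.Inst
import Vale.Agent.P254.Criterion

/-!
P254, stage 3, block S6 (helper821): top file.

`StmtNice` is the output of block S5 (static inequality for the nice measures). With the one-variable
data `WP δ kst` (block S3w) it gives
* `isoConst K ≤ exp (δ (n + 1) / n) * isoConst S` for every convex body `K` and simplex `S`,
* `isoConst K ≤ exp (δ - 1)` for every convex body `K`.
-/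

open MeasureTheory Set Matrix Filter Topology Metric
open scoped Pointwise

namespace Vale.Agent.P254.X.Top

open R304 Loss St625

/-- output of block S5 -/
def StmtNice : Prop := ∀ (n : ℕ) (K : Set (Fin n → ℝ)), IsCompact K → StrictConvex ℝ K →
  (interior K).Nonempty → ∀ ε m : ℝ, 0 < ε → 0 < m → ∀ (B : Matrix (Fin n) (Fin n) ℝ), B.PosDef →
  ∀ c : Fin n → ℝ,
    StatIneq kst (Fr.AF (Fr.wK K ε m) B c) B (Fr.TF (Fr.wK K ε m) B c)

variable {n : ℕ} {δ : ℝ}

theorem nice_eq_wK (K : Set (Fin n → ℝ)) (ε m : ℝ) : nice K ε m = Fr.wK K ε m := by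
  funext x
  unfold nice Fr.wK R304.qq Fr.gau
  congr 1
  refine integral_congr_ae (Filter.Eventually.of_forall fun y => ?_)
  simp only
  congr 1
  ring

/-- the entropy inequality with loss for the nice measures -/
theorem niceFrL (W : WP δ kst) (h : StmtNice) (n : ℕ) : NiceFrL δ n := by
  intro K hK hs hi ε m hε hm B hB c
  rw [nice_eq_wK]
  exact ent_le (D := Fr.tiltData hK hs hi hε hm) W (Fr.entData hK hs hi hε hm)
    (fun B hB c => h n K hK hs hi ε m hε hm B hB c) hB c

/-- near-sharp slicing with loss `δ`, relative form -/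
theorem isoConst_le (W : WP δ kst) (h : StmtNice) (hn : 1 ≤ n) {K S : Set (Fin n → ℝ)}
    (hK : IsConvexBody K) (hS : IsSimplex S) :
    isoConst K ≤ Real.exp (δ * ((n : ℝ) + 1) / n) * isoConst S :=
  isoConst_le_of_niceDDL hn (niceFrL W h (n + 1)).niceDDL hK hS

/-! ### the dimension-free form -/

lemma limDens_zero (K : Set (Fin n → ℝ)) : limDens 0 0 K = K.indicator fun _ => (1 : ℝ) := by
  unfold limDens
  congr 1
  ext x
  unfold tilt
  simp

lemma int_ind {K : Set (Fin n → ℝ)} (hK : IsCompact K) (φ : (Fin n → ℝ) → ℝ) :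
    ∫ x, φ x * K.indicator (fun _ => (1 : ℝ)) x = ∫ x in K, φ x := by
  rw [← integral_indicator hK.measurableSet]
  refine integral_congr_ae (Filter.Eventually.of_forall fun x => ?_)
  by_cases hx : x ∈ K <;> simp [hx]

lemma mass_ind {K : Set (Fin n → ℝ)} (hK : IsCompact K) :
    ∫ x, K.indicator (fun _ => (1 : ℝ)) x = (volume K).toReal := by
  have h := int_ind hK fun _ => (1 : ℝ)
  simp only [one_mul] at h
  rw [h]
  simp [Measure.real]

lemma entF_ind {K : Set (Fin n → ℝ)} (hK : IsCompact K) :
    entF (K.indicator fun _ => (1 : ℝ)) = Real.log (volume K).toReal := by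
  unfold entF
  have h : ∀ x, K.indicator (fun _ => (1 : ℝ)) x * Real.log (K.indicator (fun _ => (1 : ℝ)) x) = 0 := by
    intro x
    by_cases hx : x ∈ K <;> simp [hx]
  simp only [h, integral_zero, zero_div, sub_zero]
  rw [mass_ind hK]

lemma covF_ind {K : Set (Fin n → ℝ)} (hK : IsCompact K) (hV : (volume K).toReal ≠ 0) :
    covF (K.indicator fun _ => (1 : ℝ)) = covMatrix K := by
  ext i j
  rw [cov_eq hK hV]
  unfold covF Ef
  simp only [of_apply]
  rw [int_ind hK (fun x => x i * x j), int_ind hK (fun x => x i), int_ind hK (fun x => x j),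
    mass_ind hK]
  unfold centroid
  field_simp

/-- dimension-free form -/
theorem isoConst_le_abs_of (hn : 1 ≤ n) (hN : NiceDDL δ n) {K : Set (Fin n → ℝ)}
    (hK : IsConvexBody K) : isoConst K ≤ Real.exp (δ - 1) := by
  have hn0 : (0 : ℝ) < n := by exact_mod_cast hn
  have hV : 0 < (volume K).toReal := K468.volume_pos_of_body hK
  obtain ⟨D, hD0, hD⟩ := hK.2.1.isBounded.exists_pos_norm_le
  have h1 := DD_limDens_loss hN (B := 0) Matrix.PosSemidef.zero (c := 0) hK.2.1.isClosed hK.1
    hK.2.2 (a := 1) (b := D) one_pos (fun y hy => by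
      have := hD y hy
      simp only [zero_dotProduct]
      linarith)
  rw [limDens_zero] at h1
  unfold DD at h1
  rw [entF_ind hK.2.1, covF_ind hK.2.1 hV.ne'] at h1
  have hr : 0 ≤ (covMatrix K).det := K468.det_cov_nonneg hK.2.1
  unfold isoConst
  rcases hr.eq_or_lt with h0 | h0
  · rw [← h0, zero_div, Real.zero_rpow (by positivity)]
    exact (Real.exp_pos _).le
  · have h2 : (covMatrix K).det / (volume K).toReal ^ 2 ≤ Real.exp ((δ - 1) * (2 * n)) := by
      rw [← Real.log_le_iff_le_exp (by positivity), Real.log_div h0.ne' (by positivity), Real.log_pow]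
      push_cast
      linarith
    have h3 := Real.rpow_le_rpow (by positivity) h2 (z := 1 / (2 * (n : ℝ))) (by positivity)
    rw [← Real.exp_mul] at h3
    have e : (δ - 1) * (2 * n) * (1 / (2 * (n : ℝ))) = δ - 1 := by field_simp
    rwa [e] at h3

theorem isoConst_le_abs (W : WP δ kst) (h : StmtNice) (hn : 1 ≤ n) {K : Set (Fin n → ℝ)}
    (hK : IsConvexBody K) : isoConst K ≤ Real.exp (δ - 1) :=
  isoConst_le_abs_of hn (niceFrL W h n).niceDDL hK

end Vale.Agent.P254.X.Top
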