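import Vale.Agent.P227.M.ID.XAlg

/-! P254 stage 3, (S2): the pointwise inequality `N1 ≤ N2` (Hilbert-Schmidt norm of a commutator). -/

open Matrix Finset

namespace Vale.Agent.P254.X.Stat

variable {n : ℕ}

/-- `tr (A Φ A Φ) ≤ tr (A A Φ Φ)` for symmetric matrices -/
lemma tr_comm_le (A F : Matrix (Fin n) (Fin n) ℝ) (hA : Aᵀ = A) (hF : Fᵀ = F) :
    (A * F * A * F).trace ≤ (A * A * F * F).trace := by
  have gen : ∀ X : Matrix (Fin n) (Fin n) ℝ, 0 ≤ (X * Xᵀ).trace := by
    intro X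
    have : (X * Xᵀ).trace = ∑ i, ∑ j, X i j * X i j := by
      simp [Matrix.trace, Matrix.mul_apply]
    rw [this]
    exact Finset.sum_nonneg fun i _ => Finset.sum_nonneg fun j _ => mul_self_nonneg _
  have h0 := gen (A * F - F * A)
  have e1 : (A * F - F * A)ᵀ = F * A - A * F := by
    rw [Matrix.transpose_sub, Matrix.transpose_mul, Matrix.transpose_mul, hA, hF]
  have e2 : (A * F - F * A) * (F * A - A * F)
      = (A * F * F * A - A * F * A * F) - (F * A * F * A - F * A * A * F) := by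
    simp only [sub_mul, mul_sub, Matrix.mul_assoc]
    abel
  rw [e1, e2, Matrix.trace_sub, Matrix.trace_sub, Matrix.trace_sub] at h0
  have t1 : (A * F * F * A).trace = (A * A * F * F).trace := by
    rw [Matrix.trace_mul_comm]; simp only [Matrix.mul_assoc]
  have t2 : (F * A * F * A).trace = (A * F * A * F).trace := by
    rw [Matrix.trace_mul_comm]; simp only [Matrix.mul_assoc]
  have t3 : (F * A * A * F).trace = (A * A * F * F).trace := by
    have : F * A * A * F = F * (A * A * F) := by simp only [Matrix.mul_assoc]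
    rw [this, Matrix.trace_mul_comm]
  linarith

lemma sum_swap4 (f : Fin n → Fin n → Fin n → Fin n → ℝ) :
    ∑ a, ∑ b, ∑ c, ∑ d, f a b c d = ∑ c, ∑ d, ∑ a, ∑ b, f a b c d := by
  calc ∑ a, ∑ b, ∑ c, ∑ d, f a b c d = ∑ a, ∑ c, ∑ b, ∑ d, f a b c d :=
        Finset.sum_congr rfl fun a _ => Finset.sum_comm
    _ = ∑ c, ∑ a, ∑ b, ∑ d, f a b c d := Finset.sum_comm
    _ = ∑ c, ∑ a, ∑ d, ∑ b, f a b c d :=
        Finset.sum_congr rfl fun c _ => Finset.sum_congr rfl fun a _ => Finset.sum_comm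
    _ = ∑ c, ∑ d, ∑ a, ∑ b, f a b c d := Finset.sum_congr rfl fun c _ => Finset.sum_comm

lemma sum_p1 (f : Fin n → Fin n → Fin n → Fin n → Fin n → ℝ) :
    ∑ α, ∑ β, ∑ γ, ∑ ε, ∑ δ, f α β γ ε δ = ∑ ε, ∑ γ, ∑ β, ∑ α, ∑ δ, f α β γ ε δ := by
  calc ∑ α, ∑ β, ∑ γ, ∑ ε, ∑ δ, f α β γ ε δ = ∑ α, ∑ β, ∑ ε, ∑ γ, ∑ δ, f α β γ ε δ :=
        Finset.sum_congr rfl fun a _ => Finset.sum_congr rfl fun b _ => Finset.sum_comm
    _ = ∑ α, ∑ ε, ∑ β, ∑ γ, ∑ δ, f α β γ ε δ := Finset.sum_congr rfl fun a _ => Finset.sum_comm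
    _ = ∑ ε, ∑ α, ∑ β, ∑ γ, ∑ δ, f α β γ ε δ := Finset.sum_comm
    _ = ∑ ε, ∑ γ, ∑ β, ∑ α, ∑ δ, f α β γ ε δ := Finset.sum_congr rfl fun e _ => P227M.XAlg.sum_rev3 _

lemma sum_p2 (f : Fin n → Fin n → Fin n → Fin n → ℝ) :
    ∑ α, ∑ β, ∑ γ, ∑ δ, f α β γ δ = ∑ γ, ∑ α, ∑ δ, ∑ β, f α β γ δ := by
  calc ∑ α, ∑ β, ∑ γ, ∑ δ, f α β γ δ = ∑ α, ∑ γ, ∑ β, ∑ δ, f α β γ δ :=
        Finset.sum_congr rfl fun a _ => Finset.sum_comm
    _ = ∑ γ, ∑ α, ∑ β, ∑ δ, f α β γ δ := Finset.sum_comm
    _ = ∑ γ, ∑ α, ∑ δ, ∑ β, f α β γ δ :=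
        Finset.sum_congr rfl fun c _ => Finset.sum_congr rfl fun a _ => Finset.sum_comm

/-- bilinear expansion in a frame -/
lemma frame_sum (S : Matrix (Fin n) (Fin n) ℝ) (F : Fin n → Matrix (Fin n) (Fin n) ℝ)
    (Y : Matrix (Fin n) (Fin n) ℝ) (G : Matrix (Fin n) (Fin n) ℝ) :
    ∑ a, ∑ i, Y a i * (G * (∑ α, S a α • F α) * (∑ β, S i β • F β)).trace
      = ∑ α, ∑ β, (Sᵀ * Y * S) α β * (G * F α * F β).trace := by
  have e1 : ∀ a i, Y a i * (G * (∑ α, S a α • F α) * (∑ β, S i β • F β)).trace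
      = ∑ α, ∑ β, Y a i * (S a α * S i β * (G * F α * F β).trace) := by
    intro a i
    simp only [Matrix.mul_sum, Matrix.sum_mul, Matrix.mul_smul, Matrix.smul_mul,
      Matrix.trace_sum, Matrix.trace_smul, smul_eq_mul]
    rw [Finset.sum_comm]
    simp only [Finset.mul_sum]
    refine Finset.sum_congr rfl fun α _ => Finset.sum_congr rfl fun β _ => ?_
    ring
  simp only [e1]
  rw [sum_swap4]
  refine Finset.sum_congr rfl fun α _ => Finset.sum_congr rfl fun β _ => ?_
  simp only [Matrix.mul_apply, Matrix.transpose_apply, Finset.sum_mul]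
  rw [Finset.sum_comm]
  refine Finset.sum_congr rfl fun i _ => Finset.sum_congr rfl fun a _ => ?_
  ring

/-- the commutator inequality for a totally symmetric tensor -/
lemma tensor_le (A : Matrix (Fin n) (Fin n) ℝ) (hA : Aᵀ = A) (F : Fin n → Matrix (Fin n) (Fin n) ℝ)
    (hF : ∀ α, (F α)ᵀ = F α) (hF2 : ∀ α β γ, F α β γ = F β α γ) :
    ∑ α, ∑ β, A α β * (A * F α * F β).trace ≤
      ∑ α, ∑ β, (A * A) α β * (F α * F β).trace := by
  have hF1 : ∀ α β γ, F α β γ = F α γ β := by
    intro α β γ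
    have := congrFun (congrFun (hF α) γ) β
    simpa using this
  have e1 : ∑ α, ∑ β, A α β * (A * F α * F β).trace = ∑ ε, (A * F ε * A * F ε).trace := by
    have l : ∀ α β, A α β * (A * F α * F β).trace = ∑ γ, ∑ ε, ∑ δ, A α β * (A γ δ * F α δ ε * F β ε γ) := by
      intro α β
      simp only [Matrix.trace, Matrix.diag_apply, Matrix.mul_apply, Finset.mul_sum, Finset.sum_mul]
    have r : ∀ ε, (A * F ε * A * F ε).trace = ∑ γ, ∑ β, ∑ α, ∑ δ, A γ δ * F ε δ α * A α β * F ε β γ := by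
      intro ε
      simp only [Matrix.trace, Matrix.diag_apply, Matrix.mul_apply, Finset.sum_mul]
    simp only [l, r]
    rw [sum_p1]
    refine Finset.sum_congr rfl fun ε _ => Finset.sum_congr rfl fun γ _ => Finset.sum_congr rfl fun β _ =>
      Finset.sum_congr rfl fun α _ => Finset.sum_congr rfl fun δ _ => ?_
    rw [hF1 α δ ε, hF2 α ε δ, hF1 ε α δ, hF2 β ε γ]
    ring
  have e2 : ∑ α, ∑ β, (A * A) α β * (F α * F β).trace = ∑ ε, (A * A * F ε * F ε).trace := by
    generalize A * A = B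
    have l : ∀ α β, B α β * (F α * F β).trace = ∑ γ, ∑ δ, B α β * (F α γ δ * F β δ γ) := by
      intro α β
      simp only [Matrix.trace, Matrix.diag_apply, Matrix.mul_apply, Finset.mul_sum]
    have r : ∀ ε, (B * F ε * F ε).trace = ∑ α, ∑ δ, ∑ β, B α β * F ε β δ * F ε δ α := by
      intro ε
      simp only [Matrix.trace, Matrix.diag_apply, Matrix.mul_apply, Finset.sum_mul]
    simp only [l, r]
    rw [sum_p2]
    refine Finset.sum_congr rfl fun ε _ => Finset.sum_congr rfl fun γ _ => Finset.sum_congr rfl fun β _ =>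
      Finset.sum_congr rfl fun α _ => ?_
    rw [hF2 γ ε β, hF1 ε γ β, hF1 α β ε, hF2 α ε β]
    ring
  rw [e1, e2]
  exact Finset.sum_le_sum fun ε _ => tr_comm_le A (F ε) hA (hF ε)

/-- **pointwise inequality `N1 ≤ N2`** -/
theorem N_le (t : Matrix (Fin n) (Fin n) ℝ) (ht : t.PosDef) (w : Fin n → ℝ)
    (p : Fin n → Fin n → Fin n → ℝ) (hp : ∀ a b c, p a b c = p a c b)
    (hSY : ∀ a b c, ∑ e, t a e * p e b c = ∑ e, t b e * p e a c) :
    ∑ a, ∑ i, w a * w i * ∑ b, (∑ e, t b e * p e a i) * p b a i ≤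
      ∑ a, ∑ i, ∑ b, ∑ c, w a * w i * t a i * p c a b * p b i c := by
  obtain ⟨S, R, hS, hSR, hRS⟩ := P227M.XAlg.exists_factor t ht
  have hSRt : Rᵀ * Sᵀ = 1 := by rw [← Matrix.transpose_mul, hSR, Matrix.transpose_one]
  have hRSt : Sᵀ * Rᵀ = 1 := by rw [← Matrix.transpose_mul, hRS, Matrix.transpose_one]
  set W : Matrix (Fin n) (Fin n) ℝ := Matrix.diagonal w with hW
  have hWT : Wᵀ = W := Matrix.diagonal_transpose w
  set T : Fin n → Matrix (Fin n) (Fin n) ℝ := fun a => Matrix.of fun c b => p c a b with hT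
  -- `t * T a` is symmetric, and totally symmetric
  have hQ : ∀ a b c, (t * T a) b c = ∑ e, t b e * p e a c := by
    intro a b c
    simp only [hT, Matrix.mul_apply, Matrix.of_apply]
  have hQ2 : ∀ a b c, (t * T a) b c = (t * T b) a c := by
    intro a b c
    rw [hQ, hQ]
    exact hSY b a c
  have hQ1 : ∀ a b c, (t * T a) b c = (t * T a) c b := by
    intro a b c
    rw [hQ2 a b c, hQ b a c]
    have : ∀ e, p e b c = p e c b := fun e => hp e b c
    simp only [this]
    rw [← hQ c a b, hQ2 c a b]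
  have hQT : ∀ a, (t * T a)ᵀ = t * T a := by
    intro a
    ext b c
    rw [Matrix.transpose_apply]
    exact hQ1 a c b
  set K : Fin n → Matrix (Fin n) (Fin n) ℝ := fun a => R * (t * T a) * Rᵀ with hK
  have hKT : ∀ a, (K a)ᵀ = K a := by
    intro a
    simp only [hK]
    rw [Matrix.transpose_mul, Matrix.transpose_mul, Matrix.transpose_transpose, hQT]
    simp only [Matrix.mul_assoc]
  have hK1 : ∀ a, K a = Sᵀ * T a * Rᵀ := by
    intro a
    simp only [hK]
    rw [hS]
    calc R * (S * Sᵀ * T a) * Rᵀ = (R * S) * Sᵀ * T a * Rᵀ := by simp only [Matrix.mul_assoc]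
      _ = _ := by rw [hRS, Matrix.one_mul]
  have hTK : ∀ a, T a = Rᵀ * K a * Sᵀ := by
    intro a
    rw [hK1]
    calc T a = (Rᵀ * Sᵀ) * T a * (Rᵀ * Sᵀ) := by rw [hSRt, Matrix.one_mul, Matrix.mul_one]
      _ = _ := by simp only [Matrix.mul_assoc]
  set F : Fin n → Matrix (Fin n) (Fin n) ℝ := fun α => ∑ a, R α a • K a with hF
  have hKF : ∀ a, K a = ∑ α, S a α • F α := by
    intro a
    simp only [hF, Finset.smul_sum, smul_smul]
    rw [Finset.sum_comm]
    have : ∀ b, ∑ α, (S a α * R α b) • K b = (S * R) a b • K b := by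
      intro b
      rw [Matrix.mul_apply, Finset.sum_smul]
    simp only [this, hSR, Matrix.one_apply]
    simp
  have hFT : ∀ α, (F α)ᵀ = F α := by
    intro α
    simp only [hF, Matrix.transpose_sum, Matrix.transpose_smul, hKT]
  have hF2 : ∀ α β γ, F α β γ = F β α γ := by
    intro α β γ
    have e : ∀ α β γ, F α β γ = ∑ a, ∑ b, R α a * R β b * ∑ c, (t * T a) b c * R γ c := by
      intro α β γ
      simp only [hF, hK, Matrix.sum_apply, Matrix.smul_apply, smul_eq_mul]
      refine Finset.sum_congr rfl fun a _ => ?_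
      rw [Matrix.mul_assoc, Matrix.mul_apply, Finset.mul_sum]
      refine Finset.sum_congr rfl fun b _ => ?_
      rw [Matrix.mul_apply]
      simp only [Matrix.transpose_apply]
      ring
    rw [e, e, Finset.sum_comm]
    refine Finset.sum_congr rfl fun b _ => Finset.sum_congr rfl fun a _ => ?_
    have : ∀ c, (t * T a) b c = (t * T b) a c := fun c => hQ2 a b c
    simp only [this]
    ring
  set A : Matrix (Fin n) (Fin n) ℝ := Sᵀ * W * S with hA
  have hAT : Aᵀ = A := by
    rw [hA, Matrix.transpose_mul, Matrix.transpose_mul, Matrix.transpose_transpose, hWT]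
    simp only [Matrix.mul_assoc]
  -- left side
  have L : ∑ a, ∑ i, w a * w i * ∑ b, (∑ e, t b e * p e a i) * p b a i
      = ∑ α, ∑ β, A α β * (A * F α * F β).trace := by
    have l1 : ∀ a, ∑ i, w a * w i * ∑ b, (∑ e, t b e * p e a i) * p b a i
        = w a * (A * K a * K a).trace := by
      intro a
      have m1 : (A * K a * K a).trace = (W * (T a)ᵀ * (t * T a)).trace := by
        have hT' : (T a)ᵀ = S * K a * R := by
          rw [hTK a, Matrix.transpose_mul, Matrix.transpose_mul, Matrix.transpose_transpose,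
            Matrix.transpose_transpose, hKT]
          simp only [Matrix.mul_assoc]
        have hq : t * T a = S * K a * Sᵀ := by
          rw [hS, hTK a]
          calc S * Sᵀ * (Rᵀ * K a * Sᵀ) = S * (Sᵀ * Rᵀ) * K a * Sᵀ := by
                simp only [Matrix.mul_assoc]
            _ = _ := by rw [hRSt, Matrix.mul_one]
        rw [hT', hq]
        have : W * (S * K a * R) * (S * K a * Sᵀ) = (W * S * K a * K a) * Sᵀ := by
          calc W * (S * K a * R) * (S * K a * Sᵀ) = W * S * K a * (R * S) * K a * Sᵀ := by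
                simp only [Matrix.mul_assoc]
            _ = _ := by rw [hRS, Matrix.mul_one]
        rw [this, Matrix.trace_mul_comm (W * S * K a * K a) Sᵀ, hA]
        simp only [Matrix.mul_assoc]
      rw [m1]
      simp only [Matrix.trace, Matrix.diag_apply, Finset.mul_sum]
      refine Finset.sum_congr rfl fun i _ => ?_
      rw [Matrix.mul_apply, Finset.mul_sum]
      refine Finset.sum_congr rfl fun b _ => ?_
      rw [hQ a b i, hW, Matrix.diagonal_mul, Matrix.transpose_apply]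
      simp only [hT, Matrix.of_apply]
      ring
    simp only [l1]
    have l2 : ∀ a, w a * (A * K a * K a).trace = ∑ i, W a i * (A * (∑ α, S a α • F α) * (∑ β, S i β • F β)).trace := by
      intro a
      simp only [← hKF, hW, Matrix.diagonal_apply, ite_mul, zero_mul]
      simp
    simp only [l2]
    exact frame_sum S F W A
  have Rr : ∑ a, ∑ i, ∑ b, ∑ c, w a * w i * t a i * p c a b * p b i c
      = ∑ α, ∑ β, (A * A) α β * (F α * F β).trace := by
    have r1 : ∀ a i, ∑ b, ∑ c, w a * w i * t a i * p c a b * p b i c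
        = (W * t * W) a i * (1 * K a * K i).trace := by
      intro a i
      have m1 : (1 * K a * K i).trace = (T a * T i).trace := by
        rw [Matrix.one_mul, hK1, hK1]
        have : Sᵀ * T a * Rᵀ * (Sᵀ * T i * Rᵀ) = (Sᵀ * (T a * T i)) * Rᵀ := by
          calc Sᵀ * T a * Rᵀ * (Sᵀ * T i * Rᵀ) = Sᵀ * T a * (Rᵀ * Sᵀ) * T i * Rᵀ := by
                simp only [Matrix.mul_assoc]
            _ = _ := by rw [hSRt, Matrix.mul_one]; simp only [Matrix.mul_assoc]
        rw [this, Matrix.trace_mul_comm, ← Matrix.mul_assoc, hSRt, Matrix.one_mul]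
      rw [m1, hW, Matrix.mul_diagonal, Matrix.diagonal_mul]
      simp only [Matrix.trace, Matrix.diag_apply, Matrix.mul_apply, Finset.mul_sum]
      rw [Finset.sum_comm]
      refine Finset.sum_congr rfl fun c _ => Finset.sum_congr rfl fun b _ => ?_
      simp only [hT, Matrix.of_apply]
      ring
    simp only [r1]
    have r2 : ∀ a i, (W * t * W) a i * (1 * K a * K i).trace
        = (W * t * W) a i * (1 * (∑ α, S a α • F α) * (∑ β, S i β • F β)).trace := by
      intro a i
      rw [← hKF, ← hKF]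
    simp only [r2]
    rw [frame_sum S F (W * t * W) 1]
    have : Sᵀ * (W * t * W) * S = A * A := by
      rw [hA, hS]
      simp only [Matrix.mul_assoc]
    simp only [this, Matrix.one_mul]
  rw [L, Rr]
  exact tensor_le A hAT F hFT hF2

end Vale.Agent.P254.X.Stat
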