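import Vale.Agent.P254.St625.Def0
import Vale.Agent.P227.M.BasEx

/-!
# P254 stage 3, block S2d (second hand): Bessel, Stein symmetry and the algebraic end

From the inequality `2 S ≤ E tr(WτWτ) - E tr(WτWτV''τ)` (`S = ∑ w_i w_j Var τ_ij`) to the static
inequality with the profile `kst`.
-/

open MeasureTheory

namespace Vale.Agent.P254.X.S2d

open Vale.Agent.P227.M Vale.Agent.P254.St625
open scoped MatrixOrder Matrix.Norms.L2Operator

section alg

variable {n : ℕ}

/-- `tr (B (t - Y) W t W (t - Y)) ≥ 0` -/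
theorem ptw (t : Matrix (Fin n) (Fin n) ℝ) (hs : ∀ i j, t i j = t j i)
    (hp : ∀ u : Fin n → ℝ, 0 ≤ ∑ i, ∑ j, t i j * u i * u j) (w b y : Fin n → ℝ)
    (hb : ∀ i, 0 ≤ b i) :
    2 * (∑ i, ∑ k, b i * y i * w i * w k * t i k ^ 2) - ∑ i, b i * y i ^ 2 * w i ^ 2 * t i i ≤
      ∑ i, b i * ∑ j, ∑ k, w j * w k * t i j * t j k * t k i := by
  have h1 : ∀ i, 2 * (∑ k, y i * w i * w k * t i k ^ 2) - y i ^ 2 * w i ^ 2 * t i i ≤
      ∑ j, ∑ k, w j * w k * t i j * t j k * t k i := by
    intro i
    have h2 := hp (fun j => w j * (t i j - if j = i then y i else 0))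
    have h3 : ∑ j, ∑ k, t j k * (w j * (t i j - if j = i then y i else 0)) *
        (w k * (t i k - if k = i then y i else 0)) =
        ∑ j, ∑ k, w j * w k * t i j * t j k * t k i -
          2 * (∑ k, y i * w i * w k * t i k ^ 2) + y i ^ 2 * w i ^ 2 * t i i := by
      have h4 : ∀ j k, t j k * (w j * (t i j - if j = i then y i else 0)) *
          (w k * (t i k - if k = i then y i else 0)) =
          w j * w k * t i j * t j k * t k i
            - (if j = i then y i * w i * w k * t i k ^ 2 else 0)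
            - (if k = i then y i * w i * w j * t i j ^ 2 else 0)
            + (if j = i then (if k = i then y i ^ 2 * w i ^ 2 * t i i else 0) else 0) := by
        intro j k
        by_cases hj : j = i
        · subst hj
          by_cases hk : k = j
          · subst hk
            simp only [if_true]
            ring
          · simp only [if_true, if_neg hk]
            rw [hs k j]
            ring
        · by_cases hk : k = i
          · subst hk
            simp only [if_true, if_neg hj]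
            rw [hs j k]
            ring
          · simp only [if_neg hj, if_neg hk]
            rw [hs k i]
            ring
      simp_rw [h4]
      simp only [Finset.sum_add_distrib, Finset.sum_sub_distrib]
      have h5 : ∑ j, ∑ k, (if j = i then y i * w i * w k * t i k ^ 2 else 0) =
          ∑ k, y i * w i * w k * t i k ^ 2 := by
        rw [Finset.sum_comm]
        exact Finset.sum_congr rfl fun k _ => by simp
      have h6 : ∑ j, ∑ k, (if k = i then y i * w i * w j * t i j ^ 2 else 0) =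
          ∑ k, y i * w i * w k * t i k ^ 2 :=
        Finset.sum_congr rfl fun k _ => by simp
      have h7 : ∑ j, ∑ k, (if j = i then (if k = i then y i ^ 2 * w i ^ 2 * t i i else 0) else 0) =
          y i ^ 2 * w i ^ 2 * t i i := by
        rw [Finset.sum_eq_single i]
        · simp
        · intro j _ hj
          simp [hj]
        · intro h
          exact absurd (Finset.mem_univ i) h
      rw [h5, h6, h7]
      ring
    rw [h3] at h2
    linarith
  have h8 : ∑ i, b i * (2 * (∑ k, y i * w i * w k * t i k ^ 2) - y i ^ 2 * w i ^ 2 * t i i) ≤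
      ∑ i, b i * ∑ j, ∑ k, w j * w k * t i j * t j k * t k i :=
    Finset.sum_le_sum fun i _ => mul_le_mul_of_nonneg_left (h1 i) (hb i)
  refine le_trans (le_of_eq ?_) h8
  rw [Finset.mul_sum, ← Finset.sum_sub_distrib]
  refine Finset.sum_congr rfl fun i _ => ?_
  rw [mul_sub, Finset.mul_sum, Finset.mul_sum, Finset.mul_sum]
  congr 1
  · refine Finset.sum_congr rfl fun k _ => by ring
  · ring

theorem yy_eq {b : ℝ} (hb : 0 < b) : b * yy b ^ 2 + yy b = 2 := by
  have h1 : Real.sqrt (1 + 8 * b) ^ 2 = 1 + 8 * b := Real.sq_sqrt (by linarith)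
  unfold yy
  generalize Real.sqrt (1 + 8 * b) = s at h1
  field_simp
  linear_combination h1

theorem yy_pos {b : ℝ} (hb : 0 < b) : 0 < yy b := by
  have h1 : 1 < Real.sqrt (1 + 8 * b) := by
    rw [Real.lt_sqrt (by norm_num)]
    linarith
  unfold yy
  exact div_pos (by linarith) (by linarith)

/-- final algebra: choice of the weights -/
theorem end_alg (v : Fin n → Fin n → ℝ) (hv : ∀ i j, 0 ≤ v i j) (hvs : ∀ i j, v i j = v j i)
    (b : Fin n → ℝ) (hb : ∀ i, 0 < b i)
    (hmain : ∀ w : Fin n → ℝ, (∀ i, 0 ≤ w i) →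
      ∑ i, ∑ j, w i * w j * (1 + 2 * b i * yy (b i)) * v i j ≤
        ∑ i, w i ^ 2 * (1 + b i * yy (b i) ^ 2 - 2 * b i * yy (b i)))
    (r : Fin n → ℝ) (hr : ∀ i, 0 < r i) :
    4 * (∑ i, ∑ j, r i * r j * v i j) ≤ ∑ i, r i ^ 2 * kst (b i) := by
  set q : Fin n → ℝ := fun i => 1 + 2 * b i * yy (b i) with hq
  have hq1 : ∀ i, 0 < q i := fun i => by
    have := yy_pos (hb i)
    have := hb i
    simp only [hq]
    positivity
  set w : Fin n → ℝ := fun i => r i / Real.sqrt (q i) with hw
  have hw0 : ∀ i, 0 ≤ w i := fun i => div_nonneg (hr i).le (Real.sqrt_nonneg _)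
  have h1 := hmain w hw0
  have h2 : ∑ i, w i ^ 2 * (1 + b i * yy (b i) ^ 2 - 2 * b i * yy (b i)) =
      ∑ i, r i ^ 2 * (yy (b i) - 1) := by
    refine Finset.sum_congr rfl fun i _ => ?_
    have h3 := yy_eq (hb i)
    have h4 : 1 + b i * yy (b i) ^ 2 - 2 * b i * yy (b i) = q i * (yy (b i) - 1) := by
      simp only [hq]
      linear_combination (-1) * h3
    have h5 : w i ^ 2 * q i = r i ^ 2 := by
      simp only [hw]
      rw [div_pow, Real.sq_sqrt (hq1 i).le]
      field_simp [(hq1 i).ne']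
    rw [h4, ← mul_assoc, h5]
  rw [h2] at h1
  have h3 : ∑ i, ∑ j, w i * w j * q i * v i j = ∑ i, ∑ j, w i * w j * q j * v i j := by
    rw [Finset.sum_comm]
    refine Finset.sum_congr rfl fun i _ => Finset.sum_congr rfl fun j _ => ?_
    rw [hvs j i]
    ring
  have h4 : ∑ i, ∑ j, r i * r j * v i j ≤ ∑ i, ∑ j, w i * w j * ((q i + q j) / 2) * v i j := by
    refine Finset.sum_le_sum fun i _ => Finset.sum_le_sum fun j _ => ?_
    refine mul_le_mul_of_nonneg_right ?_ (hv i j)
    have h5 : r i = w i * Real.sqrt (q i) := by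
      simp only [hw]
      rw [div_mul_cancel₀ _ (Real.sqrt_pos.2 (hq1 i)).ne']
    have h6 : r j = w j * Real.sqrt (q j) := by
      simp only [hw]
      rw [div_mul_cancel₀ _ (Real.sqrt_pos.2 (hq1 j)).ne']
    have h7 : Real.sqrt (q i) * Real.sqrt (q j) ≤ (q i + q j) / 2 := by
      have h8 := sq_nonneg (Real.sqrt (q i) - Real.sqrt (q j))
      have h9 := Real.sq_sqrt (hq1 i).le
      have h10 := Real.sq_sqrt (hq1 j).le
      nlinarith
    calc r i * r j = w i * w j * (Real.sqrt (q i) * Real.sqrt (q j)) := by rw [h5, h6]; ring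
      _ ≤ _ := mul_le_mul_of_nonneg_left h7 (mul_nonneg (hw0 i) (hw0 j))
  have h5 : ∑ i, ∑ j, w i * w j * ((q i + q j) / 2) * v i j = ∑ i, ∑ j, w i * w j * q i * v i j := by
    have h6 : ∑ i, ∑ j, w i * w j * ((q i + q j) / 2) * v i j =
        1 / 2 * (∑ i, ∑ j, w i * w j * q i * v i j) + 1 / 2 * ∑ i, ∑ j, w i * w j * q j * v i j := by
      rw [Finset.mul_sum, Finset.mul_sum, ← Finset.sum_add_distrib]
      refine Finset.sum_congr rfl fun i _ => ?_
      rw [Finset.mul_sum, Finset.mul_sum, ← Finset.sum_add_distrib]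
      exact Finset.sum_congr rfl fun j _ => by ring
    rw [h6, ← h3]
    ring
  have h6 : ∑ i, r i ^ 2 * kst (b i) = 4 * ∑ i, r i ^ 2 * (yy (b i) - 1) := by
    rw [Finset.mul_sum]
    exact Finset.sum_congr rfl fun i _ => by unfold kst; ring
  rw [h6]
  rw [h5] at h4
  linarith [h4.trans h1]

/-- `tr ((H - diag b) τWτWτ) ≥ 0` -/
theorem ptw2 (t H : Matrix (Fin n) (Fin n) ℝ) (ht : t.PosSemidef) (w b : Fin n → ℝ)
    (hH : ∀ v : E n, ∑ i, b i * v i ^ 2 ≤ qf H v) :
    ∑ i, b i * ∑ j, ∑ k, w j * w k * t i j * t j k * t k i ≤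
      ∑ i, ∑ l, H i l * ∑ j, ∑ k, w j * w k * t i j * t j k * t k l := by
  obtain ⟨A, hA⟩ := CStarAlgebra.nonneg_iff_eq_star_mul_self.1 ht.nonneg
  have hA' : ∀ i j, t i j = ∑ m, A m i * A m j := by
    intro i j
    rw [hA, Matrix.mul_apply]
    exact Finset.sum_congr rfl fun m _ => by rw [Matrix.star_apply, star_trivial]
  have hs : ∀ i j, t i j = t j i := by
    intro i j
    rw [hA', hA']
    exact Finset.sum_congr rfl fun m _ => mul_comm _ _
  -- the vectors
  set u : Fin n → Fin n → ℝ := fun m i => ∑ j, t i j * w j * A m j with hu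
  have h1 : ∀ i l, ∑ j, ∑ k, w j * w k * t i j * t j k * t k l = ∑ m, u m i * u m l := by
    intro i l
    simp only [hu]
    simp_rw [Finset.sum_mul_sum]
    rw [Finset.sum_comm (s := (Finset.univ : Finset (Fin n))) (t := (Finset.univ : Finset (Fin n)))
      (f := fun m j => ∑ k, t i j * w j * A m j * (t l k * w k * A m k))]
    refine Finset.sum_congr rfl fun j _ => ?_
    rw [Finset.sum_comm]
    refine Finset.sum_congr rfl fun k _ => ?_
    rw [hA' j k, Finset.mul_sum, Finset.sum_mul]
    refine Finset.sum_congr rfl fun m _ => ?_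
    rw [hs k l]
    ring
  simp_rw [h1]
  have h2 : ∀ m, ∑ i, b i * (u m i * u m i) ≤ ∑ i, ∑ l, H i l * (u m i * u m l) := by
    intro m
    have h3 := hH (WithLp.toLp 2 (u m))
    unfold qf at h3
    refine le_trans (le_of_eq ?_) (h3.trans (le_of_eq ?_))
    · exact Finset.sum_congr rfl fun i _ => by ring
    · exact Finset.sum_congr rfl fun i _ => Finset.sum_congr rfl fun l _ => by ring
  have h4 := Finset.sum_le_sum fun m (_ : m ∈ (Finset.univ : Finset (Fin n))) => h2 m
  refine le_trans (le_of_eq ?_) (h4.trans (le_of_eq ?_))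
  · rw [Finset.sum_comm]
    exact Finset.sum_congr rfl fun i _ => by rw [Finset.mul_sum]
  · rw [Finset.sum_comm]
    refine Finset.sum_congr rfl fun i _ => ?_
    rw [Finset.sum_comm]
    exact Finset.sum_congr rfl fun l _ => by rw [Finset.mul_sum]

end alg

section prob

variable {n : ℕ} {V : E n → ℝ} {c C : ℝ}

/-- Bessel for the coordinates, `Cov = 1`, centred -/
theorem bessel (hV : Reg V c C) (h0 : ∀ i, Ex V (fun x => x i) = 0)
    (h1 : ∀ i j, Ex V (fun x => x i * x j) = if i = j then 1 else 0) {f : E n → ℝ} (hf : Gr f) :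
    ∑ k, (Ex V (fun x => f x * x k)) ^ 2 ≤ Ex V (fun x => f x ^ 2) - (Ex V f) ^ 2 := by
  set m := Ex V f with hm
  set a : Fin n → ℝ := fun k => Ex V (fun x => f x * x k) with ha
  have hpos : 0 ≤ Ex V (fun x => (f x - m - ∑ k, a k * x k) ^ 2) := Ex_nonneg V fun x => sq_nonneg _
  have hsum : Gr (fun x : E n => ∑ k, a k * x k) := Gr.sum _ fun k _ => (Gr.coord k).const_mul _
  have hexp : Ex V (fun x => (f x - m - ∑ k, a k * x k) ^ 2) =
      Ex V (fun x => f x ^ 2) - m ^ 2 - ∑ k, a k ^ 2 := by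
    have e1 : ∀ x : E n, (f x - m - ∑ k, a k * x k) ^ 2 =
        ((f x ^ 2 + m ^ 2) + (∑ k, a k * x k) ^ 2) +
          ((2 * m) * (∑ k, a k * x k) - (2 * m) * f x) - 2 * (f x * ∑ k, a k * x k) := by
      intro x; ring
    rw [Ex_congr V e1]
    have g1 : Gr (fun x => f x ^ 2) := hf.pow 2
    have g2 : Gr (fun _ : E n => m ^ 2) := Gr.const _
    have g3 : Gr (fun x : E n => (∑ k, a k * x k) ^ 2) := hsum.pow 2
    have g4 : Gr (fun x : E n => (2 * m) * ∑ k, a k * x k) := hsum.const_mul _
    have g5 : Gr (fun x : E n => (2 * m) * f x) := hf.const_mul _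
    have g6 : Gr (fun x : E n => f x * ∑ k, a k * x k) := hf.mul hsum
    rw [Ex_sub hV (((g1.add g2).add g3).add (g4.sub g5)) (g6.const_mul 2),
      Ex_add hV ((g1.add g2).add g3) (g4.sub g5), Ex_add hV (g1.add g2) g3, Ex_add hV g1 g2,
      Ex_sub hV g4 g5, Ex_const hV, Ex_const_mul, Ex_const_mul, Ex_const_mul, ← hm]
    have e2 : Ex V (fun x : E n => ∑ k, a k * x k) = 0 := by
      rw [Ex_sum hV _ fun k _ => (Gr.coord k).const_mul _]
      refine Finset.sum_eq_zero fun k _ => ?_
      rw [Ex_const_mul, h0, mul_zero]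
    have e3 : Ex V (fun x : E n => (∑ k, a k * x k) ^ 2) = ∑ k, a k ^ 2 := by
      have e4 : ∀ x : E n, (∑ k, a k * x k) ^ 2 = ∑ k, ∑ l, (a k * a l) * (x k * x l) := by
        intro x
        rw [sq, Finset.sum_mul_sum]
        exact Finset.sum_congr rfl fun k _ => Finset.sum_congr rfl fun l _ => by ring
      rw [Ex_congr V e4, Ex_sum hV _ fun k _ => Gr.sum _ fun l _ =>
        ((Gr.coord k).mul (Gr.coord l)).const_mul _]
      refine Finset.sum_congr rfl fun k _ => ?_
      rw [Ex_sum hV _ fun l _ => ((Gr.coord k).mul (Gr.coord l)).const_mul _]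
      have e5 : ∀ l, Ex V (fun x : E n => (a k * a l) * (x k * x l)) =
          if k = l then a k ^ 2 else 0 := by
        intro l
        rw [Ex_const_mul, h1]
        split_ifs with h
        · subst h; ring
        · ring
      simp_rw [e5]
      simp
    have e6 : Ex V (fun x : E n => f x * ∑ k, a k * x k) = ∑ k, a k ^ 2 := by
      have e7 : ∀ x : E n, f x * ∑ k, a k * x k = ∑ k, a k * (f x * x k) := by
        intro x
        rw [Finset.mul_sum]
        exact Finset.sum_congr rfl fun k _ => by ring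
      rw [Ex_congr V e7, Ex_sum hV _ fun k _ => (hf.mul (Gr.coord k)).const_mul _]
      refine Finset.sum_congr rfl fun k _ => ?_
      rw [Ex_const_mul]
      simp only [ha]
      ring
    rw [e2, e3, e6]
    ring
  rw [hexp] at hpos
  linarith

/-- Stein's identity for linear and quadratic functions gives `T = 2 a` -/
theorem third_eq (T a : Fin n → Fin n → Fin n → ℝ) (hT1 : ∀ i j k, T i j k = T j i k)
    (has : ∀ i j k, a i j k = a j i k)
    (hst : ∀ i j k, T i j k = a i j k + a i k j) (i j k : Fin n) : T i j k = 2 * a i j k := by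
  have h1 := hst i j k
  have h2 := hst j i k
  have h3 := hst i k j
  have h4 := hst k i j
  have h5 := hT1 i j k
  have h6 := hT1 i k j
  have h7 := has i j k
  have h8 := has i k j
  have h9 := has j k i
  linarith

/-- **assembly of S2** for one potential `V` and one field of matrices `t` (to be `τ = (D²ψ)⁻¹`) -/
theorem static_of (hV : Reg V c C) (t : E n → Matrix (Fin n) (Fin n) ℝ)
    (htG : ∀ i j, Gr (fun x => t x i j)) (htP : ∀ x, (t x).PosSemidef)
    (h0 : ∀ i, Ex V (fun x => x i) = 0)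
    (h1 : ∀ i j, Ex V (fun x => x i * x j) = if i = j then 1 else 0)
    (hE : ∀ i j, Ex V (fun x => t x i j) = if i = j then 1 else 0)
    (hSt : ∀ i j k, Ex V (fun x => x i * x j * x k) =
      Ex V (fun x => t x i j * x k) + Ex V (fun x => t x i k * x j))
    (hmain : ∀ w : Fin n → ℝ, (∀ i, 0 ≤ w i) →
      2 * (∑ i, ∑ j, w i * w j * (Ex V (fun x => t x i j ^ 2) - (Ex V (fun x => t x i j)) ^ 2)) ≤
        Ex V (fun x => ∑ i, ∑ j, w i * w j * t x i j ^ 2) -
          Ex V (fun x => ∑ i, ∑ l, hess V x i l *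
            ∑ j, ∑ k, w j * w k * t x i j * t x j k * t x k l))
    (b : Fin n → ℝ) (hb : ∀ i, 0 < b i) (hH : ∀ x v, ∑ i, b i * v i ^ 2 ≤ qf (hess V x) v)
    (r : Fin n → ℝ) (hr : ∀ i, 0 < r i) :
    ∑ i, ∑ j, r i * r j * ∑ k, (Ex V (fun x => x i * x j * x k)) ^ 2 ≤ ∑ i, r i ^ 2 * kst (b i) := by
  have hs : ∀ x i j, t x i j = t x j i := by
    intro x i j
    have := (htP x).1
    have h := congrFun (congrFun this j) i
    simpa [Matrix.conjTranspose_apply] using h
  have hqf : ∀ x (u : Fin n → ℝ), 0 ≤ ∑ i, ∑ j, t x i j * u i * u j := by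
    intro x u
    obtain ⟨A, hA⟩ := CStarAlgebra.nonneg_iff_eq_star_mul_self.1 (htP x).nonneg
    have hA' : ∀ i j, t x i j = ∑ m, A m i * A m j := by
      intro i j
      rw [hA, Matrix.mul_apply]
      exact Finset.sum_congr rfl fun m _ => by rw [Matrix.star_apply, star_trivial]
    have h2 : ∑ i, ∑ j, t x i j * u i * u j = ∑ m, (∑ i, A m i * u i) ^ 2 := by
      have h3 : ∀ m, (∑ i, A m i * u i) ^ 2 = ∑ i, ∑ j, (A m i * u i) * (A m j * u j) := by
        intro m
        rw [sq, Finset.sum_mul_sum]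
      calc ∑ i, ∑ j, t x i j * u i * u j
          = ∑ i, ∑ j, ∑ m, (A m i * u i) * (A m j * u j) := by
            refine Finset.sum_congr rfl fun i _ => Finset.sum_congr rfl fun j _ => ?_
            rw [hA', Finset.sum_mul, Finset.sum_mul]
            exact Finset.sum_congr rfl fun m _ => by ring
        _ = ∑ i, ∑ m, ∑ j, (A m i * u i) * (A m j * u j) :=
            Finset.sum_congr rfl fun i _ => Finset.sum_comm
        _ = ∑ m, ∑ i, ∑ j, (A m i * u i) * (A m j * u j) := Finset.sum_comm
        _ = ∑ m, (∑ i, A m i * u i) ^ 2 := Finset.sum_congr rfl fun m _ => (h3 m).symm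
    rw [h2]
    exact Finset.sum_nonneg fun m _ => sq_nonneg _
  set v : Fin n → Fin n → ℝ := fun i j => Ex V (fun x => t x i j ^ 2) - (Ex V (fun x => t x i j)) ^ 2
    with hv
  have hbes : ∀ i j, ∑ k, (Ex V (fun x => t x i j * x k)) ^ 2 ≤ v i j := fun i j =>
    bessel hV h0 h1 (htG i j)
  have hv0 : ∀ i j, 0 ≤ v i j := fun i j =>
    (Finset.sum_nonneg fun k _ => sq_nonneg _).trans (hbes i j)
  have hvs : ∀ i j, v i j = v j i := by
    intro i j
    simp only [hv]
    rw [Ex_congr V (fun x => by rw [hs x i j] : ∀ x, t x i j ^ 2 = t x j i ^ 2),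
      Ex_congr V (fun x => hs x i j)]
  have hE2 : ∀ i j, Ex V (fun x => t x i j ^ 2) = v i j + if i = j then 1 else 0 := by
    intro i j
    simp only [hv]
    rw [hE]
    split_ifs <;> ring
  have hG2 : ∀ i j, Gr (fun x => t x i j ^ 2) := fun i j => (htG i j).pow 2
  have key : ∀ w : Fin n → ℝ, (∀ i, 0 ≤ w i) →
      ∑ i, ∑ j, w i * w j * (1 + 2 * b i * yy (b i)) * v i j ≤
        ∑ i, w i ^ 2 * (1 + b i * yy (b i) ^ 2 - 2 * b i * yy (b i)) := by
    intro w hw
    have m1 := hmain w hw
    have m2 : Ex V (fun x => ∑ i, ∑ j, w i * w j * t x i j ^ 2) =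
        ∑ i, ∑ j, w i * w j * v i j + ∑ i, w i ^ 2 := by
      rw [Ex_sum hV _ fun i _ => Gr.sum _ fun j _ => (hG2 i j).const_mul _,
        ← Finset.sum_add_distrib]
      refine Finset.sum_congr rfl fun i _ => ?_
      rw [Ex_sum hV _ fun j _ => (hG2 i j).const_mul _]
      have m3 : ∀ j, Ex V (fun x => w i * w j * t x i j ^ 2) =
          w i * w j * v i j + if i = j then w i ^ 2 else 0 := by
        intro j
        rw [Ex_const_mul, hE2]
        split_ifs with h
        · subst h; ring
        · ring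
      simp_rw [m3]
      rw [Finset.sum_add_distrib]
      simp
    have g1 : Gr (fun x => 2 * (∑ i, ∑ k, b i * yy (b i) * w i * w k * t x i k ^ 2) -
        ∑ i, b i * yy (b i) ^ 2 * w i ^ 2 * t x i i) :=
      ((Gr.sum _ fun i _ => Gr.sum _ fun k _ => (hG2 i k).const_mul _).const_mul 2).sub
        (Gr.sum _ fun i _ => (htG i i).const_mul _)
    have g2 : Gr (fun x => ∑ i, ∑ l, hess V x i l *
        ∑ j, ∑ k, w j * w k * t x i j * t x j k * t x k l) :=
      Gr.sum _ fun i _ => Gr.sum _ fun l _ => (hV.gr_hess i l).mul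
        (Gr.sum _ fun j _ => Gr.sum _ fun k _ =>
          (((htG i j).const_mul _).mul (htG j k)).mul (htG k l))
    have m4 := Ex_mono hV g1 g2 fun x =>
      (ptw (t x) (hs x) (hqf x) w b (fun i => yy (b i)) fun i => (hb i).le).trans
        (ptw2 (t x) (hess V x) (htP x) w b (hH x))
    have m5 : Ex V (fun x => 2 * (∑ i, ∑ k, b i * yy (b i) * w i * w k * t x i k ^ 2) -
        ∑ i, b i * yy (b i) ^ 2 * w i ^ 2 * t x i i) =
        2 * (∑ i, ∑ k, b i * yy (b i) * w i * w k * v i k) + 2 * (∑ i, b i * yy (b i) * w i ^ 2) -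
          ∑ i, b i * yy (b i) ^ 2 * w i ^ 2 := by
      rw [Ex_sub hV ((Gr.sum _ fun i _ => Gr.sum _ fun k _ => (hG2 i k).const_mul _).const_mul 2)
        (Gr.sum _ fun i _ => (htG i i).const_mul _), Ex_const_mul,
        Ex_sum hV _ fun i _ => Gr.sum _ fun k _ => (hG2 i k).const_mul _,
        Ex_sum hV _ fun i _ => (htG i i).const_mul _, ← mul_add, ← Finset.sum_add_distrib]
      congr 1
      · congr 1
        refine Finset.sum_congr rfl fun i _ => ?_
        rw [Ex_sum hV _ fun k _ => (hG2 i k).const_mul _]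
        have m6 : ∀ k, Ex V (fun x => b i * yy (b i) * w i * w k * t x i k ^ 2) =
            b i * yy (b i) * w i * w k * v i k + if i = k then b i * yy (b i) * w i ^ 2 else 0 := by
          intro k
          rw [Ex_const_mul, hE2]
          split_ifs with h
          · subst h; ring
          · ring
        simp_rw [m6]
        rw [Finset.sum_add_distrib]
        simp
      · refine Finset.sum_congr rfl fun i _ => ?_
        rw [Ex_const_mul, hE, if_pos rfl, mul_one]
    rw [m5] at m4
    rw [m2] at m1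
    have m7 : ∑ i, ∑ j, w i * w j * (1 + 2 * b i * yy (b i)) * v i j =
        ∑ i, ∑ j, w i * w j * v i j + 2 * ∑ i, ∑ k, b i * yy (b i) * w i * w k * v i k := by
      rw [Finset.mul_sum, ← Finset.sum_add_distrib]
      refine Finset.sum_congr rfl fun i _ => ?_
      rw [Finset.mul_sum, ← Finset.sum_add_distrib]
      exact Finset.sum_congr rfl fun j _ => by ring
    have m8 : ∑ i, w i ^ 2 * (1 + b i * yy (b i) ^ 2 - 2 * b i * yy (b i)) =
        ∑ i, w i ^ 2 + ∑ i, b i * yy (b i) ^ 2 * w i ^ 2 - 2 * ∑ i, b i * yy (b i) * w i ^ 2 := by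
      rw [Finset.mul_sum, ← Finset.sum_add_distrib, ← Finset.sum_sub_distrib]
      exact Finset.sum_congr rfl fun j _ => by ring
    rw [m7, m8]
    simp only [hv] at m1 m4 ⊢
    linarith
  have hend := end_alg v hv0 hvs b hb key r hr
  have hT : ∀ i j k, Ex V (fun x => x i * x j * x k) = 2 * Ex V (fun x => t x i j * x k) :=
    third_eq (fun i j k => Ex V (fun x => x i * x j * x k)) (fun i j k => Ex V (fun x => t x i j * x k))
      (fun i j k => Ex_congr V fun x => by ring) (fun i j k => Ex_congr V fun x => by rw [hs x i j])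
      hSt
  refine le_trans ?_ hend
  rw [Finset.mul_sum]
  refine Finset.sum_le_sum fun i _ => ?_
  rw [Finset.mul_sum]
  refine Finset.sum_le_sum fun j _ => ?_
  have h5 : ∑ k, (Ex V (fun x => x i * x j * x k)) ^ 2 ≤ 4 * v i j := by
    have h6 : ∑ k, (Ex V (fun x => x i * x j * x k)) ^ 2 =
        4 * ∑ k, (Ex V (fun x => t x i j * x k)) ^ 2 := by
      rw [Finset.mul_sum]
      exact Finset.sum_congr rfl fun k _ => by rw [hT]; ring
    rw [h6]
    linarith [hbes i j]
  calc r i * r j * ∑ k, (Ex V (fun x => x i * x j * x k)) ^ 2 ≤ r i * r j * (4 * v i j) :=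
        mul_le_mul_of_nonneg_left h5 (mul_nonneg (hr i).le (hr j).le)
    _ = 4 * (r i * r j * v i j) := by ring

end prob

end Vale.Agent.P254.X.S2d
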