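import Vale.Agent.P254.S2.N1
import Vale.Agent.P254.S2.BesTop300
import Vale.Agent.P254.S2.BasMM
import Vale.Agent.P254.SL.BL
import Vale.Agent.P254.X.S2d214
import Vale.Agent.P254.S5.Nice710
import Vale.Agent.P254.MC.TopS1

/-! # P254, stage 3: the whole chain put together (integration file, helper447) -/

open MeasureTheory

namespace Vale.Agent.P254.X.Chain

open Vale.Agent.P227.M

/-- block S2: the static inequality from the moment map -/
theorem stmtStatic_of (hMM : MC.StmtMMc) (hBL : S2.StmtBL) (hN1 : S2.StmtN1) : St625.StmtStatic := by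
  intro n V c C hV h0 h1 b hb hH r hr
  have hZ := hV.Z_pos
  have hcen : MC.Centred V := by
    intro i
    have h2 := h0 i
    unfold Ex at h2
    rcases div_eq_zero_iff.1 h2 with h3 | h3
    · exact h3
    · exact absurd h3 hZ.ne'
  obtain ⟨ψ, M, h⟩ := hMM n V c C hV hcen
  have hG := S2.gr_tau h
  have hs : ∀ x i j, tau ψ x i j = tau ψ x j i := S2.tau_symm h
  have hco := S2.H300.coreId hV h
  refine S2d.static_of hV (tau ψ) hG (fun x => ?_) h0 h1 (fun i j => ?_) (fun i j k => ?_) (fun w hw => ?_) b
    (fun i => (hb i).1) hH r hr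
  · exact MC.MMc.tau_posSemidef h x
  · rw [hco.ex_tau, h1]
  · rw [hco.ex_three hV hG]
    congr 1
    · exact Ex_congr V fun x => mul_comm _ _
    · exact Ex_congr V fun x => mul_comm _ _
  · have e1 := hN1 n ψ V c C M c C hV h w hw
    have e2 : ∀ x, (Matrix.diagonal w * tau ψ x * Matrix.diagonal w * tau ψ x).trace
        = ∑ i, ∑ j, w i * w j * tau ψ x i j ^ 2 := by
      intro x
      rw [S2.pw_tr4]
      refine Finset.sum_congr rfl fun i _ => Finset.sum_congr rfl fun j _ => ?_
      rw [hs x j i]
      ring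
    have e3 : ∀ x, (hess V x * tau ψ x * Matrix.diagonal w * tau ψ x * Matrix.diagonal w * tau ψ x).trace
        = ∑ i, ∑ l, hess V x i l * ∑ j, ∑ k, w j * w k * tau ψ x i j * tau ψ x j k * tau ψ x k l := by
      intro x
      have e4 : hess V x * tau ψ x * Matrix.diagonal w * tau ψ x * Matrix.diagonal w * tau ψ x
          = hess V x * (tau ψ x * Matrix.diagonal w * (tau ψ x * Matrix.diagonal w * tau ψ x)) := by
        simp only [Matrix.mul_assoc]
      rw [e4, Matrix.trace]
      refine Finset.sum_congr rfl fun i _ => ?_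
      rw [Matrix.diag_apply, Matrix.mul_apply]
      refine Finset.sum_congr rfl fun l _ => ?_
      congr 1
      have e5 : ∀ a b, (tau ψ x * Matrix.diagonal w * (tau ψ x * Matrix.diagonal w * tau ψ x)) a b
          = ∑ j, ∑ k, w j * w k * tau ψ x a j * tau ψ x j k * tau ψ x k b := by
        intro a b
        rw [Matrix.mul_apply]
        refine Finset.sum_congr rfl fun j _ => ?_
        rw [Matrix.mul_diagonal, Matrix.mul_apply, Finset.mul_sum]
        refine Finset.sum_congr rfl fun k _ => ?_
        rw [Matrix.mul_diagonal]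
        ring
      rw [e5]
      rw [Finset.sum_comm]
      refine Finset.sum_congr rfl fun j _ => Finset.sum_congr rfl fun k _ => ?_
      rw [hs x l k, hs x k j, hs x j i]
      ring
    rw [Ex_congr V e2, Ex_congr V e3] at e1
    refine le_trans ?_ e1
    refine mul_le_mul_of_nonneg_left ?_ zero_le_two
    refine Finset.sum_le_sum fun i _ => Finset.sum_le_sum fun j _ => ?_
    exact mul_le_mul_of_nonneg_left (hBL n ψ V c C M c C hV h i j) (mul_nonneg (hw i) (hw j))

theorem stmtStatic_of_sc (hSC : StmtSC) : St625.StmtStatic :=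
  stmtStatic_of (MC.stmtMMc_of_sc hSC) SL.Gap.stmtBL S2.stmtN1

/-- **near-sharp slicing**, all convex bodies, from `StmtSC` -/
theorem final_of_sc (hSC : StmtSC) {n : ℕ} (hn : 1 ≤ n) {K S : Set (Fin n → ℝ)}
    (hK : IsConvexBody K) (hSi : IsSimplex S) :
    isoConst K ≤ Real.exp (19 / 100 * (((n : ℝ) + 1) / n)) * isoConst S ∧
      isoConst K ≤ Real.exp (-(81 / 100)) :=
  S5.N710.final_of_static (stmtStatic_of_sc hSC) hn hK hSi

end Vale.Agent.P254.X.Chain
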