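import Vale.Agent.P254.X.Lev464
import Vale.Agent.P227.M.LK.SCInv
import Vale.Agent.P227.M.LK.RegLL570
import Vale.Agent.P227.M.SC.Pol
import Vale.Agent.P227.M.MM.Start102

/-! # P254/X: invariance of the normalised level-`k` class and `StmtSC → StmtMMc` (helper464). -/

namespace Vale.Agent.P254.X.D464

open MeasureTheory Filter Topology
open scoped RealInnerProductSpace
open Vale.Agent.P227.M Vale.Agent.P227.M.Dir

set_option linter.unusedSectionVars false

variable {n : ℕ}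

/-! ### affine functions -/

theorem iter_aff (L : E n →L[ℝ] ℝ) (r : ℝ) {i : ℕ} (hi : 2 ≤ i) (x : E n) :
    iteratedFDeriv ℝ i (fun y : E n => -(r + L y)) x = 0 := by
  obtain ⟨j, rfl⟩ : ∃ j, i = (j + 1) + 1 := ⟨i - 2, by omega⟩
  have h1 : fderiv ℝ (fun y : E n => -(r + L y)) = fun _ => -L := by
    funext y
    have h := (((L.hasFDerivAt (x := y)).const_add r).neg)
    exact h.fderiv
  rw [← norm_eq_zero, ← norm_iteratedFDeriv_fderiv, h1, iteratedFDeriv_succ_const]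
  simp

theorem contDiff_aff (L : E n →L[ℝ] ℝ) (r : ℝ) :
    ContDiff ℝ (⊤ : ℕ∞) (fun y : E n => -(r + L y)) :=
  (contDiff_const.add L.contDiff).neg

theorem iter_sub_aff {W : E n → ℝ} (hW : ContDiff ℝ (⊤ : ℕ∞) W) (L : E n →L[ℝ] ℝ) (r : ℝ) {i : ℕ}
    (hi : 2 ≤ i) (x : E n) :
    iteratedFDeriv ℝ i (fun y => W y + -(r + L y)) x = iteratedFDeriv ℝ i W x := by
  rw [LK.iteratedFDeriv_add' hW (contDiff_aff L r), iter_aff L r hi, add_zero]

theorem qf_sub_aff {W : E n → ℝ} (hW : ContDiff ℝ (⊤ : ℕ∞) W) (L : E n →L[ℝ] ℝ) (r : ℝ)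
    (x v : E n) : qf (hess (fun y => W y + -(r + L y)) x) v = qf (hess W x) v := by
  have h1 : ContDiff ℝ (⊤ : ℕ∞) (fun y => W y + -(r + L y)) := hW.add (contDiff_aff L r)
  rw [← LK.iteratedDeriv_two_line h1, ← LK.iteratedDeriv_two_line hW,
    LK.iteratedDeriv_line_zero h1, LK.iteratedDeriv_line_zero hW, iter_sub_aff hW L r le_rfl]

theorem reg_sub_aff {W : E n → ℝ} {c C : ℝ} (hW : Reg W c C) (L : E n →L[ℝ] ℝ) (r : ℝ) :
    Reg (fun y => W y + -(r + L y)) c C where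
  c_pos := hW.c_pos
  smooth := hW.smooth.add (contDiff_aff L r)
  lower x v := by rw [qf_sub_aff hW.smooth]; exact hW.lower x v
  upper x v := by rw [qf_sub_aff hW.smooth]; exact hW.upper x v
  bdd k hk := by
    obtain ⟨B, hB⟩ := hW.bdd k hk
    refine ⟨B, fun x => ?_⟩
    rw [iter_sub_aff hW.smooth L r hk]
    exact hB x

theorem sc_sub_aff {W : E n → ℝ} {c C κ : ℝ} (hW : Reg W c C) (h : SelfConc κ W)
    (L : E n →L[ℝ] ℝ) (r : ℝ) : SelfConc κ (fun y => W y + -(r + L y)) := by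
  have hR := reg_sub_aff hW L r
  rw [LK.selfConc_iff hR.smooth (LK.qf_nonneg_of_reg hR)]
  rw [LK.selfConc_iff hW.smooth (LK.qf_nonneg_of_reg hW)] at h
  intro x v
  rw [qf_sub_aff hW.smooth, iter_sub_aff hW.smooth L r (by norm_num)]
  exact h x v

/-! ### the class -/

section
variable {k c0 C0 m : ℝ} {c : E n → ℝ}

theorem reg_mulK {a b : ℝ} (h : Reg c a b) (hk : 0 < k) : Reg (fun x => k * c x) (k * a) (k * b) := by
  have := LK.Reg.scale h hk one_ne_zero
  simpa using this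

theorem reg_phiK (hLL : LK.RegLL) (hk : 0 < k) (hc0 : 0 < c0) (hC0 : 0 < C0)
    (hc : Reg c (c0 * (k + 1) / k) (C0 * (k + 1) / k)) :
    Reg (LK.phiK k c) (k / ((k + 1) * C0)) (k / ((k + 1) * c0)) := by
  have h1 := reg_mulK hc hk
  have h2 := hLL n _ _ _ h1 (by positivity)
  have h3 := LK.Reg.scale h2 (α := 1 / k) (β := k) (by positivity) hk.ne'
  refine LK.Reg.congr_const h3 ?_ ?_ <;> field_simp

theorem sc_phiK (hSC : StmtSC) (hLL : LK.RegLL) (hk : 0 < k) (hC0 : 0 < C0) (hm : 0 ≤ m)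
    (hmk : m ^ 2 ≤ k) (hc : Reg c (c0 * (k + 1) / k) (C0 * (k + 1) / k)) (hs : SelfConc m c) :
    SelfConc m (LK.phiK k c) := by
  have hsk : 0 < √k := Real.sqrt_pos.2 hk
  have h1 := reg_mulK hc hk
  have h1s := LK.SelfConc.mulK hc hs hk
  have h2 := hLL n _ _ _ h1 (by positivity)
  have hle : m / √k ≤ 1 := by
    rw [div_le_one hsk]
    exact Real.le_sqrt_of_sq_le hmk
  have h2s := hSC n _ _ _ _ h1 (by positivity) hle h1s
  have h3 := LK.SelfConc.scale h2 h2s (α := 1 / k) (β := k) (by positivity) hk.ne'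
  have h4 : m / √k / √(1 / k) = m := by
    rw [Real.sqrt_div zero_le_one, Real.sqrt_one]
    field_simp
  rw [h4] at h3
  exact h3

theorem reg_QK (hLL : LK.RegLL) (hk : 0 < k) (hc0 : 0 < c0) (hC0 : 0 < C0)
    (hc : Reg c (c0 * (k + 1) / k) (C0 * (k + 1) / k)) :
    Reg (LK.QK k c) (k * c0) (k * C0) := by
  have h1 := reg_phiK hLL hk hc0 hC0 hc
  have h2 := reg_mulK h1 (k := k + 1) (by positivity)
  have h3 := hLL n _ _ _ h2 (by positivity)
  have h4 := LK.Reg.scale h3 (α := 1) (β := k) (by positivity) hk.ne'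
  simp only [one_mul] at h4
  refine LK.Reg.congr_const h4 ?_ ?_ <;> field_simp

theorem sc_QK (hSC : StmtSC) (hLL : LK.RegLL) (hk : 0 < k) (hc0 : 0 < c0) (hC0 : 0 < C0) (hm : 0 ≤ m)
    (hmk : m ^ 2 ≤ k) (hc : Reg c (c0 * (k + 1) / k) (C0 * (k + 1) / k)) (hs : SelfConc m c) :
    SelfConc (m / √k) (LK.QK k c) := by
  have hsk : 0 < √k := Real.sqrt_pos.2 hk
  have hsk1 : 0 < √(k + 1) := Real.sqrt_pos.2 (by positivity)
  have h1 := reg_phiK hLL hk hc0 hC0 hc
  have h1s := sc_phiK hSC hLL hk hC0 hm hmk hc hs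
  have h2 := reg_mulK h1 (k := k + 1) (by positivity)
  have h2s := LK.SelfConc.mulK h1 h1s (k := k + 1) (by positivity)
  have h3 := hLL n _ _ _ h2 (by positivity)
  have hle : m / √(k + 1) ≤ 1 := by
    rw [div_le_one hsk1]
    exact Real.le_sqrt_of_sq_le (by linarith)
  have h3s := hSC n _ _ _ _ h2 (by positivity) hle h2s
  have h4 := LK.Reg.scale h3 (α := 1) (β := k) (by positivity) hk.ne'
  have h4s := LK.SelfConc.scale h3 h3s (α := 1) (β := k) (by positivity) hk.ne'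
  simp only [one_mul, Real.sqrt_one, div_one] at h4 h4s
  refine LK.SelfConc.mono h4 h4s ?_
  exact div_le_div_of_nonneg_left hm hsk (Real.sqrt_le_sqrt (by linarith))

/-- one step of the iteration, normalised by an affine function -/
theorem step (hSC : StmtSC) (hLL : LK.RegLL) {V : E n → ℝ} {MV : ℝ} (hV : Reg V c0 C0)
    (hC0 : 0 < C0) (hMV : 0 ≤ MV) (hVs : SelfConc MV V) (hm : 2 / 3 * MV * √(C0 / c0) ≤ m)
    (hk : 0 < k) (hmk : m ^ 2 ≤ k) (hc : ClassC k c0 C0 m c) :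
    ∃ (N : E n → ℝ) (r : ℝ) (b : E n), ClassC k c0 C0 m N ∧
      ∀ x, k * N x = V x + Qx k c x - k * r - k * ⟪b, x⟫ := by
  have hc0 : 0 < c0 := hV.c_pos
  have hm0 : 0 ≤ m := le_trans (by positivity) hm
  have hsk : 0 < √k := Real.sqrt_pos.2 hk
  have hQ := reg_QK hLL hk hc0 hC0 hc.reg
  have hQs := sc_QK hSC hLL hk hc0 hC0 hm0 hmk hc.reg hc.sc
  -- the sum
  have hS : Reg (fun x => V x + LK.QK k c x) (c0 + k * c0) (C0 + k * C0) := LK.Reg.add hV hQ
  have hSs : SelfConc (m / √k) (fun x => V x + LK.QK k c x) := by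
    rw [LK.selfConc_iff hS.smooth (LK.qf_nonneg_of_reg hS)]
    rw [LK.selfConc_iff hV.smooth (LK.qf_nonneg_of_reg hV)] at hVs
    rw [LK.selfConc_iff hQ.smooth (LK.qf_nonneg_of_reg hQ)] at hQs
    intro x v
    rw [LK.iteratedFDeriv_add' hV.smooth hQ.smooth, LK.qf_add hV.smooth hQ.smooth]
    exact LK.sum_ineq hk hm0 hMV hc0 hC0.le hm (N := ‖v‖ ^ 2) (by positivity)
      (LK.qf_nonneg_of_reg hV x v) (hV.upper x v) (hQ.lower x v) (hVs x v) (hQs x v)
  -- divide by `k`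
  have hD := LK.Reg.scale hS (α := 1 / k) (β := 1) (by positivity) one_ne_zero
  have hDs := LK.SelfConc.scale hS hSs (α := 1 / k) (β := 1) (by positivity) one_ne_zero
  simp only [one_smul, one_pow, mul_one] at hD hDs
  have h4 : m / √k / √(1 / k) = m := by
    rw [Real.sqrt_div zero_le_one, Real.sqrt_one]
    field_simp
  rw [h4] at hDs
  obtain ⟨W, hW⟩ : ∃ W : E n → ℝ, W = fun x => 1 / k * (V x + LK.QK k c x) := ⟨_, rfl⟩
  rw [← hW] at hD hDs
  have hW1 : Differentiable ℝ W := hD.smooth.differentiable (by simp)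
  refine ⟨fun y => W y + -(W 0 + fderiv ℝ W 0 y), W 0, Jd n (fderiv ℝ W 0), ⟨?_, ?_, ?_, ?_⟩, ?_⟩
  · refine LK.Reg.congr_const (reg_sub_aff hD (fderiv ℝ W 0) (W 0)) ?_ ?_ <;> field_simp <;> ring
  · exact sc_sub_aff hD hDs (fderiv ℝ W 0) (W 0)
  · simp
  · have h5 := ((hW1 0).hasFDerivAt.add
      ((((fderiv ℝ W 0).hasFDerivAt (x := (0 : E n))).const_add (W 0)).neg)).fderiv
    refine Eq.trans h5 ?_
    rw [add_neg_cancel]
  · intro x
    rw [inner_Jd, hW]
    change _ = V x + LK.QK k c x - _ - _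
    field_simp
    ring

end

/-! ### from self-concordance to a Lipschitz Hessian -/

theorem lip_of_class {c : E n → ℝ} {a A' A m : ℝ} (hm : 0 ≤ m) (hA : 0 ≤ A) (h : Reg c a A')
    (hAA : A' ≤ A) (hs : SelfConc m c) :
    LipschitzWith (Real.toNNReal (9 / 2 * (2 * m * (A * Real.sqrt A)))) (fderiv ℝ (fderiv ℝ c)) := by
  have h3 : ContDiff ℝ 3 c := by exact_mod_cast (contDiff_infty.1 h.smooth) 3
  have hq : ∀ x v : E n, iteratedDeriv 2 (fun t : ℝ => c (x + t • v)) 0 = qf (hess c x) v :=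
    fun x v => LK.iteratedDeriv_two_line h.smooth x v
  have hq0 : ∀ x v : E n, 0 ≤ iteratedDeriv 2 (fun t : ℝ => c (x + t • v)) 0 := fun x v => by
    rw [hq]
    exact LK.qf_nonneg_of_reg h x v
  refine SC.Pol.hess_lipschitz_of_sc h3 hm hA (fun x v => ?_) hq0 (fun x v => ?_)
  · rw [hq]
    exact (h.upper x v).trans (mul_le_mul_of_nonneg_right hAA (sq_nonneg _))
  · have h1 := hs x v
    rw [LK.rpow_three_half (hq0 x v)] at h1
    have h2 := pow_le_pow_left₀ (abs_nonneg _) h1 2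
    rw [sq_abs] at h2
    refine h2.trans (le_of_eq ?_)
    have h4 : √(iteratedDeriv 2 (fun t : ℝ => c (x + t • v)) 0) ^ 2 =
        iteratedDeriv 2 (fun t : ℝ => c (x + t • v)) 0 := Real.sq_sqrt (hq0 x v)
    calc (2 * m * √(iteratedDeriv 2 (fun t : ℝ => c (x + t • v)) 0) ^ 3) ^ 2
        = 4 * m ^ 2 * (√(iteratedDeriv 2 (fun t : ℝ => c (x + t • v)) 0) ^ 2) ^ 3 := by ring
      _ = _ := by rw [h4]

/-! ### integrability data -/

theorem reg_two {V : E n → ℝ} {c0 C0 : ℝ} (hV : Reg V c0 C0) : ContDiff ℝ 2 V := by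
  exact_mod_cast (contDiff_infty.1 hV.smooth) 2

theorem exp_neg_le {V : E n → ℝ} {c0 C0 : ℝ} (hV : Reg V c0 C0) (x : E n) :
    Real.exp (-V x) ≤ Real.exp (-V 0) * Real.exp (⟪x, -gr V 0⟫ - c0 / 2 * ‖x‖ ^ 2) := by
  have hG := gr_of_hess hV.c_pos (reg_two hV) hV.lower hV.upper
  rw [← Real.exp_add]
  refine Real.exp_le_exp.2 ?_
  have h1 := hG.br_lo 0 x
  unfold Br at h1
  rw [sub_zero] at h1
  rw [inner_neg_right, real_inner_comm]
  linarith

theorem int_exp {V : E n → ℝ} {c0 C0 : ℝ} (hV : Reg V c0 C0) :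
    Integrable fun x : E n => Real.exp (-V x) := by
  refine ((int_gauss_lin (half_pos hV.c_pos) (-gr V 0)).const_mul (Real.exp (-V 0))).mono'
    (Real.continuous_exp.comp hV.smooth.continuous.neg).aestronglyMeasurable
    (Eventually.of_forall fun x => ?_)
  rw [Real.norm_eq_abs, abs_of_pos (Real.exp_pos _)]
  exact exp_neg_le hV x

theorem int_sq_exp {V : E n → ℝ} {c0 C0 : ℝ} (hV : Reg V c0 C0) :
    Integrable fun x : E n => ‖x‖ ^ 2 * Real.exp (-V x) := by
  have hc := hV.c_pos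
  have hb : 0 < c0 / 4 := by linarith
  have hm : Continuous fun x : E n => ‖x‖ ^ 2 * Real.exp (-V x) := by
    have := hV.smooth.continuous
    fun_prop
  refine ((int_gauss_lin hb (-gr V 0)).const_mul (Real.exp (-V 0) * (c0 / 4)⁻¹)).mono'
    hm.aestronglyMeasurable (Eventually.of_forall fun x => ?_)
  rw [Real.norm_eq_abs, abs_mul, abs_of_pos (Real.exp_pos _), abs_of_nonneg (sq_nonneg _)]
  have h1 := exp_neg_le hV x
  have h2 : ‖x‖ ^ 2 ≤ (c0 / 4)⁻¹ * Real.exp (c0 / 4 * ‖x‖ ^ 2) := by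
    rw [inv_mul_eq_div, le_div_iff₀ hb, mul_comm]
    have := Real.add_one_le_exp (c0 / 4 * ‖x‖ ^ 2)
    linarith
  calc ‖x‖ ^ 2 * Real.exp (-V x) ≤ ((c0 / 4)⁻¹ * Real.exp (c0 / 4 * ‖x‖ ^ 2)) *
        (Real.exp (-V 0) * Real.exp (⟪x, -gr V 0⟫ - c0 / 2 * ‖x‖ ^ 2)) :=
        mul_le_mul h2 h1 (Real.exp_pos _).le (by positivity)
    _ = Real.exp (-V 0) * (c0 / 4)⁻¹ * (Real.exp (c0 / 4 * ‖x‖ ^ 2) *
        Real.exp (⟪x, -gr V 0⟫ - c0 / 2 * ‖x‖ ^ 2)) := by ring
    _ = _ := by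
        rw [← Real.exp_add]
        congr 2
        ring

theorem vd_of_reg {V : E n → ℝ} {c0 C0 : ℝ} (hV : Reg V c0 C0) (h1 : ∫ x, Real.exp (-V x) = 1)
    (hmean : ∀ i, ∫ x : E n, x i * Real.exp (-V x) = 0) : Vd V := by
  have hG := gr_of_hess hV.c_pos (reg_two hV) hV.lower hV.upper
  have hi := int_exp hV
  have hi2 := int_sq_exp hV
  have hcV := hV.smooth.continuous
  have hin : ∀ b : E n, Integrable fun x : E n => ⟪b, x⟫ * Real.exp (-V x) := by
    intro b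
    have h2 : Integrable fun x : E n => ‖b‖ * Real.exp (-V x) + ‖b‖ * (‖x‖ ^ 2 * Real.exp (-V x)) :=
      (hi.const_mul _).add (hi2.const_mul _)
    have hm : Continuous fun x : E n => ⟪b, x⟫ * Real.exp (-V x) := by fun_prop
    refine h2.mono' hm.aestronglyMeasurable (Eventually.of_forall fun x => ?_)
    rw [Real.norm_eq_abs, abs_mul, abs_of_pos (Real.exp_pos _)]
    have h3 := abs_real_inner_le_norm b x
    have h4 : ‖x‖ ≤ 1 + ‖x‖ ^ 2 := by nlinarith [sq_nonneg (‖x‖ - 1), norm_nonneg x]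
    have h5 : |⟪b, x⟫| ≤ ‖b‖ * (1 + ‖x‖ ^ 2) :=
      h3.trans (mul_le_mul_of_nonneg_left h4 (norm_nonneg b))
    calc |⟪b, x⟫| * Real.exp (-V x) ≤ (‖b‖ * (1 + ‖x‖ ^ 2)) * Real.exp (-V x) :=
          mul_le_mul_of_nonneg_right h5 (Real.exp_pos _).le
      _ = _ := by ring
  refine ⟨hcV, hi, h1, ?_, hi2, fun b => ?_⟩
  · -- `V e^{-V}` : `V = V 0 + <g0,x> + Br`, `0 ≤ Br ≤ C0/2 |x|²`
    have hm : Continuous fun x : E n => Br V (gr V) 0 x * Real.exp (-V x) := by
      have := hG.br_cont 0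
      fun_prop
    have hB : Integrable fun x : E n => Br V (gr V) 0 x * Real.exp (-V x) := by
      refine (hi2.const_mul (|C0| / 2)).mono' hm.aestronglyMeasurable
        (Eventually.of_forall fun x => ?_)
      have e1 := hG.br_lo 0 x
      have e2 := hG.br_up 0 x
      rw [sub_zero] at e1 e2
      have e3 : 0 ≤ Br V (gr V) 0 x :=
        le_trans (mul_nonneg (half_pos hV.c_pos).le (sq_nonneg _)) e1
      have e4 : Br V (gr V) 0 x ≤ |C0| / 2 * ‖x‖ ^ 2 :=
        e2.trans (mul_le_mul_of_nonneg_right (by linarith [le_abs_self C0]) (sq_nonneg _))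
      rw [Real.norm_eq_abs, abs_mul, abs_of_pos (Real.exp_pos _), abs_of_nonneg e3]
      calc _ ≤ (|C0| / 2 * ‖x‖ ^ 2) * Real.exp (-V x) :=
            mul_le_mul_of_nonneg_right e4 (Real.exp_pos _).le
        _ = _ := by ring
    refine (((hi.const_mul (V 0)).add (hin (gr V 0))).add hB).congr
      (Eventually.of_forall fun x => ?_)
    simp only [Pi.add_apply, Br, sub_zero]
    ring
  · have h2 : ∀ x : E n, ⟪b, x⟫ * Real.exp (-V x) = ∑ i, b i * (x i * Real.exp (-V x)) := by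
      intro x
      rw [PiLp.inner_apply, Finset.sum_mul]
      refine Finset.sum_congr rfl fun i _ => ?_
      simp
      ring
    have hxi : ∀ i, Integrable fun x : E n => x i * Real.exp (-V x) := fun i => by
      refine (hin (ei i)).congr (Eventually.of_forall fun x => ?_)
      simp only [ei]
      rw [EuclideanSpace.inner_single_left]
      simp
    simp_rw [h2]
    rw [integral_finsetSum _ fun i _ => (hxi i).const_mul _]
    simp_rw [integral_const_mul, hmean]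
    simp

/-! ### the theorem -/

theorem mmc_norm (hSC : StmtSC) (hn : 0 < n) {V : E n → ℝ} {c0 C0 : ℝ} (hV : Reg V c0 C0)
    (h1 : ∫ x, Real.exp (-V x) = 1) (hmean : ∀ i, ∫ x : E n, x i * Real.exp (-V x) = 0) :
    ∃ (ψ : E n → ℝ) (M : ℝ), MMc ψ V c0 C0 M := by
  have hLL : LK.RegLL := LK.H570.regLL
  have hVd := vd_of_reg hV h1 hmean
  have hc0 : 0 < c0 := hV.c_pos
  have hle : c0 ≤ C0 := MM.nice_le hn hV
  have hC0 : 0 < C0 := hc0.trans_le hle
  obtain ⟨MV, hMV, hVs⟩ := LK.Reg.exists_selfConc hV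
  obtain ⟨m, hm⟩ : ∃ m, m = 2 / 3 * MV * √(C0 / c0) := ⟨_, rfl⟩
  have hm0 : 0 ≤ m := by rw [hm]; positivity
  obtain ⟨A, hA⟩ : ∃ A : ℝ, A = 2 * C0 := ⟨_, rfl⟩
  have hA0 : 0 < A := by rw [hA]; positivity
  have hκb : ∀ k : ℝ, 1 ≤ k → C0 * (k + 1) / k ≤ A := fun k hk => by
    rw [div_le_iff₀ (by linarith), hA]
    nlinarith
  have hκa : ∀ k : ℝ, 1 ≤ k → c0 ≤ c0 * (k + 1) / k := fun k hk => by
    rw [le_div_iff₀ (by linarith)]
    nlinarith
  -- members of the class are normalised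
  have hPG : ∀ k : ℝ, 1 ≤ k → ∀ c : E n → ℝ, ClassC k c0 C0 m c → Nrm c (gr c) c0 A := by
    intro k hk c hc
    refine ⟨gr_of_hess hc0 (reg_two hc.reg) (fun x v => ?_) (fun x v => ?_), hA0, hc.zero, ?_⟩
    · exact le_trans (mul_le_mul_of_nonneg_right (hκa k hk) (sq_nonneg _)) (hc.reg.lower x v)
    · exact le_trans (hc.reg.upper x v) (mul_le_mul_of_nonneg_right (hκb k hk) (sq_nonneg _))
    · unfold gr
      rw [hc.grad, map_zero]
  -- the start
  have hstart : ∀ k : ℝ, 0 < k → ClassC k c0 C0 m (fun x : E n => c0 * (k + 1) / k / 2 * ‖x‖ ^ 2) := by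
    intro k hk
    have h2 := MM.Start102.stmtStart n hn k c0 C0 m hk hc0 hle hm0
    exact ⟨h2.nice.toReg, h2.sc, h2.zero,
      fderiv_zero_of_even (reg_two h2.nice.toReg) h2.nice.even⟩
  -- levels
  obtain ⟨κ, hκ⟩ : ∃ κ : ℕ → ℝ, κ = fun i : ℕ => max 1 (m ^ 2) + (i : ℝ) := ⟨_, rfl⟩
  have hκ1 : ∀ i, 1 ≤ κ i := fun i => by
    rw [hκ]
    have h2 : (1 : ℝ) ≤ max 1 (m ^ 2) := le_max_left _ _
    have h3 : (0 : ℝ) ≤ i := Nat.cast_nonneg i
    simp only
    linarith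
  have hκm : ∀ i, m ^ 2 ≤ κ i := fun i => by
    rw [hκ]
    have h2 : m ^ 2 ≤ max 1 (m ^ 2) := le_max_right _ _
    have h3 : (0 : ℝ) ≤ i := Nat.cast_nonneg i
    simp only
    linarith
  have hκ0 : ∀ i, 0 < κ i := fun i => lt_of_lt_of_le one_pos (hκ1 i)
  have hκt : Tendsto κ atTop atTop := by
    rw [hκ]
    exact tendsto_atTop_add_const_left _ _ tendsto_natCast_atTop_atTop
  have hex : ∀ i : ℕ, ∃ c : E n → ℝ, ClassC (κ i) c0 C0 m c ∧
      KL V (κ i) c ≤ (1 / ((i : ℝ) + 1)) ^ 2 := by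
    intro i
    refine exists_KL_le (a := c0) (A := A) (hκ0 i) hVd (ClassC (κ i) c0 C0 m) _ (hstart (κ i) (hκ0 i))
      (fun c hc => ⟨gr c, hPG (κ i) (hκ1 i) c hc⟩)
      (fun c hc => step hSC hLL hV hC0 hMV hVs hm.ge (hκ0 i) (hκm i) hc) (by positivity)
  choose c hc hKL using hex
  have hN := fun i => hPG (κ i) (hκ1 i) (c i) (hc i)
  refine mmc_of_levels hc0 hVd.cont hVd.int hκ1 hκt (c := c)
    (fun i => reg_two (hc i).reg) (fun i => (hc i).grad) (fun i => (hc i).zero)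
    (fun i => (hc i).reg.lower) (fun i => (hc i).reg.upper)
    (M := Real.toNNReal (9 / 2 * (2 * m * (A * Real.sqrt A))))
    (fun i => lip_of_class hm0 hA0.le (hc i).reg (hκb (κ i) (hκ1 i)) (hc i).sc) ?_
  have hb : ∀ i, ∫ x : E n, |Real.exp (-V x) / (∫ x, Real.exp (-V x)) -
      Real.exp (-(κ i * c i x - Qx (κ i) (c i) x)) /
        (∫ y : E n, Real.exp (-ph (κ i) (c i) y))| ≤ 2 * (1 / ((i : ℝ) + 1)) := by
    intro i
    obtain ⟨N, r, b, hN', hrel⟩ := step hSC hLL hV hC0 hMV hVs hm.ge (hκ0 i) (hκm i) (hc i)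
    have hQi := int_Q' (hPG (κ i) (hκ1 i) N hN') hVd hrel
    exact tv_le (hN i) (hκ0 i) hVd hQi (by positivity) (hKL i)
  have ht : Tendsto (fun i : ℕ => 2 * (1 / ((i : ℝ) + 1))) atTop (𝓝 0) := by
    have := (tendsto_one_div_add_atTop_nhds_zero_nat (𝕜 := ℝ)).const_mul 2
    simpa using this
  exact squeeze_zero (fun i => integral_nonneg fun x => abs_nonneg _) hb ht

/-- **existence of the moment map for centred regular potentials** -/
theorem stmtMMc_of_sc (hSC : StmtSC) : StmtMMc := by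
  intro n V c0 C0 hV hmean
  rcases Nat.eq_zero_or_pos n with rfl | hn
  · have hz : ∀ v : E 0, ‖v‖ = 0 := fun v => by rw [Subsingleton.elim v 0, norm_zero]
    refine ⟨fun x => -V x, 0, hV.c_pos, ?_, fun x v => ?_, fun x v => ?_, fun i => i.elim0, fun x => ?_⟩
    · exact_mod_cast contDiff_infty.1 hV.smooth.neg 2
    · simp [qf, hz]
    · simp [qf, hz]
    · simp
  · obtain ⟨Z, hZ⟩ : ∃ Z : ℝ, Z = ∫ x, Real.exp (-V x) := ⟨_, rfl⟩
    have hZ0 : 0 < Z := by
      rw [hZ]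
      exact integral_exp_pos (int_exp hV)
    have hV' : Reg (fun x => V x + -(-Real.log Z + (0 : E n →L[ℝ] ℝ) x)) c0 C0 :=
      reg_sub_aff hV 0 (-Real.log Z)
    have hexp : ∀ x : E n, Real.exp (-(V x + -(-Real.log Z + (0 : E n →L[ℝ] ℝ) x))) =
        Z⁻¹ * Real.exp (-V x) := fun x => by
      rw [zero_apply, add_zero, neg_neg, neg_add, Real.exp_add, Real.exp_neg (Real.log Z),
        Real.exp_log hZ0]
      ring
    obtain ⟨ψ, M, h⟩ := mmc_norm hSC hn hV' (by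
      simp only [hexp]
      rw [integral_const_mul, ← hZ, inv_mul_cancel₀ hZ0.ne']) (fun i => by
      simp only [hexp]
      have h2 : ∀ x : E n, x i * (Z⁻¹ * Real.exp (-V x)) = Z⁻¹ * (x i * Real.exp (-V x)) :=
        fun x => by ring
      simp_rw [h2]
      rw [integral_const_mul, hmean i, mul_zero])
    obtain ⟨K, hK⟩ : ∃ K : ℝ, K = -Real.log Z := ⟨_, rfl⟩
    have hpd : ∀ i x, pd i (fun x => ψ x - K) x = pd i ψ x := fun i x => by
      unfold pd
      rw [fderiv_sub_const]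
    have hhess : ∀ x, hess (fun x => ψ x - K) x = hess ψ x := fun x => by
      ext i j
      unfold hess
      have : pd j (fun x => ψ x - K) = pd j ψ := funext fun x => hpd j x
      rw [this]
    refine ⟨fun x => ψ x - K, M, ⟨h.c_pos, h.C2.sub contDiff_const,
      fun x v => by rw [hhess]; exact h.lower x v, fun x v => by rw [hhess]; exact h.upper x v,
      fun i j x y => by rw [hhess, hhess]; exact h.lip i j x y, fun x => ?_⟩⟩
    simp only [hpd, hhess]
    have h2 := h.ma x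
    simp only [zero_apply, add_zero, neg_neg] at h2
    rw [hK]
    linarith

end Vale.Agent.P254.X.D464
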