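import Vale.Agent.P227.M.Defs
import Vale.Agent.P254.Frame829.Inst
import Vale.Agent.P254.R304.Limit

/-! # P254 stage 3 : explicit isotropic constant `L_K ≤ √(e/2π)` for ALL convex bodies (helper821).
Statements of the blocks N1-N5. -/

open MeasureTheory Set Matrix Filter Topology
open scoped Topology

namespace Vale.Agent.P254.X

open Vale.Agent.P227.M

/-- `ψ` is (the Legendre transform of) a `C^{2,1}` moment map potential of `e^{-V}`, `V` not nec. even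
(= `P227.M.MM` without `even`) -/
structure MMc {n : ℕ} (ψ V : E n → ℝ) (c C M : ℝ) : Prop where
  c_pos : 0 < c
  C2 : ContDiff ℝ 2 ψ
  lower : ∀ x v, c * ‖v‖ ^ 2 ≤ qf (hess ψ x) v
  upper : ∀ x v, qf (hess ψ x) v ≤ C * ‖v‖ ^ 2
  lip : ∀ i j x y, |hess ψ x i j - hess ψ y i j| ≤ M * ‖x - y‖
  ma : ∀ x, V x = (∑ i, x i * pd i ψ x) - ψ x - Real.log (hess ψ x).det

/-- `e^{-V}` is centred -/
def Centred {n : ℕ} (V : E n → ℝ) : Prop := ∀ i, Ex V (fun x => x i) = 0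

/-- block N1 -/
def StmtMMc : Prop := ∀ (n : ℕ) (V : E n → ℝ) (c C : ℝ), Reg V c C → Centred V →
  ∃ (ψ : E n → ℝ) (M : ℝ), MMc ψ V c C M

/-- block N2 : the static inequality `|T|² ≤ 4 (n - tr B)` for isotropic `e^{-V}`, `D²V ≥ diag b ≥ 0` -/
def StmtStat : Prop := ∀ (n : ℕ) (ψ V : E n → ℝ) (c C M : ℝ), Reg V c C → MMc ψ V c C M →
  (∀ i j, Ex V (fun x => x i * x j) = if i = j then 1 else 0) →
  ∀ b : Fin n → ℝ, (∀ i, 0 ≤ b i) → (∀ x v, ∑ i, b i * v i ^ 2 ≤ qf (hess V x) v) →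
    ∑ i, ∑ j, ∑ k, (Ex V (fun x => x i * x j * x k)) ^ 2 ≤ 4 * ∑ i, (1 - b i)

/-- block N3 : the same for the nice measures of `Frame829`, in frames -/
def StmtFr : Prop := ∀ (n : ℕ) (K : Set (Fin n → ℝ)), IsCompact K → StrictConvex ℝ K →
  (interior K).Nonempty → ∀ ε m : ℝ, 0 < ε → 0 < m → ∀ (B : Matrix (Fin n) (Fin n) ℝ), B.PosDef →
  ∀ (c : Fin n → ℝ) (L : Matrix (Fin n) (Fin n) ℝ) (β : Fin n → ℝ), IsUnit L →
    L * Fr.AF (Fr.wK K ε m) B c * Lᵀ = 1 → B = Lᵀ * Matrix.diagonal β * L →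
    ∑ i, ∑ j, ∑ k, (Vale.Agent.P254.L.frT L (Fr.TF (Fr.wK K ε m) B c) i j k) ^ 2 ≤ 4 * ∑ i, (1 - β i)

/-- block N4 : output of the minimum principle -/
def StmtEnt : Prop := ∀ (n : ℕ) (K : Set (Fin n → ℝ)), IsCompact K → StrictConvex ℝ K →
  (interior K).Nonempty → ∀ ε m : ℝ, 0 < ε → 0 < m → ∀ (B : Matrix (Fin n) (Fin n) ℝ), B.PosDef →
  ∀ c : Fin n → ℝ,
    (n : ℝ) * (1 / 2 * Real.log (2 * Real.pi * Real.exp 1) - 1)
      + 1 / 2 * Real.log (Fr.AF (Fr.wK K ε m) B c).det ≤ Fr.EntF (Fr.wK K ε m) B c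

end Vale.Agent.P254.X
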