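import Vale.Agent.P227.M.MM.Dir3
import Vale.Agent.P227.M.LK.TV

/-! # P254/X: descent at level `κ` for centred (not even) potentials (helper464). -/

namespace Vale.Agent.P254.X.D464

open MeasureTheory Filter Topology
open scoped RealInnerProductSpace
open Vale.Agent.P227.M.Dir

variable {E : Type*} [NormedAddCommGroup E] [InnerProductSpace ℝ E] [FiniteDimensional ℝ E]
  [MeasurableSpace E] [BorelSpace E]

/-- the mass of `e^{-φ_c}` -/
noncomputable def Zk (κ : ℝ) (c : E → ℝ) : ℝ := ∫ y : E, Real.exp (-ph κ c y)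

/-- normalised member of the class -/
structure Nrm (c : E → ℝ) (g : E → E) (a A : ℝ) : Prop where
  gr : Gr c g a A
  A_pos : 0 < A
  c0 : c 0 = 0
  g0 : g 0 = 0

variable {c N V : E → ℝ} {g gN : E → E} {a A κ r : ℝ} {b : E}

theorem Nrm.Z_pos (h : Nrm c g a A) (hκ : 0 < κ) : 0 < Zk κ c :=
  integral_exp_pos (h.gr.int_exp_ph h.A_pos hκ h.c0 h.g0)

theorem Nrm.nonneg (h : Nrm c g a A) (x : E) : 0 ≤ c x := by
  have h1 := h.gr.br_lo 0 x
  unfold Br at h1
  rw [h.c0, h.g0, inner_zero_left] at h1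
  have h2 : 0 ≤ a / 2 * ‖x - 0‖ ^ 2 := mul_nonneg (half_pos h.gr.a_pos).le (sq_nonneg _)
  linarith

theorem Nrm.le (h : Nrm c g a A) (x : E) : c x ≤ A / 2 * ‖x‖ ^ 2 := h.gr.c_le h.c0 h.g0 x

/-- the key inequality for the mass -/
theorem mass_le (hc : Nrm c g a A) (hN : Nrm N gN a A) (hκ : 0 < κ)
    (hVi : Integrable fun x : E => Real.exp (-V x)) (hV1 : ∫ x : E, Real.exp (-V x) = 1)
    (hrel : ∀ x, κ * N x = V x + Qx κ c x - κ * r - κ * ⟪b, x⟫) :
    (1 + 1 / κ) * Real.log (Zk κ c) ≤ Real.log (Zk κ N) + r := by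
  have hZ := hc.Z_pos hκ
  have hZN := hN.Z_pos hκ
  have hA := hc.A_pos
  obtain ⟨F, hF⟩ : ∃ F : E → E → ℝ, F = fun x y =>
      Real.exp (⟪x, κ • y⟫ - κ * N x - κ * r - κ * ⟪b, x⟫) * Real.exp (-((κ + 1) * ph κ c y)) :=
    ⟨_, rfl⟩
  have hFm : Measurable fun p : E × E => F p.1 p.2 := by
    rw [hF]
    have h1 : Continuous fun p : E × E =>
        Real.exp (⟪p.1, κ • p.2⟫ - κ * N p.1 - κ * r - κ * ⟪b, p.1⟫) := by
      have := hN.gr.cont
      fun_prop
    exact h1.measurable.mul (Real.measurable_exp.comp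
      (((hc.gr.ph_meas (κ := κ)).comp measurable_snd).const_mul _).neg)
  have hFx : ∀ x y, F x y = Real.exp (-(κ * N x) - κ * r - κ * ⟪b, x⟫) *
      Real.exp (⟪y, κ • x⟫ - (κ + 1) * ph κ c y) := by
    intro x y
    rw [hF]
    simp only
    rw [← Real.exp_add, ← Real.exp_add]
    congr 1
    rw [real_inner_smul_right, real_inner_smul_right, real_inner_comm]
    ring
  have hFy : ∀ x y, F x y = Real.exp (-((κ + 1) * ph κ c y) - κ * r) *
      Real.exp (⟪x, κ • (y - b)⟫ - κ * N x) := by
    intro x y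
    rw [hF]
    simp only
    rw [← Real.exp_add, ← Real.exp_add]
    congr 1
    rw [real_inner_smul_right, real_inner_smul_right, inner_sub_right, real_inner_comm b x]
    ring
  have hinx : ∀ x : E, ∫ y : E, F x y = Real.exp (-V x) := by
    intro x
    simp_rw [hFx x]
    rw [integral_const_mul, ← hc.gr.exp_Q hA hκ hc.c0 hc.g0 x, ← Real.exp_add]
    congr 1
    have := hrel x
    linarith
  have hpos : ∀ x y, 0 < F x y := fun x y => by
    rw [hF]
    exact mul_pos (Real.exp_pos _) (Real.exp_pos _)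
  have hFi : Integrable (fun p : E × E => F p.1 p.2) (volume.prod volume) := by
    rw [integrable_prod_iff hFm.aestronglyMeasurable]
    refine ⟨Eventually.of_forall fun x => ?_, ?_⟩
    · simp_rw [hFx]
      exact (hc.gr.int_Q hA hκ hc.c0 hc.g0 x).const_mul _
    · refine hVi.congr (Eventually.of_forall fun x => ?_)
      simp only [Real.norm_eq_abs, abs_of_pos (hpos _ _)]
      exact (hinx x).symm
  have hswap := integral_integral_swap (f := F) hFi
  simp only [hinx] at hswap
  rw [hV1] at hswap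
  have hy : ∀ y : E, ∫ x : E, F x y =
      Real.exp (-ph κ c y) * Real.exp (κ * (ph κ N (y - b) - r - ph κ c y)) := by
    intro y
    simp_rw [hFy _ y]
    rw [integral_const_mul]
    change _ * lapI κ N (y - b) = _
    rw [← hN.gr.exp_ph hκ, ← Real.exp_add, ← Real.exp_add]
    congr 1
    ring
  have hti : Integrable fun y : E => Real.exp (-ph κ c y) *
      Real.exp (κ * (ph κ N (y - b) - r - ph κ c y)) :=
    hFi.integral_prod_right.congr (Eventually.of_forall fun y => hy y)
  have ht1 : ∫ y : E, Real.exp (-ph κ c y) *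
      Real.exp (κ * (ph κ N (y - b) - r - ph κ c y)) = 1 := by
    rw [hswap]
    exact integral_congr_ae (Eventually.of_forall fun y => (hy y).symm)
  have hi3 := hc.gr.int_exp_ph hA hκ hc.c0 hc.g0
  have hi4 : Integrable fun y : E => Real.exp (-ph κ N (y - b)) :=
    (hN.gr.int_exp_ph hA hκ hN.c0 hN.g0).comp_sub_right b
  have hZN' : ∫ y : E, Real.exp (-ph κ N (y - b)) = Zk κ N :=
    integral_sub_right_eq_self (fun y : E => Real.exp (-ph κ N y)) b
  -- pointwise inequality
  have hpt : ∀ y : E, Real.exp (-r) * (Real.exp (1 / κ * Real.log (Zk κ c)) *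
      ((1 + 1 / κ) * Real.exp (-ph κ c y) - (Zk κ c / κ) * (Real.exp (-ph κ c y) *
        Real.exp (κ * (ph κ N (y - b) - r - ph κ c y))))) ≤ Real.exp (-ph κ N (y - b)) := by
    intro y
    set t := Real.exp (κ * (ph κ N (y - b) - r - ph κ c y)) with ht
    have htp : 0 < t := Real.exp_pos _
    have h1 : Real.exp (-ph κ N (y - b)) = Real.exp (-r) * (Real.exp (1 / κ * Real.log (Zk κ c)) *
        (Real.exp (-ph κ c y) * Real.exp (-(1 / κ) * Real.log (t * Zk κ c)))) := by
      rw [Real.log_mul htp.ne' hZ.ne', ht, Real.log_exp, ← Real.exp_add, ← Real.exp_add,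
        ← Real.exp_add]
      congr 1
      field_simp
      ring
    rw [h1]
    refine mul_le_mul_of_nonneg_left ?_ (Real.exp_pos _).le
    refine mul_le_mul_of_nonneg_left ?_ (Real.exp_pos _).le
    have h2 : 1 - (1 / κ) * (t * Zk κ c - 1) ≤ Real.exp (-(1 / κ) * Real.log (t * Zk κ c)) := by
      have h3 := Real.add_one_le_exp (-(1 / κ) * Real.log (t * Zk κ c))
      have h4 := Real.log_le_sub_one_of_pos (mul_pos htp hZ)
      have h5 := mul_le_mul_of_nonneg_left h4 (by positivity : 0 ≤ 1 / κ)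
      linarith
    calc (1 + 1 / κ) * Real.exp (-ph κ c y) - Zk κ c / κ * (Real.exp (-ph κ c y) * t)
        = Real.exp (-ph κ c y) * (1 - (1 / κ) * (t * Zk κ c - 1)) := by ring
      _ ≤ _ := mul_le_mul_of_nonneg_left h2 (Real.exp_pos _).le
  have hint := integral_mono ((((hi3.const_mul (1 + 1 / κ)).sub
    (hti.const_mul (Zk κ c / κ))).const_mul (Real.exp (1 / κ * Real.log (Zk κ c)))).const_mul
      (Real.exp (-r))) hi4 hpt
  have hlhs : ∫ y : E, Real.exp (-r) * (Real.exp (1 / κ * Real.log (Zk κ c)) *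
      ((1 + 1 / κ) * Real.exp (-ph κ c y) - (Zk κ c / κ) * (Real.exp (-ph κ c y) *
        Real.exp (κ * (ph κ N (y - b) - r - ph κ c y))))) =
      Real.exp (-r) * (Real.exp (1 / κ * Real.log (Zk κ c)) * Zk κ c) := by
    rw [integral_const_mul, integral_const_mul, integral_sub (hi3.const_mul _) (hti.const_mul _),
      integral_const_mul, integral_const_mul, ht1]
    unfold Zk
    ring
  have hfin : Real.exp (-r) * (Real.exp (1 / κ * Real.log (Zk κ c)) * Zk κ c) ≤ Zk κ N := by
    rw [← hlhs, ← hZN']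
    exact hint
  have h9 := Real.log_le_log (mul_pos (Real.exp_pos _) (mul_pos (Real.exp_pos _) hZ)) hfin
  rw [Real.log_mul (Real.exp_pos _).ne' (mul_pos (Real.exp_pos _) hZ).ne',
    Real.log_mul (Real.exp_pos _).ne' hZ.ne', Real.log_exp, Real.log_exp] at h9
  linarith

/-- potential of the `x`-marginal -/
noncomputable def Wk (κ : ℝ) (c : E → ℝ) (x : E) : ℝ := κ * c x - Qx κ c x + Real.log (Zk κ c)

/-- relative entropy -/
noncomputable def KL (V : E → ℝ) (κ : ℝ) (c : E → ℝ) : ℝ :=
  ∫ x : E, (Wk κ c x - V x) * Real.exp (-V x)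

/-- the functional -/
noncomputable def Jf (V : E → ℝ) (κ : ℝ) (c : E → ℝ) : ℝ :=
  (∫ x : E, c x * Real.exp (-V x)) - Real.log (Zk κ c)

/-- integrability data of the potential -/
structure Vd (V : E → ℝ) : Prop where
  cont : Continuous V
  int : Integrable fun x : E => Real.exp (-V x)
  one : ∫ x : E, Real.exp (-V x) = 1
  intV : Integrable fun x : E => V x * Real.exp (-V x)
  int2 : Integrable fun x : E => ‖x‖ ^ 2 * Real.exp (-V x)
  mean : ∀ b : E, ∫ x : E, ⟪b, x⟫ * Real.exp (-V x) = 0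

theorem Vd.int_inner (hV : Vd V) (b : E) : Integrable fun x : E => ⟪b, x⟫ * Real.exp (-V x) := by
  have h1 : Integrable fun x : E => ‖b‖ * Real.exp (-V x) + ‖b‖ * (‖x‖ ^ 2 * Real.exp (-V x)) :=
    (hV.int.const_mul _).add (hV.int2.const_mul _)
  have hm : Continuous fun x : E => ⟪b, x⟫ * Real.exp (-V x) := by
    have := hV.cont
    fun_prop
  refine h1.mono' hm.aestronglyMeasurable (Eventually.of_forall fun x => ?_)
  rw [Real.norm_eq_abs, abs_mul, abs_of_pos (Real.exp_pos _)]
  have h2 := abs_real_inner_le_norm b x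
  have h3 : ‖x‖ ≤ 1 + ‖x‖ ^ 2 := by nlinarith [sq_nonneg (‖x‖ - 1), norm_nonneg x]
  have h4 : |⟪b, x⟫| ≤ ‖b‖ * (1 + ‖x‖ ^ 2) :=
    h2.trans (mul_le_mul_of_nonneg_left h3 (norm_nonneg b))
  calc |⟪b, x⟫| * Real.exp (-V x) ≤ (‖b‖ * (1 + ‖x‖ ^ 2)) * Real.exp (-V x) :=
        mul_le_mul_of_nonneg_right h4 (Real.exp_pos _).le
    _ = _ := by ring

theorem Nrm.int_c (h : Nrm c g a A) (hV : Vd V) : Integrable fun x : E => c x * Real.exp (-V x) := by
  have hm : Continuous fun x : E => c x * Real.exp (-V x) := by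
    have := hV.cont
    have := h.gr.cont
    fun_prop
  refine (hV.int2.const_mul (A / 2)).mono' hm.aestronglyMeasurable (Eventually.of_forall fun x => ?_)
  rw [Real.norm_eq_abs, abs_mul, abs_of_pos (Real.exp_pos _), abs_of_nonneg (h.nonneg x)]
  calc c x * Real.exp (-V x) ≤ (A / 2 * ‖x‖ ^ 2) * Real.exp (-V x) :=
        mul_le_mul_of_nonneg_right (h.le x) (Real.exp_pos _).le
    _ = _ := by ring

/-- integrability of `Q` -/
theorem int_Q' (hN : Nrm N gN a A) (hV : Vd V)
    (hrel : ∀ x, κ * N x = V x + Qx κ c x - κ * r - κ * ⟪b, x⟫) :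
    Integrable fun x : E => Qx κ c x * Real.exp (-V x) := by
  have h1 := ((((hN.int_c hV).const_mul κ).sub hV.intV).add (hV.int.const_mul (κ * r))).add
    ((hV.int_inner b).const_mul κ)
  refine h1.congr (Eventually.of_forall fun x => ?_)
  simp only [Pi.sub_apply, Pi.add_apply]
  have := hrel x
  have e : Qx κ c x = κ * N x - V x + κ * r + κ * ⟪b, x⟫ := by linarith
  rw [e]
  ring

theorem KL_eq (hc : Nrm c g a A) (hV : Vd V)
    (hQi : Integrable fun x : E => Qx κ c x * Real.exp (-V x)) :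
    KL V κ c = κ * (∫ x : E, c x * Real.exp (-V x)) - (∫ x : E, Qx κ c x * Real.exp (-V x))
      + Real.log (Zk κ c) - ∫ x : E, V x * Real.exp (-V x) := by
  unfold KL
  have h1 : (fun x : E => (Wk κ c x - V x) * Real.exp (-V x)) = fun x =>
      ((κ * (c x * Real.exp (-V x)) - Qx κ c x * Real.exp (-V x)) +
        Real.log (Zk κ c) * Real.exp (-V x)) - V x * Real.exp (-V x) := by
    ext x
    unfold Wk
    ring
  have i1 : Integrable fun x : E => κ * (c x * Real.exp (-V x)) := (hc.int_c hV).const_mul κ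
  have i2 : Integrable fun x : E => κ * (c x * Real.exp (-V x)) - Qx κ c x * Real.exp (-V x) :=
    i1.sub hQi
  have i3 : Integrable fun x : E => Real.log (Zk κ c) * Real.exp (-V x) := hV.int.const_mul _
  have i4 : Integrable fun x : E => κ * (c x * Real.exp (-V x)) - Qx κ c x * Real.exp (-V x)
    + Real.log (Zk κ c) * Real.exp (-V x) := i2.add i3
  rw [h1, integral_sub i4 hV.intV, integral_add i2 i3, integral_sub i1 hQi,
    integral_const_mul, integral_const_mul, hV.one, mul_one]

/-- **descent** -/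
theorem descent (hc : Nrm c g a A) (hN : Nrm N gN a A) (hκ : 0 < κ) (hV : Vd V)
    (hrel : ∀ x, κ * N x = V x + Qx κ c x - κ * r - κ * ⟪b, x⟫) :
    Jf V κ N ≤ Jf V κ c - KL V κ c / κ := by
  have hQi := int_Q' hN hV hrel
  have hm := mass_le hc hN hκ hV.int hV.one hrel
  have e1 : κ * ∫ x : E, N x * Real.exp (-V x) =
      (∫ x : E, V x * Real.exp (-V x)) + (∫ x : E, Qx κ c x * Real.exp (-V x)) - κ * r := by
    have h1 : (fun x : E => κ * (N x * Real.exp (-V x))) = fun x =>
        ((V x * Real.exp (-V x) + Qx κ c x * Real.exp (-V x)) - κ * r * Real.exp (-V x)) -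
          κ * (⟪b, x⟫ * Real.exp (-V x)) := by
      ext x
      have := hrel x
      rw [← mul_assoc, this]
      ring
    have i1 : Integrable fun x : E => V x * Real.exp (-V x) + Qx κ c x * Real.exp (-V x) :=
      hV.intV.add hQi
    have i2 : Integrable fun x : E => V x * Real.exp (-V x) + Qx κ c x * Real.exp (-V x)
        - κ * r * Real.exp (-V x) := i1.sub (hV.int.const_mul _)
    rw [← integral_const_mul, h1, integral_sub i2 ((hV.int_inner b).const_mul κ),
      integral_sub i1 (hV.int.const_mul _), integral_add hV.intV hQi, integral_const_mul,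
      integral_const_mul, hV.one, hV.mean b]
    ring
  rw [KL_eq hc hV hQi]
  unfold Jf
  have e2 : ∫ x : E, N x * Real.exp (-V x) =
      ((∫ x : E, V x * Real.exp (-V x)) + (∫ x : E, Qx κ c x * Real.exp (-V x))) / κ - r := by
    rw [eq_sub_iff_add_eq, eq_div_iff hκ.ne']
    linarith
  rw [e2]
  have e3 : (κ * (∫ x : E, c x * Real.exp (-V x)) - (∫ x : E, Qx κ c x * Real.exp (-V x))
      + Real.log (Zk κ c) - ∫ x : E, V x * Real.exp (-V x)) / κ =
      (∫ x : E, c x * Real.exp (-V x)) - ((∫ x : E, V x * Real.exp (-V x)) +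
        (∫ x : E, Qx κ c x * Real.exp (-V x))) / κ + (1 / κ) * Real.log (Zk κ c) := by
    field_simp
    ring
  rw [e3]
  nlinarith [hm]

/-- lower bound of the functional -/
theorem J_ge (hc : Nrm c g a A) (hκ : 0 < κ) :
    1 / κ * Real.log (Gs E (κ * (A / 2))) - Real.log (Gs E (1 / (2 * A))) ≤ Jf V κ c := by
  have hA := hc.A_pos
  have hb : 0 < 1 / (2 * A) := by positivity
  have h1 : 0 ≤ ∫ x : E, c x * Real.exp (-V x) :=
    integral_nonneg fun x => mul_nonneg (hc.nonneg x) (Real.exp_pos _).le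
  have h2 : Zk κ c ≤ Real.exp (-(1 / κ * Real.log (Gs E (κ * (A / 2))))) * Gs E (1 / (2 * A)) := by
    have h3 := integral_gauss (E := E) hb 0
    simp only [sub_zero] at h3
    rw [← h3, ← integral_const_mul]
    refine integral_mono (hc.gr.int_exp_ph hA hκ hc.c0 hc.g0)
      ((integrable_gauss (E := E) hb).const_mul _) fun y => ?_
    simp only
    rw [← Real.exp_add]
    refine Real.exp_le_exp.2 ?_
    have h4 := hc.gr.ph_ge hA hκ hc.c0 hc.g0 y
    have h5 : -(1 / (2 * A)) * ‖y‖ ^ 2 = -(‖y‖ ^ 2 / (2 * A)) := by field_simp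
    rw [h5]
    linarith
  have h6 := Real.log_le_log (hc.Z_pos hκ) h2
  rw [Real.log_mul (Real.exp_pos _).ne' (Gs_pos hb).ne', Real.log_exp] at h6
  unfold Jf
  linarith

/-- small relative entropy along the iteration -/
theorem exists_KL_le (hκ : 0 < κ) (hV : Vd V) (P : (E → ℝ) → Prop) (c₀ : E → ℝ) (h0 : P c₀)
    (hPG : ∀ c, P c → ∃ g : E → E, Nrm c g a A)
    (hstep : ∀ c, P c → ∃ (N : E → ℝ) (r : ℝ) (b : E), P N ∧
      ∀ x, κ * N x = V x + Qx κ c x - κ * r - κ * ⟪b, x⟫) {ε : ℝ} (hε : 0 < ε) :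
    ∃ c, P c ∧ KL V κ c ≤ ε := by
  by_contra hcon
  simp only [not_exists, not_and, not_le] at hcon
  choose! nx r b hnx hrel using hstep
  have hPi : ∀ i : ℕ, P (nx^[i] c₀) := by
    intro i
    induction i with
    | zero => exact h0
    | succ i ih =>
      rw [Function.iterate_succ_apply']
      exact hnx _ ih
  have hJi : ∀ i : ℕ, Jf V κ (nx^[i] c₀) ≤ Jf V κ c₀ - i * (ε / κ) := by
    intro i
    induction i with
    | zero => simp
    | succ i ih =>
      rw [Function.iterate_succ_apply']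
      obtain ⟨g1, hg1⟩ := hPG _ (hPi i)
      obtain ⟨g2, hg2⟩ := hPG _ (hnx _ (hPi i))
      have h1 := descent hg1 hg2 hκ hV (hrel _ (hPi i))
      have h2 := (hcon _ (hPi i)).le
      have h3 : ε / κ ≤ KL V κ (nx^[i] c₀) / κ := by gcongr
      push_cast
      linarith
  obtain ⟨i, hi⟩ := exists_nat_gt ((Jf V κ c₀ - (1 / κ * Real.log (Gs E (κ * (A / 2))) -
    Real.log (Gs E (1 / (2 * A))))) / (ε / κ))
  obtain ⟨gi, hgi⟩ := hPG _ (hPi i)
  have h1 := J_ge (V := V) hgi hκ
  have h2 := hJi i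
  rw [div_lt_iff₀ (by positivity)] at hi
  linarith

theorem exp_Wk (hc : Nrm c g a A) (hκ : 0 < κ) (x : E) :
    Real.exp (-Wk κ c x) = Real.exp (-(κ * c x - Qx κ c x)) / Zk κ c := by
  unfold Wk
  rw [neg_add, Real.exp_add, Real.exp_neg (Real.log _), Real.exp_log (hc.Z_pos hκ)]
  rfl

theorem int_marg (hc : Nrm c g a A) (hκ : 0 < κ) :
    Integrable (fun x : E => Real.exp (-(κ * c x - Qx κ c x))) ∧
      ∫ x : E, Real.exp (-(κ * c x - Qx κ c x)) = Zk κ c := by
  have hA := hc.A_pos
  have hK := hc.gr.integrable_Kk hA hκ hc.c0 hc.g0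
  have hx : ∀ x : E, ∫ y : E, Kk κ c x y = Real.exp (-(κ * c x - Qx κ c x)) := by
    intro x
    rw [show -(κ * c x - Qx κ c x) = -(κ * c x) + Qx κ c x by ring, Real.exp_add,
      hc.gr.exp_Q hA hκ hc.c0 hc.g0 x, ← integral_const_mul]
    refine integral_congr_ae (Eventually.of_forall fun y => ?_)
    simp only [Kk]
    rw [← Real.exp_add, ← Real.exp_add]
    congr 1
    rw [real_inner_smul_right, real_inner_smul_right, real_inner_comm]
    ring
  refine ⟨hK.integral_prod_left.congr (Eventually.of_forall fun x => hx x), ?_⟩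
  have h1 := integral_integral_swap (f := fun (x y : E) => Kk κ c x y) hK
  simp only [hx] at h1
  rw [h1]
  unfold Zk
  exact integral_congr_ae (Eventually.of_forall fun y => hc.gr.int_Kk_x hκ y)

/-- small relative entropy implies closeness in total variation -/
theorem tv_le (hc : Nrm c g a A) (hκ : 0 < κ) (hV : Vd V)
    (hQi : Integrable fun x : E => Qx κ c x * Real.exp (-V x)) {η : ℝ} (hη : 0 < η)
    (hK : KL V κ c ≤ η ^ 2) :
    ∫ x : E, |Real.exp (-V x) / (∫ x : E, Real.exp (-V x)) -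
      Real.exp (-(κ * c x - Qx κ c x)) / (∫ y : E, Real.exp (-ph κ c y))| ≤ 2 * η := by
  have hZ := hc.Z_pos hκ
  obtain ⟨hi, he⟩ := int_marg hc hκ
  have hWi : Integrable fun x : E => Real.exp (-Wk κ c x) := by
    simp_rw [exp_Wk hc hκ]
    exact hi.div_const _
  have hW1 : ∫ x : E, Real.exp (-Wk κ c x) = 1 := by
    simp_rw [exp_Wk hc hκ]
    rw [integral_div, he, div_self hZ.ne']
  have hKi : Integrable fun x : E => (Wk κ c x - V x) * Real.exp (-V x) := by
    have h1 := ((((hc.int_c hV).const_mul κ).sub hQi).add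
      (hV.int.const_mul (Real.log (Zk κ c)))).sub hV.intV
    refine h1.congr (Eventually.of_forall fun x => ?_)
    simp only [Pi.sub_apply, Pi.add_apply, Wk]
    ring
  have hmW : Measurable fun x : E => Real.exp (-Wk κ c x) := by
    have h1 : StronglyMeasurable (fun x : E => ∫ y : E, Kk κ c x y) := by
      have hm : Measurable (fun p : E × E => Kk κ c p.1 p.2) := by
        unfold Kk
        have h1 : Measurable (fun p : E × E => Real.exp (⟪p.1, κ • p.2⟫ - κ * c p.1)) := by
          have := hc.gr.cont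
          exact Continuous.measurable (by fun_prop)
        exact h1.mul (Real.measurable_exp.comp
          (((hc.gr.ph_meas (κ := κ)).comp measurable_snd).const_mul _).neg)
      exact hm.stronglyMeasurable.integral_prod_right'
    have h2 : ∀ x : E, Real.exp (-Wk κ c x) = (∫ y : E, Kk κ c x y) / Zk κ c := by
      intro x
      rw [exp_Wk hc hκ]
      congr 1
      rw [show -(κ * c x - Qx κ c x) = -(κ * c x) + Qx κ c x by ring, Real.exp_add,
        hc.gr.exp_Q hc.A_pos hκ hc.c0 hc.g0 x, ← integral_const_mul]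
      refine integral_congr_ae (Eventually.of_forall fun y => ?_)
      simp only [Kk]
      rw [← Real.exp_add, ← Real.exp_add]
      congr 1
      rw [real_inner_smul_right, real_inner_smul_right, real_inner_comm]
      ring
    simp_rw [h2]
    exact h1.measurable.div_const _
  have hmV : Measurable fun x : E => Real.exp (-V x) :=
    (Real.continuous_exp.comp hV.cont.neg).measurable
  obtain ⟨F, hF⟩ : ∃ F : E → ℝ, F = fun x =>
      if Real.exp (-V x) ≤ Real.exp (-Wk κ c x) then (1 : ℝ) else -1 := ⟨_, rfl⟩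
  have hFm : Measurable F := by
    rw [hF]
    exact Measurable.ite (measurableSet_le hmV hmW) measurable_const measurable_const
  have hFb : ∀ x, |F x| ≤ 1 := by
    intro x
    rw [hF]
    simp only
    by_cases h : Real.exp (-V x) ≤ Real.exp (-Wk κ c x)
    · rw [if_pos h]; simp
    · rw [if_neg h]; simp
  have h1 := Vale.Agent.P227.M.LK.abs_sub_le_of_KL (μ := (volume : Measure E)) hη hV.int hWi hV.one
    hW1 hKi hK hFm.aestronglyMeasurable zero_le_one hFb
  have hFW : Integrable fun x : E => F x * Real.exp (-Wk κ c x) :=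
    hWi.bdd_mul hFm.aestronglyMeasurable (Eventually.of_forall fun x => hFb x)
  have hFV : Integrable fun x : E => F x * Real.exp (-V x) :=
    hV.int.bdd_mul hFm.aestronglyMeasurable (Eventually.of_forall fun x => hFb x)
  rw [← integral_sub hFW hFV] at h1
  have h2 : ∀ x : E, |Real.exp (-V x) / (∫ x : E, Real.exp (-V x)) -
      Real.exp (-(κ * c x - Qx κ c x)) / (∫ y : E, Real.exp (-ph κ c y))| =
      F x * Real.exp (-Wk κ c x) - F x * Real.exp (-V x) := by
    intro x
    rw [hV.one, div_one]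
    change |Real.exp (-V x) - Real.exp (-(κ * c x - Qx κ c x)) / Zk κ c| = _
    rw [← exp_Wk hc hκ, ← mul_sub, hF]
    simp only
    by_cases h : Real.exp (-V x) ≤ Real.exp (-Wk κ c x)
    · rw [if_pos h, abs_of_nonpos (by linarith)]; ring
    · rw [if_neg h, abs_of_nonneg (by linarith [not_le.1 h])]; ring
  simp_rw [h2]
  have h3 := (le_abs_self _).trans h1
  linarith

end Vale.Agent.P254.X.D464
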