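import Vale.Agent.P227.M.MM.Desc345
import Vale.Agent.P227.M.LK.Descent

/-! # P254/X (helper345): descent and law of `∇φ` at level `k` for CENTRED (not nec. even) potentials -/

open MeasureTheory Set Filter Topology

namespace Vale.Agent.P254.X

open Vale.Agent.P227.M Vale.Agent.P227.M.MM

/-- the level-`k` map, normalised to have value and gradient `0` at `0` -/
noncomputable def TKc {n : ℕ} (k : ℝ) (V c : E n → ℝ) (x : E n) : ℝ :=
  (V x + QK k c x) / k - (V 0 + QK k c 0) / k - fderiv ℝ (fun z => (V z + QK k c z) / k) 0 x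

/-- the invariant class at level `k` -/
structure ClsC {n : ℕ} (k c₀ C₀ m : ℝ) (c : E n → ℝ) : Prop where
  reg : Reg c (c₀ * (k + 1) / k) (C₀ * (k + 1) / k)
  sc : SelfConc m c
  zero : c 0 = 0
  grad : fderiv ℝ c 0 = 0

/-- iterates of the level-`k` map, started at a quadratic -/
noncomputable def itKc {n : ℕ} (k c₀ : ℝ) (V : E n → ℝ) : ℕ → E n → ℝ
  | 0 => fun x => c₀ * (k + 1) / k / 2 * ‖x‖ ^ 2
  | i + 1 => TKc k V (itKc k c₀ V i)

/-- descent and the law of `∇φ`, centred case -/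
def StmtDescC : Prop := ∀ (n : ℕ), 0 < n → ∀ (V : E n → ℝ) (c₀ C₀ m k : ℝ), Reg V c₀ C₀ →
  (∀ i, ∫ x : E n, x i * Real.exp (-V x) = 0) → 0 ≤ m → 1 ≤ k →
  (∀ i, ClsC k c₀ C₀ m (itKc k c₀ V i)) →
  (∀ i, Reg (phiK k (itKc k c₀ V i)) (k / ((k + 1) * C₀)) (k / ((k + 1) * c₀))) →
  ∀ ε > 0, ∃ i : ℕ, ∀ F : E n → ℝ, LipschitzWith 1 F → (∀ x, |F x| ≤ 1) →
    |(∫ y, F (gradient (phiK k (itKc k c₀ V i)) y) * Real.exp (-phiK k (itKc k c₀ V i) y)) /
        (∫ y, Real.exp (-phiK k (itKc k c₀ V i) y))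
      - (∫ x, F x * Real.exp (-V x)) / (∫ x, Real.exp (-V x))| ≤ Real.sqrt (n / (c₀ * k)) + ε

namespace D345

variable {n : ℕ}

theorem phi_br (k : ℝ) (c : E n → ℝ) : Desc.phi k c = phiK k c := by
  funext y
  unfold Desc.phi phiK Desc.Lam logLap
  rw [div_eq_inv_mul, one_div]

theorem Qk_br (k : ℝ) (c : E n → ℝ) : Desc.Qk k c = QK k c := by
  funext x
  unfold Desc.Qk QK
  rw [phi_br]
  rfl

theorem phi_shift {k : ℝ} (hk : 0 < k) {c : E n → ℝ} {α β A B : ℝ} (h : Desc.Gr α β A B c) (s : ℝ) (g y : E n) :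
    Desc.phi k (fun x => c x + (s + inner ℝ x g)) y = Desc.phi k c (y - g) - s := by
  unfold Desc.phi Desc.Lam
  have h1 : ∀ x : E n, Real.exp (inner ℝ x (k • y) - k * (c x + (s + inner ℝ x g)))
      = Real.exp (-(k * s)) * Real.exp (inner ℝ x (k • (y - g)) - k * c x) := by
    intro x
    rw [← Real.exp_add]
    congr 1
    simp only [inner_smul_right, inner_sub_right]
    ring
  simp_rw [h1]
  rw [integral_const_mul, Real.log_mul (Real.exp_pos _).ne' ((h.const_mul hk).integral_pos _).ne', Real.log_exp]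
  field_simp
  ring

theorem Z_shift {k : ℝ} (hk : 0 < k) {c : E n → ℝ} {α β A B : ℝ} (h : Desc.Gr α β A B c) (s : ℝ) (g : E n) :
    Desc.Z k (fun x => c x + (s + inner ℝ x g)) = Real.exp s * Desc.Z k c := by
  unfold Desc.Z
  have h1 : ∀ y : E n, Real.exp (-(Desc.phi k (fun x => c x + (s + inner ℝ x g)) y))
      = Real.exp s * Real.exp (-(Desc.phi k c (y - g))) := by
    intro y
    rw [phi_shift hk h, ← Real.exp_add]
    congr 1
    ring
  simp_rw [h1]
  rw [integral_const_mul, integral_sub_right_eq_self (fun y => Real.exp (-(Desc.phi k c y))) g]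

theorem J_shift {k : ℝ} (hk : 0 < k) {c V : E n → ℝ} {α β A B αV βV AV BV : ℝ} (h : Desc.Gr α β A B c)
    (hV : Desc.Gr αV βV AV BV V) (hV1 : ∫ x, Real.exp (-(V x)) = 1) (s : ℝ) (g : E n)
    (hi : Integrable fun x : E n => inner ℝ x g * Real.exp (-(V x)))
    (h0 : ∫ x : E n, inner ℝ x g * Real.exp (-(V x)) = 0) :
    Desc.J k V (fun x => c x + (s + inner ℝ x g)) = Desc.J k V c := by
  unfold Desc.J
  rw [Z_shift hk h, Real.log_mul (Real.exp_pos _).ne' (Desc.Z_pos hk h).ne', Real.log_exp]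
  have h1 : ∫ x, (c x + (s + inner ℝ x g)) * Real.exp (-(V x)) = (∫ x, c x * Real.exp (-(V x))) + s := by
    have e : ∀ x : E n, (c x + (s + inner ℝ x g)) * Real.exp (-(V x)) =
        c x * Real.exp (-(V x)) + (s * Real.exp (-(V x)) + inner ℝ x g * Real.exp (-(V x))) := fun x => by ring
    simp_rw [e]
    have i2 : Integrable fun x : E n => s * Real.exp (-(V x)) + inner ℝ x g * Real.exp (-(V x)) :=
      (hV.integrable_exp_neg.const_mul s).add hi
    rw [integral_add (hV.integrable_self h) i2,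
      integral_add (hV.integrable_exp_neg.const_mul s) hi, integral_const_mul, hV1, h0]
    ring
  rw [h1]
  ring

/-- quadratic growth of regular potentials -/
theorem gr_of_reg {V : E n → ℝ} {a b : ℝ} (h : Reg V a b) : ∃ α β A B : ℝ, Desc.Gr α β A B V := by
  have ha := h.c_pos
  refine ⟨a / 2, |b| + 1, V 0 - ‖fderiv ℝ V 0‖ ^ 2 / a, V 0 + ‖fderiv ℝ V 0‖ ^ 2 / 2, by positivity, by positivity,
    h.smooth.continuous.measurable, fun x => ?_, fun x => ?_⟩
  · have h1 := (Lap.taylor_bounds h 0 x).1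
    rw [zero_add] at h1
    have h2 : |fderiv ℝ V 0 x| ≤ ‖fderiv ℝ V 0‖ * ‖x‖ := by
      simpa using (fderiv ℝ V 0).le_opNorm x
    have h3 := neg_abs_le (fderiv ℝ V 0 x)
    have h4 : 0 ≤ (a / 2 * ‖x‖ - ‖fderiv ℝ V 0‖) ^ 2 / a := by positivity
    have h5 : (a / 2 * ‖x‖ - ‖fderiv ℝ V 0‖) ^ 2 / a = a / 4 * ‖x‖ ^ 2 - ‖fderiv ℝ V 0‖ * ‖x‖
        + ‖fderiv ℝ V 0‖ ^ 2 / a := by
      field_simp
      ring
    nlinarith
  · have h1 := (Lap.taylor_bounds h 0 x).2
    rw [zero_add] at h1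
    have h2 : |fderiv ℝ V 0 x| ≤ ‖fderiv ℝ V 0‖ * ‖x‖ := by
      simpa using (fderiv ℝ V 0).le_opNorm x
    have h3 := le_abs_self (fderiv ℝ V 0 x)
    have h4 := le_abs_self b
    nlinarith [sq_nonneg (‖x‖ - ‖fderiv ℝ V 0‖), sq_nonneg ‖x‖, mul_le_mul_of_nonneg_right h4 (sq_nonneg ‖x‖)]

theorem qg1 {c : E n → ℝ} {a b : ℝ} (h : Reg c a b) (h0 : fderiv ℝ c 0 = 0) (x : E n) :
    a / 2 * ‖x‖ ^ 2 ≤ c x - c 0 ∧ c x - c 0 ≤ b / 2 * ‖x‖ ^ 2 := by
  have h2 := Lap.taylor_bounds h 0 x
  rw [zero_add, h0] at h2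
  simpa using h2

theorem qgA {c : E n → ℝ} {a b : ℝ} (h : Reg c a b) (h0 : fderiv ℝ c 0 = 0) : Desc.Qg a b c :=
  ⟨h.smooth.continuous.measurable, fun x => (qg1 h h0 x).1, fun x => (qg1 h h0 x).2⟩

theorem qgB {c : E n → ℝ} {a b : ℝ} (h : Reg c a b) (h0 : fderiv ℝ c 0 = 0) : LK.Dsc.Qg a b c :=
  ⟨h.smooth.continuous.measurable, fun x => by linarith [(qg1 h h0 x).1], fun x => by linarith [(qg1 h h0 x).2]⟩

/-- the law of `∇φ` at level `k` (no evenness) -/
theorem law {k a b σ B : ℝ} (hk : 0 < k) {c : E n → ℝ} (hc : Reg c a b) (hg : LK.Dsc.Qg a b c) (hb : 0 < b)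
    (hW : Reg (fun x => k * c x) (k * a) (k * b))
    (hσ : ∀ z v, qf (hess (logLap (fun x => k * c x)) z) v ≤ σ * ‖v‖ ^ 2)
    (hB : 0 < B) (hB2 : n * σ ≤ B ^ 2) {F : E n → ℝ} (hF : LipschitzWith 1 F) (hF1 : ∀ x, |F x| ≤ 1) :
    |(∫ y, F (gradient (phiK k c) y) * Real.exp (-phiK k c y))
      - ∫ x, F x * Real.exp (-(k * c x - QK k c x))| ≤ B * ∫ y, Real.exp (-phiK k c y) := by
  have ha := hc.c_pos
  have hφ : ContDiff ℝ (⊤ : ℕ∞) (phiK k c) := by
    have h4 : phiK k c = fun y : E n => (1 / k) * logLap (fun x => k * c x) (k • y) := rfl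
    rw [h4]
    exact contDiff_const.mul ((Lap.contDiff_logLap hW).comp (contDiff_const_smul k))
  have hφc : Continuous (phiK k c) := hφ.continuous
  have hcc : Continuous c := hc.smooth.continuous
  have hgr : Continuous (gradient (phiK k c)) := by
    have h1 : Continuous (fderiv ℝ (phiK k c)) := hφ.continuous_fderiv (by simp)
    unfold gradient
    exact (InnerProductSpace.toDual ℝ (E n)).symm.continuous.comp h1
  have hJeq : ∀ x y : E n, Real.exp (k * inner ℝ x y - k * c x - (k + 1) * LK.Dsc.phi k c y)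
      = Real.exp (-((k + 1) * LK.Dsc.phi k c y)) * Real.exp (inner ℝ x (k • y) - k * c x) := by
    intro x y
    rw [← Real.exp_add, inner_smul_right]
    congr 1
    ring
  have hgi : ∀ (y : E n) (i : Fin n), gradient (phiK k c) y i = Lap.tmean (fun x => k * c x) (k • y) (ei i) := by
    intro y i
    rw [← MM.D345.fderiv_phi hk hW, ← MM.D345.inner_ei']
    unfold gradient
    rw [InnerProductSpace.toDual_symm_apply]
  have hvar : ∀ y : E n, Integrable (fun x : E n => ‖x - gradient (phiK k c) y‖ ^ 2 *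
      Real.exp (k * inner ℝ x y - k * c x - (k + 1) * LK.Dsc.phi k c y)) ∧
      ∫ x : E n, ‖x - gradient (phiK k c) y‖ ^ 2 *
      Real.exp (k * inner ℝ x y - k * c x - (k + 1) * LK.Dsc.phi k c y) ≤ B ^ 2 * Real.exp (-phiK k c y) := by
    intro y
    obtain ⟨h1, h2⟩ := MM.D345.var_le hW hσ (k • y) (gradient (phiK k c) y) (hgi y)
    have h3 : ∀ x : E n, ‖x - gradient (phiK k c) y‖ ^ 2 *
      Real.exp (k * inner ℝ x y - k * c x - (k + 1) * LK.Dsc.phi k c y)
        = Real.exp (-((k + 1) * LK.Dsc.phi k c y)) * (‖x - gradient (phiK k c) y‖ ^ 2 * Real.exp (inner ℝ x (k • y) - k * c x)) := by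
      intro x
      rw [hJeq]
      ring
    simp_rw [h3]
    refine ⟨h1.const_mul _, ?_⟩
    rw [integral_const_mul]
    have h4 := hg.marg_y hk ha y
    simp_rw [hJeq] at h4
    rw [integral_const_mul] at h4
    calc Real.exp (-((k + 1) * LK.Dsc.phi k c y)) * ∫ x : E n, ‖x - gradient (phiK k c) y‖ ^ 2 * Real.exp (inner ℝ x (k • y) - k * c x)
        ≤ Real.exp (-((k + 1) * LK.Dsc.phi k c y)) * ((n * σ) * ∫ x : E n, Real.exp (inner ℝ x (k • y) - k * c x)) :=
          mul_le_mul_of_nonneg_left h2 (Real.exp_pos _).le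
      _ = (n * σ) * Real.exp (-LK.Dsc.phi k c y) := by rw [← h4]; ring
      _ ≤ B ^ 2 * Real.exp (-LK.Dsc.phi k c y) := mul_le_mul_of_nonneg_right hB2 (Real.exp_pos _).le
      _ = _ := rfl
  have hm : Continuous (fun z : E n × E n => ‖z.1 - gradient (phiK k c) z.2‖ ^ 2 *
      Real.exp (k * inner ℝ z.1 z.2 - k * c z.1 - (k + 1) * LK.Dsc.phi k c z.2)) := by
    have hφc' : Continuous (LK.Dsc.phi k c) := hφc
    fun_prop
  have h := LIM.level_push (E := E n)
    (J := fun x y => Real.exp (k * inner ℝ x y - k * c x - (k + 1) * LK.Dsc.phi k c y))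
    (fun x y => (Real.exp_pos _).le) (hg.int_joint hk ha hb)
    (p := fun y => Real.exp (-phiK k c y)) (q := fun x => Real.exp (-(k * c x - QK k c x)))
    (fun x => hg.marg_x hk ha hb x) (fun y => hg.marg_y hk ha y) (g := gradient (phiK k c)) hgr hB
    (by
      rw [integrable_prod_iff' hm.aestronglyMeasurable]
      refine ⟨Eventually.of_forall fun y => (hvar y).1, ?_⟩
      have hint := (hg.int3 hk ha hb).const_mul (B ^ 2)
      refine hint.mono' ?_ (Eventually.of_forall fun y => ?_)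
      · exact hm.norm.aestronglyMeasurable.prod_swap.integral_prod_right'
      · rw [Real.norm_of_nonneg (integral_nonneg fun x => norm_nonneg _)]
        have h5 : ∀ x : E n, ‖‖x - gradient (phiK k c) y‖ ^ 2 *
            Real.exp (k * inner ℝ x y - k * c x - (k + 1) * LK.Dsc.phi k c y)‖ = ‖x - gradient (phiK k c) y‖ ^ 2 *
            Real.exp (k * inner ℝ x y - k * c x - (k + 1) * LK.Dsc.phi k c y) := fun x =>
          Real.norm_of_nonneg (by positivity)
        simp only [h5]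
        exact (hvar y).2)
    (fun y => (hvar y).2) (F := F) (L := 1) (K := 1) zero_le_one
    (fun x y => by
      have := hF.dist_le_mul x y
      simpa [Real.dist_eq, dist_eq_norm] using this) hF1
  rw [one_mul] at h
  exact h

/-- adding a constant to `V` does not change the normalised map -/
theorem TKc_shift {k : ℝ} {V : E n → ℝ} (s : ℝ) (c : E n → ℝ) :
    TKc k (fun x => V x + s) c = TKc k V c := by
  funext x
  unfold TKc
  have h1 : (fun z => (V z + s + QK k c z) / k) = fun z => (V z + QK k c z) / k + s / k := by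
    funext z
    ring
  rw [h1, fderiv_add_const]
  ring

theorem itKc_shift {k c₀ : ℝ} {V : E n → ℝ} (s : ℝ) : ∀ i, itKc k c₀ (fun x => V x + s) i = itKc k c₀ V i
  | 0 => rfl
  | i + 1 => by
    change TKc k (fun x => V x + s) (itKc k c₀ (fun x => V x + s) i) = TKc k V (itKc k c₀ V i)
    rw [itKc_shift s i, TKc_shift]

/-- `T c` and its normalisation -/
theorem T_eq {k : ℝ} {V c : E n → ℝ} : Desc.T k V c = fun x => TKc k V c x +
    ((V 0 + QK k c 0) / k + inner ℝ x (gradient (fun z => (V z + QK k c z) / k) 0)) := by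
  funext x
  have h1 : inner ℝ x (gradient (fun z => (V z + QK k c z) / k) 0) = fderiv ℝ (fun z => (V z + QK k c z) / k) 0 x := by
    unfold gradient
    rw [real_inner_comm, InnerProductSpace.toDual_symm_apply]
  unfold Desc.T TKc
  rw [Qk_br, h1]
  ring

/-- descent for the normalised map -/
theorem descentC {k a b : ℝ} (hk : 0 < k) (ha : 0 < a) (hb : 0 < b) {V c : E n → ℝ} {αV βV AV BV : ℝ}
    (hV : Desc.Gr αV βV AV BV V) (hV1 : ∫ x, Real.exp (-(V x)) = 1)
    (hi : ∀ g : E n, Integrable fun x : E n => inner ℝ x g * Real.exp (-(V x)))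
    (h0 : ∀ g : E n, ∫ x : E n, inner ℝ x g * Real.exp (-(V x)) = 0)
    (hc : Desc.Qg a b c) (hT : Desc.Qg a b (TKc k V c)) :
    Desc.J k V (TKc k V c) ≤ Desc.J k V c - 1 / k * Desc.KL k V c := by
  have h1 := Desc.descent hk hV hV1 (hc.gr ha hb)
  rw [T_eq, J_shift hk (hT.gr ha hb) hV hV1 _ _ (hi _) (h0 _)] at h1
  exact h1

theorem exists_KLc {k a b : ℝ} (hk : 0 < k) (ha : 0 < a) (hb : 0 < b) {V : E n → ℝ} {αV βV AV BV : ℝ}
    (hV : Desc.Gr αV βV AV BV V) (hV1 : ∫ x, Real.exp (-(V x)) = 1)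
    (hi : ∀ g : E n, Integrable fun x : E n => inner ℝ x g * Real.exp (-(V x)))
    (h0 : ∀ g : E n, ∫ x : E n, inner ℝ x g * Real.exp (-(V x)) = 0)
    (c : ℕ → E n → ℝ) (hc : ∀ i, Desc.Qg a b (c i)) (hs : ∀ i, c (i + 1) = TKc k V (c i)) {ε : ℝ} (hε : 0 < ε) :
    ∃ i, Desc.KL k V (c i) ≤ ε := by
  by_contra hcon
  simp only [not_exists, not_le] at hcon
  have key : ∀ i : ℕ, Desc.J k V (c i) ≤ Desc.J k V (c 0) - i * (ε / k) := by
    intro i
    induction i with
    | zero => simp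
    | succ i ih =>
      have h1 := descentC hk ha hb hV hV1 hi h0 (hc i) (by rw [← hs]; exact hc (i + 1))
      rw [← hs] at h1
      have h2 := hcon i
      have h3 : ε / k ≤ 1 / k * Desc.KL k V (c i) := by
        rw [one_div, div_eq_inv_mul]
        exact mul_le_mul_of_nonneg_left h2.le (inv_nonneg.2 hk.le)
      push_cast
      linarith
  set C := Real.log (Desc.gau (E n) (k * b)) / k - Real.log (Desc.gau (E n) ((k * b)⁻¹ * k)) with hC
  obtain ⟨i, hi'⟩ := exists_nat_gt ((Desc.J k V (c 0) - C) / (ε / k))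
  have h1 := Desc.J_ge hk ha hb hV hV1 (hc i)
  have h2 := key i
  rw [div_lt_iff₀ (by positivity)] at hi'
  linarith

end D345

open D345 in
/-- **descent and the law of `∇φ`, centred case** -/
theorem stmtDescC : StmtDescC := by
  intro n hn V c₀ C₀ m k hV hcen hm hk1 hcls hphi ε hε
  have hk : 0 < k := by linarith
  have hc : 0 < c₀ := hV.c_pos
  have hcC : c₀ ≤ C₀ := nice_le hn hV
  have hC : 0 < C₀ := hc.trans_le hcC
  have hVi := MM.D345.integrable_exp_neg hV
  have hZ : 0 < ∫ x, Real.exp (-V x) := integral_exp_pos hVi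
  set Z := ∫ x, Real.exp (-V x) with hZdef
  set s := Real.log Z with hs
  have hexp : ∀ x, Real.exp (-(V x + s)) = Real.exp (-V x) * Z⁻¹ := by
    intro x
    rw [neg_add, Real.exp_add, Real.exp_neg s, hs, Real.exp_log hZ]
  have ha : 0 < c₀ * (k + 1) / k := by positivity
  have hb : 0 < C₀ * (k + 1) / k := by positivity
  -- the normalised potential
  obtain ⟨α, β, A, B, hgr⟩ := gr_of_reg hV
  have hgr' : Desc.Gr α β (A + s) (B + s) (fun x => V x + s) :=
    ⟨hgr.pos, hgr.pos', hgr.meas.add_const s, fun x => by linarith [hgr.lo x], fun x => by linarith [hgr.hi x]⟩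
  have hV1 : ∫ x, Real.exp (-(V x + s)) = 1 := by
    simp_rw [hexp]
    rw [integral_mul_const]
    exact mul_inv_cancel₀ hZ.ne'
  have hint0 : Integrable fun x : E n => Real.exp (-(V x + s)) := hgr'.integrable_exp_neg
  have hlin : ∀ g : E n, Integrable fun x : E n => inner ℝ x g * Real.exp (-(V x + s)) := by
    intro g
    have h1 := (MM.D345.integrable_mom hV 0 g 1).mul_const Z⁻¹
    refine h1.congr (Eventually.of_forall fun x => ?_)
    simp only [pow_one, inner_zero_right, zero_sub]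
    rw [hexp]
    ring
  have hlin0 : ∀ g : E n, ∫ x : E n, inner ℝ x g * Real.exp (-(V x + s)) = 0 := by
    intro g
    have h1 : ∀ x : E n, inner ℝ x g * Real.exp (-(V x + s)) = ∑ i, (g i * Z⁻¹) * (x i * Real.exp (-V x)) := by
      intro x
      rw [hexp, PiLp.inner_apply, Finset.sum_mul]
      refine Finset.sum_congr rfl fun i _ => ?_
      simp only [RCLike.inner_apply, conj_trivial]
      ring
    have h2 : ∀ i ∈ (Finset.univ : Finset (Fin n)), Integrable fun x : E n => (g i * Z⁻¹) * (x i * Real.exp (-V x)) := by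
      intro i _
      refine Integrable.const_mul ?_ _
      refine (MM.D345.integrable_mom hV 0 (ei i) 1).congr (Eventually.of_forall fun x => ?_)
      simp only [pow_one, inner_zero_right, zero_sub, MM.D345.inner_ei']
    simp_rw [h1]
    rw [integral_finset_sum _ h2]
    refine Finset.sum_eq_zero fun i _ => ?_
    rw [integral_const_mul, hcen i, mul_zero]
  have hQA : ∀ i, Desc.Qg (c₀ * (k + 1) / k) (C₀ * (k + 1) / k) (itKc k c₀ V i) := fun i =>
    qgA (hcls i).reg (hcls i).grad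
  obtain ⟨i, hKL⟩ := exists_KLc hk ha hb hgr' hV1 hlin hlin0 (itKc k c₀ V) hQA
    (fun i => by rw [TKc_shift]; rfl) (ε := (ε / 2) ^ 2) (by positivity)
  refine ⟨i, fun F hF hF1 => ?_⟩
  set c := itKc k c₀ V i with hcdef
  have hnc := (hcls i).reg
  rw [← hcdef] at hnc
  have hg : LK.Dsc.Qg (c₀ * (k + 1) / k) (C₀ * (k + 1) / k) c := qgB (hcls i).reg (hcls i).grad
  have hZk : 0 < ∫ y, Real.exp (-phiK k c y) := hg.Z_pos hk ha hb
  set Zk := ∫ y, Real.exp (-phiK k c y) with hZkdef
  have hW : Reg (fun x => k * c x) (k * (c₀ * (k + 1) / k)) (k * (C₀ * (k + 1) / k)) := by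
    simpa using LK.Reg.scale hnc hk one_ne_zero
  have hn' : (0 : ℝ) < n := by exact_mod_cast hn
  have hlaw := law hk hnc hg hb hW (σ := (k / ((k + 1) * c₀)) / k) (MM.D345.hessL_le hk (hphi i))
    (B := Real.sqrt (n / (c₀ * k))) (by positivity) (by
      rw [Real.sq_sqrt (by positivity)]
      have e1 : (n : ℝ) * (k / ((k + 1) * c₀) / k) = n / ((k + 1) * c₀) := by field_simp
      rw [e1]
      apply div_le_div_of_nonneg_left hn'.le (by positivity)
      nlinarith) hF hF1
  have hFc : Continuous F := hF.continuous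
  -- relative entropy in the other normalisation
  have i1 : Integrable fun x : E n => (k * c x - QK k c x - (V x + s)) * Real.exp (-(V x + s)) := by
    obtain ⟨α₂, β₂, A₂, B₂, hQ⟩ := Desc.Gr.Qk' hk ((hQA i).gr ha hb)
    have j1 := (hgr'.integrable_self ((hQA i).gr ha hb)).const_mul k
    have j2 := hgr'.integrable_self hQ
    have j3 := hgr'.integrable_self hgr'
    refine ((j1.sub j2).sub j3).congr (Eventually.of_forall fun x => ?_)
    simp only [Pi.sub_apply, Qk_br, ← hcdef]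
    ring
  have hWeq : ∀ x, (LK.Dsc.W k c x - (V x + s)) * Real.exp (-(V x + s)) =
      (k * c x - QK k c x - (V x + s)) * Real.exp (-(V x + s)) + Real.log Zk * Real.exp (-(V x + s)) := by
    intro x
    have : LK.Dsc.W k c x = k * c x - QK k c x + Real.log Zk := rfl
    rw [this]
    ring
  have hKi : Integrable (fun x => (LK.Dsc.W k c x - (V x + s)) * Real.exp (-(V x + s))) := by
    simp_rw [hWeq]
    exact i1.add (hint0.const_mul _)
  have hKL2 : ∫ x, (LK.Dsc.W k c x - (V x + s)) * Real.exp (-(V x + s)) ≤ (ε / 2) ^ 2 := by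
    simp_rw [hWeq]
    rw [integral_add i1 (hint0.const_mul _), integral_const_mul, hV1, mul_one]
    have h7 : Desc.KL k (fun x => V x + s) c = (∫ x, (k * c x - QK k c x - (V x + s)) * Real.exp (-(V x + s)))
        + Real.log Zk := by
      unfold Desc.KL Desc.Z
      simp only [Qk_br, phi_br]
      rfl
    rw [← h7]
    exact hKL
  have hTV := LK.abs_sub_le_of_KL (μ := (volume : Measure (E n))) (F := F) (M := 1) (η := ε / 2) (by positivity)
    hint0 (hg.integrable_exp_neg_W hk ha hb) hV1 (hg.integral_W hk ha hb) hKi hKL2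
    hFc.aestronglyMeasurable zero_le_one hF1
  have e1 : ∫ x, F x * Real.exp (-LK.Dsc.W k c x) = (∫ x, F x * Real.exp (-(k * c x - QK k c x))) / Zk := by
    rw [div_eq_mul_inv, ← integral_mul_const]
    congr 1
    funext x
    have h3 : -LK.Dsc.W k c x = -(k * c x - QK k c x) + -Real.log Zk := by
      have : LK.Dsc.W k c x = k * c x - QK k c x + Real.log Zk := rfl
      rw [this]
      ring
    rw [h3, Real.exp_add, Real.exp_neg (Real.log Zk), Real.exp_log hZk]
    ring
  have e2 : ∫ x, F x * Real.exp (-(V x + s)) = (∫ x, F x * Real.exp (-V x)) / Z := by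
    rw [div_eq_mul_inv, ← integral_mul_const]
    congr 1
    funext x
    rw [hexp]
    ring
  rw [e1, e2] at hTV
  have h5 : |(∫ y, F (gradient (phiK k c) y) * Real.exp (-phiK k c y)) / Zk
      - (∫ x, F x * Real.exp (-(k * c x - QK k c x))) / Zk| ≤ Real.sqrt (n / (c₀ * k)) := by
    rw [← sub_div, abs_div, abs_of_pos hZk, div_le_iff₀ hZk]
    exact hlaw
  have h6 := abs_sub_le ((∫ y, F (gradient (phiK k c) y) * Real.exp (-phiK k c y)) / Zk)
    ((∫ x, F x * Real.exp (-(k * c x - QK k c x))) / Zk) ((∫ x, F x * Real.exp (-V x)) / Z)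
  linarith

end Vale.Agent.P254.X
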