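import Mathlib

/-!
P254 stage 3, S2c (helper766): abstract spectral gap / Brascamp-Lieb duality.
-/

set_option linter.all false

open Filter
open scoped Topology

namespace Vale.Agent.P254.X.GapAbs

variable {H W : Type*} [NormedAddCommGroup H] [InnerProductSpace ℝ H] [CompleteSpace H]
  [AddCommGroup W] [Module ℝ W]

theorem denseRange_of_sep (A : W →ₗ[ℝ] H) (h : ∀ x : H, (∀ f, inner ℝ x (A f) = 0) → x = 0) :
    DenseRange A := by
  have h1 : (LinearMap.range A)ᗮ = ⊥ := by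
    rw [Submodule.eq_bot_iff]
    intro x hx
    refine h x fun f => ?_
    rw [real_inner_comm]
    exact (Submodule.mem_orthogonal _ _).1 hx (A f) (LinearMap.mem_range_self A f)
  have h2 := (Submodule.topologicalClosure_eq_top_iff).2 h1
  rw [DenseRange, dense_iff_closure_eq]
  have h3 := congrArg (fun S : Submodule ℝ H => (S : Set H)) h2
  rw [Submodule.topologicalClosure_coe, Submodule.top_coe] at h3
  rwa [LinearMap.coe_range] at h3

/-- **Neumann**: a small relative perturbation of an operator with dense range. -/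
theorem neumann (A B : W →ₗ[ℝ] H) {θ : ℝ} (hθ : θ < 1)
    (hAB : ∀ f, ‖B f - A f‖ ≤ θ * ‖A f‖) (hA : DenseRange A) : DenseRange B := by
  refine denseRange_of_sep B fun x hx => ?_
  have h1 : ∀ y : H, |inner ℝ x y| ≤ θ * ‖y‖ * ‖x‖ := by
    intro y
    refine hA.induction_on (p := fun y => |inner ℝ x y| ≤ θ * ‖y‖ * ‖x‖) y
      (isClosed_le ((continuous_const.inner continuous_id).abs) (by fun_prop)) fun f => ?_
    have h2 : inner ℝ x (A f) = - inner ℝ x (B f - A f) := by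
      rw [inner_sub_right, hx f]
      ring
    rw [h2, abs_neg]
    refine (abs_real_inner_le_norm _ _).trans ?_
    calc ‖x‖ * ‖B f - A f‖ ≤ ‖x‖ * (θ * ‖A f‖) :=
          mul_le_mul_of_nonneg_left (hAB f) (norm_nonneg _)
      _ = θ * ‖A f‖ * ‖x‖ := by ring
  have h2 := h1 x
  rw [real_inner_self_eq_norm_sq, abs_of_nonneg (sq_nonneg _)] at h2
  by_contra hne
  have h3 : 0 < ‖x‖ := norm_pos_iff.2 hne
  have h4 : 0 < (1 - θ) * ‖x‖ ^ 2 := by
    have : 0 < 1 - θ := by linarith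
    positivity
  nlinarith

/-- `(t - A)` has dense range for `0 < t ≤ 1` if `1 - A` has, `A` negative. -/
theorem dense_t (J A : W →ₗ[ℝ] H) (hneg : ∀ f, inner ℝ (A f) (J f) ≤ 0)
    (hd : DenseRange (J - A)) {t : ℝ} (ht : 0 < t) (ht1 : t ≤ 1) : DenseRange (t • J - A) := by
  refine neumann (J - A) (t • J - A) (θ := 1 - t) (by linarith) (fun f => ?_) hd
  have h1 : (t • J - A) f - (J - A) f = (-(1 - t)) • J f := by
    simp only [LinearMap.sub_apply, LinearMap.smul_apply]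
    module
  rw [h1, norm_smul, norm_neg, Real.norm_eq_abs, abs_of_nonneg (by linarith)]
  refine mul_le_mul_of_nonneg_left ?_ (by linarith)
  have h3 : ‖J f‖ ^ 2 ≤ ‖(J - A) f‖ * ‖J f‖ := by
    refine le_trans ?_ (real_inner_le_norm _ _)
    rw [LinearMap.sub_apply, inner_sub_left, real_inner_self_eq_norm_sq]
    linarith [hneg f]
  rcases (norm_nonneg (J f)).eq_or_lt with h4 | h4
  · rw [← h4]
    exact norm_nonneg _
  · nlinarith

/-- **abstract solvability**: `A f ≈ r` for `r ⟂ e`. -/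
theorem solve (J A : W →ₗ[ℝ] H) (hneg : ∀ f, inner ℝ (A f) (J f) ≤ 0)
    (hd : DenseRange (J - A)) (e : H) (he : ‖e‖ = 1) (hAe : ∀ f, inner ℝ (A f) e = 0)
    {lam : ℝ} (hlam : 0 < lam)
    (hgap : ∀ f, lam * ‖J f - (inner ℝ (J f) e : ℝ) • e‖ ^ 2 ≤ - inner ℝ (A f) (J f))
    (r : H) (hr : inner ℝ r e = 0) {ε : ℝ} (hε : 0 < ε) : ∃ f, ‖A f - r‖ ≤ ε := by
  set B : ℝ := (‖r‖ + 1) / lam + 1 with hB
  have hB0 : 0 < B := by positivity
  set t : ℝ := min 1 (ε / (B + 1)) with ht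
  have ht0 : 0 < t := lt_min one_pos (by positivity)
  have ht1 : t ≤ 1 := min_le_left _ _
  have ht2 : t * (B + 1) ≤ ε := by
    have : t ≤ ε / (B + 1) := min_le_right _ _
    rwa [le_div_iff₀ (by positivity)] at this
  have hdt := dense_t J A hneg hd ht0 ht1
  obtain ⟨f, hf⟩ := hdt.exists_dist_lt (-r) ht0
  refine ⟨f, ?_⟩
  set g : H := (t • J - A) f with hg
  have hgr : ‖g + r‖ ≤ t := by
    rw [dist_eq_norm] at hf
    rw [← norm_neg, show -(g + r) = -r - g by abel]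
    exact hf.le
  have hgn : ‖g‖ ≤ ‖r‖ + 1 := by
    calc ‖g‖ = ‖(g + r) - r‖ := by rw [add_sub_cancel_right]
      _ ≤ ‖g + r‖ + ‖r‖ := norm_sub_le _ _
      _ ≤ ‖r‖ + 1 := by linarith
  set m : ℝ := inner ℝ (J f) e with hm
  set p : H := J f - m • e with hp
  have hgdef : g = t • J f - A f := by rw [hg, LinearMap.sub_apply, LinearMap.smul_apply]
  have hm1 : |m| ≤ 1 := by
    have h1 : inner ℝ (g + r) e = t * m := by
      rw [inner_add_left, hr, hgdef, inner_sub_left, real_inner_smul_left, hAe]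
      ring
    have h2 : |t * m| ≤ t := by
      rw [← h1]
      refine (abs_real_inner_le_norm _ _).trans ?_
      rw [he, mul_one]
      exact hgr
    rw [abs_mul, abs_of_pos ht0] at h2
    nlinarith
  have hpe : inner ℝ p e = 0 := by
    rw [hp, inner_sub_left, real_inner_smul_left, real_inner_self_eq_norm_sq, he, ← hm]
    ring
  have hp1 : lam * ‖p‖ ^ 2 ≤ ‖g‖ * ‖p‖ := by
    refine le_trans ?_ (real_inner_le_norm _ _)
    have h1 : inner ℝ (J f) p = ‖p‖ ^ 2 := by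
      have : J f = p + m • e := by rw [hp]; abel
      rw [this, inner_add_left, real_inner_smul_left, real_inner_comm p e, hpe,
        real_inner_self_eq_norm_sq]
      ring
    have h2 : inner ℝ (A f) p = inner ℝ (A f) (J f) := by
      rw [hp, inner_sub_right, real_inner_smul_right, hAe]
      ring
    rw [hgdef, inner_sub_left, real_inner_smul_left, h1, h2]
    have h3 := hgap f
    rw [← hm, ← hp] at h3
    have : 0 ≤ t * ‖p‖ ^ 2 := by positivity
    linarith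
  have hp2 : ‖p‖ ≤ (‖r‖ + 1) / lam := by
    rw [le_div_iff₀ hlam]
    rcases (norm_nonneg p).eq_or_lt with h4 | h4
    · rw [← h4]
      have : 0 ≤ ‖r‖ := norm_nonneg r
      linarith
    · nlinarith
  have hJ : ‖J f‖ ≤ B := by
    have : J f = p + m • e := by rw [hp]; abel
    rw [this]
    refine (norm_add_le _ _).trans ?_
    rw [norm_smul, he, mul_one, Real.norm_eq_abs]
    linarith
  calc ‖A f - r‖ = ‖t • J f - (g + r)‖ := by
        congr 1
        rw [hgdef]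
        abel
    _ ≤ ‖t • J f‖ + ‖g + r‖ := norm_sub_le _ _
    _ ≤ t * B + t := by
        rw [norm_smul, Real.norm_eq_abs, abs_of_pos ht0]
        have := mul_le_mul_of_nonneg_left hJ ht0.le
        linarith
    _ ≤ ε := by linarith

/-- **abstract Brascamp-Lieb**. -/
theorem norm_sq_le (J A : W →ₗ[ℝ] H) (hneg : ∀ f, inner ℝ (A f) (J f) ≤ 0)
    (hd : DenseRange (J - A)) (e : H) (he : ‖e‖ = 1) (hAe : ∀ f, inner ℝ (A f) e = 0)
    {lam : ℝ} (hlam : 0 < lam)
    (hgap : ∀ f, lam * ‖J f - (inner ℝ (J f) e : ℝ) • e‖ ^ 2 ≤ - inner ℝ (A f) (J f))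
    (hboch : ∀ f, - inner ℝ (A f) (J f) ≤ ‖A f‖ ^ 2)
    (r : H) (hr : inner ℝ r e = 0) {Q : ℝ} (hQ : 0 ≤ Q)
    (hcs : ∀ f, (inner ℝ (A f) r) ^ 2 ≤ Q * (- inner ℝ (A f) (J f))) : ‖r‖ ^ 2 ≤ Q := by
  have key : ∀ ε : ℝ, 0 < ε → ‖r‖ ^ 2 ≤ ε * ‖r‖ + Real.sqrt Q * (‖r‖ + ε) := by
    intro ε hε
    obtain ⟨f, hf⟩ := solve J A hneg hd e he hAe hlam hgap r hr hε
    have h1 : ‖A f‖ ≤ ‖r‖ + ε := by
      calc ‖A f‖ = ‖(A f - r) + r‖ := by rw [sub_add_cancel]
        _ ≤ ‖A f - r‖ + ‖r‖ := norm_add_le _ _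
        _ ≤ ‖r‖ + ε := by linarith
    have h2 : inner ℝ (A f) r ≤ Real.sqrt Q * ‖A f‖ := by
      refine (abs_le_of_sq_le_sq' (?_ : (inner ℝ (A f) r : ℝ) ^ 2 ≤ (Real.sqrt Q * ‖A f‖) ^ 2)
        (by positivity)).2
      rw [mul_pow, Real.sq_sqrt hQ]
      exact (hcs f).trans (mul_le_mul_of_nonneg_left (hboch f) hQ)
    have h3 : ‖r‖ ^ 2 = inner ℝ (r - A f) r + inner ℝ (A f) r := by
      rw [← inner_add_left, sub_add_cancel, real_inner_self_eq_norm_sq]
    have h4 : inner ℝ (r - A f) r ≤ ε * ‖r‖ := by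
      refine (real_inner_le_norm _ _).trans ?_
      rw [norm_sub_rev]
      exact mul_le_mul_of_nonneg_right hf (norm_nonneg _)
    have h5 : Real.sqrt Q * ‖A f‖ ≤ Real.sqrt Q * (‖r‖ + ε) :=
      mul_le_mul_of_nonneg_left h1 (Real.sqrt_nonneg _)
    linarith
  have h2 : ‖r‖ ^ 2 ≤ Real.sqrt Q * ‖r‖ := by
    refine le_of_forall_pos_le_add fun δ hδ => ?_
    have h3 := key (δ / (‖r‖ + Real.sqrt Q + 1)) (by positivity)
    have h4 : δ / (‖r‖ + Real.sqrt Q + 1) * ‖r‖ + Real.sqrt Q * (‖r‖ + δ / (‖r‖ + Real.sqrt Q + 1))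
        ≤ Real.sqrt Q * ‖r‖ + δ := by
      have h5 : δ / (‖r‖ + Real.sqrt Q + 1) * (‖r‖ + Real.sqrt Q) ≤ δ := by
        rw [div_mul_eq_mul_div, div_le_iff₀ (by positivity)]
        nlinarith
      nlinarith
    linarith
  rcases (norm_nonneg r).eq_or_lt with h4 | h4
  · rw [← h4]
    simpa using hQ
  · have h5 : ‖r‖ ≤ Real.sqrt Q := by nlinarith
    calc ‖r‖ ^ 2 ≤ Real.sqrt Q ^ 2 := pow_le_pow_left₀ (norm_nonneg _) h5 2
      _ = Q := Real.sq_sqrt hQ

end Vale.Agent.P254.X.GapAbs
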