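import Vale.Agent.P254.X.Desc345
import Vale.Agent.P227.M.LK.SCInv
import Vale.Agent.P227.M.MM.Start102

/-! # P254/X (helper345): the class `ClsC` is invariant under the centred level-`k` map -/

open MeasureTheory Set Filter Topology

namespace Vale.Agent.P254.X

open Vale.Agent.P227.M Vale.Agent.P227.M.MM

/-- the class is invariant, for `k` large; `m` depends on `V` only -/
def StmtInvC : Prop := ∀ (n : ℕ), 0 < n → ∀ (V : E n → ℝ) (c₀ C₀ : ℝ), Reg V c₀ C₀ →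
  ∃ m K₀ : ℝ, 0 ≤ m ∧ 1 ≤ K₀ ∧ ∀ k : ℝ, K₀ ≤ k →
    (∀ c : E n → ℝ, ClsC k c₀ C₀ m c → ClsC k c₀ C₀ m (TKc k V c)) ∧
    (∀ c : E n → ℝ, ClsC k c₀ C₀ m c →
      Reg (phiK k c) (k / ((k + 1) * C₀)) (k / ((k + 1) * c₀)) ∧ SelfConc m (phiK k c))

/-- the quadratic start is in the class -/
def StmtStartC : Prop := ∀ (n : ℕ), 0 < n → ∀ (k c₀ C₀ m : ℝ), 0 < k → 0 < c₀ → c₀ ≤ C₀ → 0 ≤ m →
  ClsC k c₀ C₀ m (fun x : E n => c₀ * (k + 1) / k / 2 * ‖x‖ ^ 2)

namespace I345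

variable {n : ℕ}

theorem iteratedFDeriv_aff (L : E n →L[ℝ] ℝ) (r : ℝ) {i : ℕ} (hi : 2 ≤ i) (x : E n) :
    iteratedFDeriv ℝ i (fun y => -(r + L y)) x = 0 := by
  obtain ⟨j, rfl⟩ : ∃ j, i = j + 1 + 1 := ⟨i - 2, by omega⟩
  have h1 : fderiv ℝ (fun y => -(r + L y)) = fun _ => -L := by
    funext y
    have h2 : HasFDerivAt (fun y => -(r + L y)) (-L) y := (L.hasFDerivAt.const_add r).neg
    exact h2.fderiv
  have h2 := norm_iteratedFDeriv_fderiv (𝕜 := ℝ) (f := fun y => -(r + L y)) (n := j + 1) (x := x)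
  rw [h1, iteratedFDeriv_const_of_ne (by omega)] at h2
  simp only [Pi.zero_apply, norm_zero] at h2
  exact norm_eq_zero.1 h2.symm

theorem contDiff_aff (L : E n →L[ℝ] ℝ) (r : ℝ) : ContDiff ℝ (⊤ : ℕ∞) (fun y => -(r + L y)) :=
  (contDiff_const.add L.contDiff).neg

theorem iteratedFDeriv_sub_aff {V : E n → ℝ} (hV : ContDiff ℝ (⊤ : ℕ∞) V) (L : E n →L[ℝ] ℝ) (r : ℝ) {i : ℕ}
    (hi : 2 ≤ i) (x : E n) : iteratedFDeriv ℝ i (fun y => V y - (r + L y)) x = iteratedFDeriv ℝ i V x := by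
  have h1 : (fun y => V y - (r + L y)) = fun y => V y + (fun y => -(r + L y)) y := by funext y; ring
  rw [h1, LK.iteratedFDeriv_add' hV (contDiff_aff L r), iteratedFDeriv_aff L r hi, add_zero]

theorem contDiff_sub_aff {V : E n → ℝ} (hV : ContDiff ℝ (⊤ : ℕ∞) V) (L : E n →L[ℝ] ℝ) (r : ℝ) :
    ContDiff ℝ (⊤ : ℕ∞) (fun y => V y - (r + L y)) := hV.sub (contDiff_const.add L.contDiff)

theorem qf_sub_aff {V : E n → ℝ} (hV : ContDiff ℝ (⊤ : ℕ∞) V) (L : E n →L[ℝ] ℝ) (r : ℝ) (x v : E n) :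
    qf (hess (fun y => V y - (r + L y)) x) v = qf (hess V x) v := by
  rw [← LK.iteratedDeriv_two_line (contDiff_sub_aff hV L r), ← LK.iteratedDeriv_two_line hV,
    LK.iteratedDeriv_line_zero (contDiff_sub_aff hV L r), LK.iteratedDeriv_line_zero hV,
    iteratedFDeriv_sub_aff hV L r (by norm_num)]

theorem reg_sub_aff {V : E n → ℝ} {c C : ℝ} (hV : Reg V c C) (L : E n →L[ℝ] ℝ) (r : ℝ) :
    Reg (fun y => V y - (r + L y)) c C where
  c_pos := hV.c_pos
  smooth := contDiff_sub_aff hV.smooth L r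
  lower x v := by rw [qf_sub_aff hV.smooth]; exact hV.lower x v
  upper x v := by rw [qf_sub_aff hV.smooth]; exact hV.upper x v
  bdd k hk := by
    obtain ⟨B, hB⟩ := hV.bdd k hk
    refine ⟨B, fun x => ?_⟩
    rw [iteratedFDeriv_sub_aff hV.smooth L r hk]
    exact hB x

theorem sc_sub_aff {V : E n → ℝ} {c C κ : ℝ} (hV : Reg V c C) (h : SelfConc κ V) (L : E n →L[ℝ] ℝ) (r : ℝ) :
    SelfConc κ (fun y => V y - (r + L y)) := by
  have hR := reg_sub_aff hV L r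
  rw [LK.selfConc_iff hR.smooth (LK.qf_nonneg_of_reg hR)]
  rw [LK.selfConc_iff hV.smooth (LK.qf_nonneg_of_reg hV)] at h
  intro x v
  rw [qf_sub_aff hV.smooth, iteratedFDeriv_sub_aff hV.smooth L r (by norm_num)]
  exact h x v

theorem reg_mulK {c : E n → ℝ} {a b k : ℝ} (h : Reg c a b) (hk : 0 < k) :
    Reg (fun x => k * c x) (k * a) (k * b) := by
  have := LK.Reg.scale h hk one_ne_zero
  simpa using this

section
variable {k c0 C0 m : ℝ} {c : E n → ℝ}

theorem reg_phiK (hLL : LK.RegLL) (hk : 0 < k) (hc0 : 0 < c0) (hC0 : 0 < C0)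
    (hc : Reg c (c0 * (k + 1) / k) (C0 * (k + 1) / k)) :
    Reg (phiK k c) (k / ((k + 1) * C0)) (k / ((k + 1) * c0)) := by
  have h1 := reg_mulK hc hk
  have h2 := hLL n _ _ _ h1 (by positivity)
  have h3 := LK.Reg.scale h2 (α := 1 / k) (β := k) (by positivity) hk.ne'
  refine LK.Reg.congr_const h3 ?_ ?_ <;> field_simp

theorem sc_phiK (hSC : StmtSC) (hLL : LK.RegLL) (hk : 0 < k) (hC0 : 0 < C0) (hm : 0 ≤ m)
    (hmk : m ^ 2 ≤ k) (hc : Reg c (c0 * (k + 1) / k) (C0 * (k + 1) / k)) (hs : SelfConc m c) :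
    SelfConc m (phiK k c) := by
  have hsk : 0 < √k := Real.sqrt_pos.2 hk
  have h1 := reg_mulK hc hk
  have h1s := LK.SelfConc.mulK hc hs hk
  have h2 := hLL n _ _ _ h1 (by positivity)
  have hle : m / √k ≤ 1 := by
    rw [div_le_one hsk]
    exact Real.le_sqrt_of_sq_le hmk
  have h2s := hSC n _ _ _ _ h1 (by positivity) hle h1s
  have h3 := LK.SelfConc.scale h2 h2s (α := 1 / k) (β := k) (by positivity) hk.ne'
  have h4 : m / √k / √(1 / k) = m := by
    rw [Real.sqrt_div zero_le_one, Real.sqrt_one]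
    field_simp
  rw [h4] at h3
  exact h3

theorem reg_QK (hLL : LK.RegLL) (hk : 0 < k) (hc0 : 0 < c0) (hC0 : 0 < C0)
    (hc : Reg c (c0 * (k + 1) / k) (C0 * (k + 1) / k)) :
    Reg (QK k c) (k * c0) (k * C0) := by
  have h1 := reg_phiK hLL hk hc0 hC0 hc
  have h2 := reg_mulK h1 (k := k + 1) (by positivity)
  have h3 := hLL n _ _ _ h2 (by positivity)
  have h4 := LK.Reg.scale h3 (α := 1) (β := k) (by positivity) hk.ne'
  simp only [one_mul] at h4
  refine LK.Reg.congr_const h4 ?_ ?_ <;> field_simp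

theorem sc_QK (hSC : StmtSC) (hLL : LK.RegLL) (hk : 0 < k) (hc0 : 0 < c0) (hC0 : 0 < C0) (hm : 0 ≤ m)
    (hmk : m ^ 2 ≤ k) (hc : Reg c (c0 * (k + 1) / k) (C0 * (k + 1) / k)) (hs : SelfConc m c) :
    SelfConc (m / √k) (QK k c) := by
  have hsk : 0 < √k := Real.sqrt_pos.2 hk
  have hsk1 : 0 < √(k + 1) := Real.sqrt_pos.2 (by positivity)
  have h1 := reg_phiK hLL hk hc0 hC0 hc
  have h1s := sc_phiK hSC hLL hk hC0 hm hmk hc hs
  have h2 := reg_mulK h1 (k := k + 1) (by positivity)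
  have h2s := LK.SelfConc.mulK h1 h1s (k := k + 1) (by positivity)
  have h3 := hLL n _ _ _ h2 (by positivity)
  have hle : m / √(k + 1) ≤ 1 := by
    rw [div_le_one hsk1]
    exact Real.le_sqrt_of_sq_le (by linarith)
  have h3s := hSC n _ _ _ _ h2 (by positivity) hle h2s
  have h4 := LK.Reg.scale h3 (α := 1) (β := k) (by positivity) hk.ne'
  have h4s := LK.SelfConc.scale h3 h3s (α := 1) (β := k) (by positivity) hk.ne'
  simp only [one_mul, Real.sqrt_one, div_one] at h4 h4s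
  refine LK.SelfConc.mono h4 h4s ?_
  exact div_le_div_of_nonneg_left hm hsk (Real.sqrt_le_sqrt (by linarith))

/-- the centred level-`k` map preserves the class -/
theorem TKc_mem (hSC : StmtSC) (hLL : LK.RegLL) {V : E n → ℝ} {MV : ℝ} (hV : Reg V c0 C0)
    (hC0 : 0 < C0) (hMV : 0 ≤ MV) (hVs : SelfConc MV V) (hm : 2 / 3 * MV * √(C0 / c0) ≤ m)
    (hk : 0 < k) (hmk : m ^ 2 ≤ k) (hc : ClsC k c0 C0 m c) : ClsC k c0 C0 m (TKc k V c) := by
  have hc0 : 0 < c0 := hV.c_pos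
  have hm0 : 0 ≤ m := le_trans (by positivity) hm
  have hsk : 0 < √k := Real.sqrt_pos.2 hk
  have hQ := reg_QK hLL hk hc0 hC0 hc.reg
  have hQs := sc_QK hSC hLL hk hc0 hC0 hm0 hmk hc.reg hc.sc
  -- the sum
  have hS : Reg (fun x => V x + QK k c x) (c0 + k * c0) (C0 + k * C0) := LK.Reg.add hV hQ
  have hSs : SelfConc (m / √k) (fun x => V x + QK k c x) := by
    rw [LK.selfConc_iff hS.smooth (LK.qf_nonneg_of_reg hS)]
    rw [LK.selfConc_iff hV.smooth (LK.qf_nonneg_of_reg hV)] at hVs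
    rw [LK.selfConc_iff hQ.smooth (LK.qf_nonneg_of_reg hQ)] at hQs
    intro x v
    rw [LK.iteratedFDeriv_add' hV.smooth hQ.smooth, LK.qf_add hV.smooth hQ.smooth]
    exact LK.sum_ineq hk hm0 hMV hc0 hC0.le hm (N := ‖v‖ ^ 2) (by positivity)
      (LK.qf_nonneg_of_reg hV x v) (hV.upper x v) (hQ.lower x v) (hVs x v) (hQs x v)
  -- divide by `k`
  have hD := LK.Reg.scale hS (α := 1 / k) (β := 1) (by positivity) one_ne_zero
  have hDs := LK.SelfConc.scale hS hSs (α := 1 / k) (β := 1) (by positivity) one_ne_zero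
  simp only [one_smul, one_pow, mul_one] at hD hDs
  have hDe : (fun y => 1 / k * (V y + QK k c y)) = fun z => (V z + QK k c z) / k := by
    funext y; ring
  rw [hDe] at hD hDs
  set L : E n →L[ℝ] ℝ := fderiv ℝ (fun z => (V z + QK k c z) / k) 0 with hL
  have hTeq : TKc k V c = fun x => (V x + QK k c x) / k - ((V 0 + QK k c 0) / k + L x) := by
    funext x; unfold TKc; ring
  have h4 : m / √k / √(1 / k) = m := by
    rw [Real.sqrt_div zero_le_one, Real.sqrt_one]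
    field_simp
  rw [h4] at hDs
  refine ⟨?_, ?_, ?_, ?_⟩
  · rw [hTeq]
    refine LK.Reg.congr_const (reg_sub_aff hD L _) ?_ ?_ <;> field_simp <;> ring
  · rw [hTeq]
    exact sc_sub_aff hD hDs L _
  · rw [hTeq]
    simp
  · rw [hTeq]
    have hd : DifferentiableAt ℝ (fun z => (V z + QK k c z) / k) 0 := hD.smooth.differentiable (by simp) 0
    have h5 : HasFDerivAt (fun x => (V x + QK k c x) / k - ((V 0 + QK k c 0) / k + L x)) (L - L) 0 :=
      hd.hasFDerivAt.sub (L.hasFDerivAt.const_add _)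
    rw [h5.fderiv, sub_self]

end

end I345

open I345 in
theorem stmtInvC (hSC : StmtSC) (hLL : LK.RegLL) : StmtInvC := by
  intro n hn V c₀ C₀ hV
  obtain ⟨MV, hMV, hVs⟩ := LK.Reg.exists_selfConc hV
  have hc0 : 0 < c₀ := hV.c_pos
  have hC0 : 0 < C₀ := hc0.trans_le (nice_le hn hV)
  refine ⟨2 / 3 * MV * √(C₀ / c₀), max 1 ((2 / 3 * MV * √(C₀ / c₀)) ^ 2), by positivity, le_max_left _ _,
    fun k hk => ?_⟩
  have hk0 : 0 < k := lt_of_lt_of_le one_pos ((le_max_left _ _).trans hk)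
  have hmk : (2 / 3 * MV * √(C₀ / c₀)) ^ 2 ≤ k := (le_max_right _ _).trans hk
  refine ⟨fun c hc => ?_, fun c hc => ⟨?_, ?_⟩⟩
  · exact TKc_mem hSC hLL hV hC0 hMV hVs le_rfl hk0 hmk hc
  · exact reg_phiK hLL hk0 hc0 hC0 hc.reg
  · exact sc_phiK hSC hLL hk0 hC0 (by positivity) hmk hc.reg hc.sc

theorem stmtStartC : StmtStartC := by
  intro n hn k c₀ C₀ m hk hc hcC hm
  have ha : 0 < c₀ * (k + 1) / k := by positivity
  have hN := Start102.nice_quad (n := n) ha (b := C₀ * (k + 1) / k) (by gcongr)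
  refine ⟨hN.toReg, Start102.selfConc_quad ha.le hm, by simp, ?_⟩
  have h1 : HasFDerivAt (fun x : E n => c₀ * (k + 1) / k / 2 * ‖x‖ ^ 2)
      ((c₀ * (k + 1) / k / 2) • (2 • (innerSL ℝ (0 : E n)))) 0 :=
    (hasStrictFDerivAt_norm_sq (0 : E n)).hasFDerivAt.const_mul _
  rw [h1.fderiv]
  simp

end Vale.Agent.P254.X
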