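import Vale.Agent.P254.X.MMc
import Vale.Agent.P254.X.Des464
import Vale.Agent.P227.M.MM.Dir4

/-! # P254/X: from the level-`k` class to the centred moment map (helper464). -/

namespace Vale.Agent.P254.X.D464

open MeasureTheory Filter Topology
open scoped RealInnerProductSpace
open Vale.Agent.P227.M Vale.Agent.P227.M.Dir

set_option linter.unusedSectionVars false

variable {n : ℕ}

/-- from the level-`k` class to the moment map potential, directly in `x`-space, not even. -/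
theorem mmc_of_levels {V : E n → ℝ} {c0 C0 : ℝ} (hc0 : 0 < c0) (hVc : Continuous V)
    (hVi : Integrable fun x : E n => Real.exp (-V x)) {κ : ℕ → ℝ}
    (hκ1 : ∀ i, 1 ≤ κ i) (hκ : Tendsto κ atTop atTop) {c : ℕ → E n → ℝ}
    (hC2 : ∀ i, ContDiff ℝ 2 (c i)) (hz : ∀ i, fderiv ℝ (c i) 0 = 0) (h0 : ∀ i, c i 0 = 0)
    (hlo : ∀ i x v, c0 * (κ i + 1) / κ i * ‖v‖ ^ 2 ≤ qf (hess (c i) x) v)
    (hup : ∀ i x v, qf (hess (c i) x) v ≤ C0 * (κ i + 1) / κ i * ‖v‖ ^ 2)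
    {M : NNReal} (hM : ∀ i, LipschitzWith M (fderiv ℝ (fderiv ℝ (c i))))
    (hlaw : Tendsto (fun i => ∫ x : E n, |Real.exp (-V x) / (∫ x, Real.exp (-V x)) -
      Real.exp (-(κ i * c i x - Qx (κ i) (c i) x)) /
        (∫ y : E n, Real.exp (-ph (κ i) (c i) y))|) atTop (𝓝 0)) :
    ∃ (ψ : E n → ℝ) (M : ℝ), MMc ψ V c0 C0 M := by
  have hκ0 : ∀ i, 0 < κ i := fun i => lt_of_lt_of_le one_pos (hκ1 i)
  obtain ⟨A, hA⟩ : ∃ A : ℝ, A = 2 * |C0| + 1 := ⟨_, rfl⟩
  have hA0 : 0 < A := by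
    rw [hA]
    positivity
  have hlo' : ∀ i x v, c0 * ‖v‖ ^ 2 ≤ qf (hess (c i) x) v := fun i x v => by
    refine le_trans (mul_le_mul_of_nonneg_right ?_ (sq_nonneg _)) (hlo i x v)
    rw [le_div_iff₀ (hκ0 i)]
    nlinarith
  have hup' : ∀ i x v, qf (hess (c i) x) v ≤ A * ‖v‖ ^ 2 := fun i x v => by
    refine le_trans (hup i x v) (mul_le_mul_of_nonneg_right ?_ (sq_nonneg _))
    rw [div_le_iff₀ (hκ0 i), hA]
    have h1 := hκ1 i
    have h2 := le_abs_self C0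
    have h3 := abs_nonneg C0
    nlinarith
  have hG : ∀ i, Gr (c i) (gr (c i)) c0 A := fun i =>
    gr_of_hess hc0 (hC2 i) (hlo' i) (hup' i)
  -- compactness
  obtain ⟨ψ, s, hs, hψ2, hψL, ht0, ht1, ht2⟩ := Cpt.c2_compact c hC2 0 0 A M
    (fun i => by simp [h0 i]) (fun i => by simp [hz i])
    (fun i x => norm_snd_le hc0 hA0 (hC2 i) (hlo' i) (hup' i) x) hM
  have p0 : ∀ x, Tendsto (fun i => c (s i) x) atTop (𝓝 (ψ x)) := fun x =>
    (tendstoLocallyUniformlyOn_univ.2 ht0).tendsto_at (Set.mem_univ x)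
  have p1 : ∀ x, Tendsto (fun i => fderiv ℝ (c (s i)) x) atTop (𝓝 (fderiv ℝ ψ x)) := fun x =>
    (tendstoLocallyUniformlyOn_univ.2 ht1).tendsto_at (Set.mem_univ x)
  have p2 : ∀ x, Tendsto (fun i => fderiv ℝ (fderiv ℝ (c (s i))) x) atTop
      (𝓝 (fderiv ℝ (fderiv ℝ ψ) x)) := fun x =>
    (tendstoLocallyUniformlyOn_univ.2 ht2).tendsto_at (Set.mem_univ x)
  have hκs : Tendsto (fun i => κ (s i)) atTop atTop := hκ.comp hs.tendsto_atTop
  -- bounds for the limit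
  have hq : ∀ x v, Tendsto (fun i => qf (hess (c (s i)) x) v) atTop (𝓝 (qf (hess ψ x) v)) := by
    intro x v
    simp_rw [fun i => qf_eq (hC2 (s i)) x v]
    rw [qf_eq hψ2]
    have h1 : Continuous fun T : E n →L[ℝ] E n →L[ℝ] ℝ => T v v := by fun_prop
    exact (h1.tendsto _).comp (p2 x)
  have hψlo : ∀ x v, c0 * ‖v‖ ^ 2 ≤ qf (hess ψ x) v := fun x v =>
    ge_of_tendsto (hq x v) (Eventually.of_forall fun i => hlo' (s i) x v)
  have hψup : ∀ x v, qf (hess ψ x) v ≤ C0 * ‖v‖ ^ 2 := fun x v => by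
    have h1 : Tendsto (fun i => C0 * (κ (s i) + 1) / κ (s i) * ‖v‖ ^ 2) atTop
        (𝓝 (C0 * ‖v‖ ^ 2)) := by
      have h2 : Tendsto (fun i => (κ (s i))⁻¹) atTop (𝓝 0) := tendsto_inv_atTop_zero.comp hκs
      have h3 : Tendsto (fun i => (C0 + C0 * (κ (s i))⁻¹) * ‖v‖ ^ 2) atTop
          (𝓝 ((C0 + C0 * 0) * ‖v‖ ^ 2)) := ((h2.const_mul C0).const_add C0).mul_const _
      rw [mul_zero, add_zero] at h3
      refine h3.congr fun i => ?_
      have := (hκ0 (s i)).ne'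
      field_simp
    exact le_of_tendsto_of_tendsto' (hq x v) h1 fun i => hup (s i) x v
  have hψup' : ∀ x v, qf (hess ψ x) v ≤ A * ‖v‖ ^ 2 := fun x v =>
    le_of_tendsto (hq x v) (Eventually.of_forall fun i => hup' (s i) x v)
  have hGψ := gr_of_hess hc0 hψ2 hψlo hψup'
  have hgr0 : ∀ i, gr (c i) 0 = 0 := fun i => by
    unfold gr
    rw [hz i, map_zero]
  have hdp : ∀ x, 0 < (hess ψ x).det := fun x => by
    rw [← det_gr hψ2]
    exact LIM.det_pos_of_mono hc0 (hGψ.C1.differentiable (by norm_num)) hGψ.lo x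
  have hmain := limit_eq (c := fun i => c (s i)) (g := fun i => gr (c (s i))) (κ := fun i => κ (s i))
    (ψ := ψ) (h := gr ψ) (d := fun x => (hess ψ x).det) (V := V)
    (fun i => hG (s i)) hA0 (fun i => hκ0 (s i)) hκs (fun i => h0 (s i)) (fun i => hgr0 (s i)) p0
    (fun z => by
      exact ((Jd n).continuous.tendsto _).comp (p1 z))
    (fun z => by
      rw [← det_gr hψ2, fderiv_gr hψ2]
      simp_rw [fun i => fderiv_gr (hC2 (s i)) z]
      exact ((ContinuousLinearMap.continuous_det.comp Js_cont).tendsto _).comp (p2 z))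
    (fun i z => abs_det_le hc0 hA0 (hC2 (s i)) (hlo' (s i)) (hup' (s i)) z)
    hψ2.continuous hGψ.gcont
    (by
      simp_rw [← det_gr hψ2]
      exact ContinuousLinearMap.continuous_det.comp (hGψ.C1.continuous_fderiv (by norm_num)))
    hdp hVc hVi (hlaw.comp hs.tendsto_atTop)
  obtain ⟨hZ, hdens⟩ := hmain
  obtain ⟨Z, hZe⟩ : ∃ Z : ℝ, Z = ∫ z : E n, Real.exp (-(⟪z, gr ψ z⟫ - ψ z)) * (hess ψ z).det :=
    ⟨_, rfl⟩
  rw [← hZe] at hZ hdens
  obtain ⟨ZV, hZV⟩ : ∃ ZV : ℝ, ZV = ∫ x, Real.exp (-V x) := ⟨_, rfl⟩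
  rw [← hZV] at hdens
  have hZVpos : 0 < ZV := by
    rw [hZV]
    exact integral_exp_pos hVi
  obtain ⟨K, hK⟩ : ∃ K : ℝ, K = Real.log Z - Real.log ZV := ⟨_, rfl⟩
  have hpd : ∀ i x, pd i (fun x => ψ x - K) x = pd i ψ x := fun i x => by
    unfold pd
    rw [fderiv_sub_const]
  have hhess : ∀ x, hess (fun x => ψ x - K) x = hess ψ x := fun x => by
    ext i j
    unfold hess
    have : pd j (fun x => ψ x - K) = pd j ψ := funext fun x => hpd j x
    rw [this]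
  refine ⟨fun x => ψ x - K, M, ⟨hc0, hψ2.sub contDiff_const,
    fun x v => by rw [hhess]; exact hψlo x v, fun x v => by rw [hhess]; exact hψup x v,
    fun i j x y => ?_, fun x => ?_⟩⟩
  · rw [hhess, hhess, hess_eq hψ2, hess_eq hψ2, ← sub_apply, ← sub_apply, ← Real.norm_eq_abs]
    have h1 := (fderiv ℝ (fderiv ℝ ψ) x - fderiv ℝ (fderiv ℝ ψ) y).le_opNorm₂ (ei i) (ei j)
    rw [norm_ei, norm_ei, mul_one, mul_one] at h1
    refine h1.trans ?_
    have h2 := hψL.dist_le_mul x y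
    rwa [dist_eq_norm, dist_eq_norm] at h2
  · simp only [hpd, hhess]
    have h1 : ∑ i, x i * pd i ψ x = ⟪x, gr ψ x⟫ := by
      rw [real_inner_comm, inner_gr]
      have h3 := congrArg (fderiv ℝ ψ x) (Dir.sum_ei x)
      rw [h3, map_sum]
      refine Finset.sum_congr rfl fun i _ => ?_
      rw [map_smul, smul_eq_mul]
      rfl
    rw [h1, hK]
    have h2 := congrArg Real.log (hdens x)
    rw [Real.log_div (Real.exp_pos _).ne' hZVpos.ne', Real.log_exp,
      Real.log_div (mul_pos (Real.exp_pos _) (hdp x)).ne' hZ.ne',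
      Real.log_mul (Real.exp_pos _).ne' (hdp x).ne', Real.log_exp] at h2
    linarith

end Vale.Agent.P254.X.D464
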