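import Vale.Agent.P227.M.Stmts

/-! # P254/X: the moment map for centred (not necessarily even) potentials: statement (helper464).

`MMc` is `P227.M.MM` without the field `even`; `ClassC` is the level-`k` class normalised by
`c 0 = 0`, `∇c 0 = 0`. -/

open MeasureTheory

namespace Vale.Agent.P254.X

open Vale.Agent.P227.M

/-- `ψ` is (the Legendre transform of) a `C^{2,1}` moment map potential of `e^{-V}` -/
structure MMc {n : ℕ} (ψ V : E n → ℝ) (c C M : ℝ) : Prop where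
  c_pos : 0 < c
  C2 : ContDiff ℝ 2 ψ
  lower : ∀ x v, c * ‖v‖ ^ 2 ≤ qf (hess ψ x) v
  upper : ∀ x v, qf (hess ψ x) v ≤ C * ‖v‖ ^ 2
  lip : ∀ i j x y, |hess ψ x i j - hess ψ y i j| ≤ M * ‖x - y‖
  ma : ∀ x, V x = (∑ i, x i * pd i ψ x) - ψ x - Real.log (hess ψ x).det

/-- existence of the moment map for centred regular potentials -/
def StmtMMc : Prop := ∀ (n : ℕ) (V : E n → ℝ) (c C : ℝ), Reg V c C →
  (∀ i, ∫ x : E n, x i * Real.exp (-V x) = 0) → ∃ (ψ : E n → ℝ) (M : ℝ), MMc ψ V c C M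

/-- the level-`k` class -/
structure ClassC {n : ℕ} (k c₀ C₀ m : ℝ) (c : E n → ℝ) : Prop where
  reg : Reg c (c₀ * (k + 1) / k) (C₀ * (k + 1) / k)
  sc : SelfConc m c
  zero : c 0 = 0
  grad : fderiv ℝ c 0 = 0

end Vale.Agent.P254.X
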