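import Vale.Agent.P227.M.ID.QAlg987

/-! # P254/X: pointwise inequality `N1 ≤ N2` (finite sums only) -/

open Matrix Finset
open scoped MatrixOrder ComplexOrder

namespace Vale.Agent.P254.X.S2b

open Vale.Agent.P227.M.QAlg

variable {ι : Type*} [Fintype ι] [DecidableEq ι]

/-- `N1 ≤ N2` at a point: `t` positive definite, `D e` symmetric, `∑ e, t a e * D e b k` symmetric. -/
theorem pw_alg (t : Matrix ι ι ℝ) (ht : t.PosDef) (D : ι → ι → ι → ℝ)
    (hD : ∀ e i j, D e i j = D e j i)
    (hSY : ∀ a b k, ∑ e, t a e * D e b k = ∑ e, t b e * D e a k) (w : ι → ℝ) :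
    ∑ i, ∑ j, w i * w j * ∑ k, ∑ l, t k l * D k i j * D l i j ≤
      ∑ a, ∑ i, w a * w i * t a i * ∑ b, ∑ c, D c a b * D b i c := by
  have htT : tᵀ = t := by
    have := ht.isHermitian
    rwa [Matrix.IsHermitian, conjTranspose_eq_transpose_of_trivial] at this
  have hdet : IsUnit t.det := isUnit_iff_ne_zero.2 ht.det_pos.ne'
  set g : Matrix ι ι ℝ := t⁻¹ with hg
  have htg : t * g = 1 := mul_nonsing_inv _ hdet
  have hgt : g * t = 1 := nonsing_inv_mul _ hdet
  have hgT : gᵀ = g := by rw [hg, transpose_nonsing_inv, htT]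
  obtain ⟨b, hb⟩ : ∃ b : Matrix ι ι ℝ, g = bᵀ * b := by
    obtain ⟨B, hB⟩ := CStarAlgebra.nonneg_iff_eq_star_mul_self.mp ht.inv.posSemidef.nonneg
    refine ⟨B, ?_⟩
    rw [hg, hB, Matrix.star_eq_conjTranspose, Matrix.conjTranspose_eq_transpose_of_trivial]
  obtain ⟨P, hP⟩ : ∃ P : ι → ι → ι → ℝ, P = m1 t D := ⟨_, rfl⟩
  have hDP : D = m1 g P := by rw [hP, m1_m1, hgt, m1_one]
  have h23 : s23 P = P := by
    funext i j k
    simp only [hP, s23, m1]
    exact Finset.sum_congr rfl fun l _ => by rw [hD l k j]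
  have h12 : s12 P = P := by
    funext i j k
    simp only [hP, s12, m1]
    exact (hSY i j k).symm
  have e23 : ∀ i j k, P i k j = P i j k := fun i j k => congrFun (congrFun (congrFun h23 i) j) k
  have e12 : ∀ i j k, P j i k = P i j k := fun i j k => congrFun (congrFun (congrFun h12 i) j) k
  set W : Matrix ι ι ℝ := diagonal w with hW
  have hWT : Wᵀ = W := diagonal_transpose w
  set A : Matrix ι ι ℝ := t * W with hA
  have hgA : g * A = W := by rw [hA, ← Matrix.mul_assoc, hgt, Matrix.one_mul]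
  have hAT : Aᵀ = W * t := by rw [hA, transpose_mul, hWT, htT]
  have hATg : Aᵀ * g = W := by rw [hAT, Matrix.mul_assoc, htg, Matrix.mul_one]
  have hX2 : m2 A P = s12 (m1 A P) := by
    conv_lhs => rw [← h12]
    rfl
  -- the two forms
  have b11 : bf g (m1 A P) (m1 A P) = dot3 P (m1 (W * t * W) (m2 g (m3 g P))) := by
    have h : m1 g (m2 g (m3 g (m1 A P))) = m1 W (m2 g (m3 g P)) := by
      rw [← m1_m3, ← m1_m2, m1_m1, hgA]
    unfold bf
    rw [dot3_m1, h, m1_m1, hAT]
  have b12 : bf g (m1 A P) (m2 A P) = dot3 P (m1 W (m2 W (m3 g P))) := by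
    have h : m1 g (m2 g (m3 g (m2 A P))) = m1 g (m2 W (m3 g P)) := by
      rw [← m2_m3, m2_m2, hgA]
    unfold bf
    rw [dot3_m1, h, m1_m1, hATg]
  have hN2 : ∑ a, ∑ i, w a * w i * t a i * ∑ b, ∑ c, D c a b * D b i c =
      dot3 P (m1 (W * t * W) (m2 g (m3 g P))) := by
    have h1 : dot3 P (m1 (W * t * W) (m2 g (m3 g P))) =
        dot3 (m3 g P) (m1 (W * t * W) (m2 g P)) := by
      rw [dot3_m3, hgT, ← m1_m3, ← m2_m3]
    rw [h1]
    have hDa : ∀ c a b, D c a b = m3 g P a b c := by
      intro c a b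
      rw [hDP]
      simp only [m1, m3]
      refine Finset.sum_congr rfl fun l _ => ?_
      rw [e12 a l b, e23 a b l]
    have hDb : ∀ b i c, D b i c = m2 g P i b c := by
      intro b i c
      rw [hDP]
      simp only [m1, m2]
      refine Finset.sum_congr rfl fun l _ => ?_
      rw [e12 i l c]
    have hQ : ∀ a i, (W * t * W) a i = w a * t a i * w i := by
      intro a i
      rw [hW, mul_diagonal, diagonal_mul]
    unfold dot3
    refine Finset.sum_congr rfl fun a _ => ?_
    have h2 : ∀ b c, m3 g P a b c * m1 (W * t * W) (m2 g P) a b c =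
        ∑ i, w a * w i * t a i * (D c a b * D b i c) := by
      intro b c
      rw [m1, Finset.mul_sum]
      refine Finset.sum_congr rfl fun i _ => ?_
      rw [hQ, hDa c a b, hDb b i c]
      ring
    simp_rw [h2, Finset.mul_sum]
    rw [Finset.sum_comm]
    refine Finset.sum_congr rfl fun b _ => ?_
    rw [Finset.sum_comm]
  have hN1 : ∑ i, ∑ j, w i * w j * ∑ k, ∑ l, t k l * D k i j * D l i j =
      dot3 P (m1 W (m2 W (m3 g P))) := by
    unfold dot3
    refine Finset.sum_congr rfl fun i _ => Finset.sum_congr rfl fun j _ => ?_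
    have h3 : ∀ k, m1 W (m2 W (m3 g P)) i j k = w i * w j * m3 g P i j k := by
      intro k
      simp only [m1, m2, hW, diagonal_apply, ite_mul, zero_mul, Finset.sum_ite_eq,
        Finset.mem_univ, if_true]
      ring
    have hDa : ∀ l, D l i j = m3 g P i j l := by
      intro l
      rw [hDP]
      simp only [m1, m3]
      refine Finset.sum_congr rfl fun l' _ => ?_
      rw [e12 i l' j, e23 i j l']
    have hPl : ∀ l, P i j l = ∑ k, t k l * D k i j := by
      intro l
      have : P i j l = P l i j := by rw [e12 i l j, e23 i j l]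
      rw [this, hP]
      simp only [m1]
      refine Finset.sum_congr rfl fun k _ => ?_
      have : t l k = t k l := by
        have := congrFun (congrFun htT k) l
        simpa [transpose_apply] using this
      rw [this]
    rw [Finset.sum_comm, Finset.mul_sum]
    refine Finset.sum_congr rfl fun l _ => ?_
    rw [h3, hPl, ← hDa l, Finset.sum_mul, Finset.mul_sum]
    refine Finset.sum_congr rfl fun k _ => ?_
    ring
  have hpos := bf_nonneg g b hb (m1 A P - m2 A P)
  rw [bf_sub_left g hgT, bf_sub, bf_sub, bf_comm g hgT (m2 A P) (m1 A P)] at hpos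
  have h22 : bf g (m2 A P) (m2 A P) = bf g (m1 A P) (m1 A P) := by
    rw [hX2, bf_s12]
  rw [h22, b11, b12] at hpos
  rw [hN1, hN2]
  linarith

end Vale.Agent.P254.X.S2b
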