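import Mathlib

/-! # P254, stage 3: the scalar inequality of the localisation potential (note 11007 of helper625).

`a = 13/4`, `γ = 71/100`, `α = 29/100`; `w1 x = α + γ / (1 + a x)` is the derivative of the potential,
`yy x = 4 / (1 + √(1 + 8 x))` is the solution of `x y² + y = 2`. -/

namespace Vale.Agent.P254.X.Sc244

/-- derivative of the potential -/
noncomputable def w1 (x : ℝ) : ℝ := 29 / 100 + 71 / 100 / (1 + 13 / 4 * x)

/-- the potential (with value `0` at `0`) -/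
noncomputable def w0 (x : ℝ) : ℝ := 29 / 100 * x + 71 / 325 * Real.log (1 + 13 / 4 * x)

/-- solution of `x y² + y = 2` -/
noncomputable def yy (x : ℝ) : ℝ := 4 / (1 + Real.sqrt (1 + 8 * x))

/-- `u x = √(γ a / 2) x / (1 + a x)`, squared coefficient -/
noncomputable def cd (x : ℝ) : ℝ := 1 / 4 + 923 / 800 * (x / (1 + 13 / 4 * x)) ^ 2

theorem hasDerivAt_w0 {x : ℝ} (hx : 0 ≤ x) : HasDerivAt w0 (w1 x) x := by
  have h1 : HasDerivAt (fun x : ℝ => 1 + 13 / 4 * x) (13 / 4) x := by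
    simpa using ((hasDerivAt_id x).const_mul (13 / 4 : ℝ)).const_add 1
  have h2 := (h1.log (by positivity)).const_mul (71 / 325 : ℝ)
  have h3 := ((hasDerivAt_id x).const_mul (29 / 100 : ℝ)).add h2
  refine h3.congr_deriv ?_
  unfold w1
  have : (1 + 13 / 4 * x) ≠ 0 := by positivity
  field_simp
  ring

theorem yy_pos (x : ℝ) : 0 < yy x := by
  unfold yy
  positivity

theorem yy_eq {x : ℝ} (hx : 0 ≤ x) : x * yy x ^ 2 + yy x = 2 := by
  unfold yy
  have hs : Real.sqrt (1 + 8 * x) ^ 2 = 1 + 8 * x := Real.sq_sqrt (by positivity)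
  have h0 : 0 ≤ Real.sqrt (1 + 8 * x) := Real.sqrt_nonneg _
  set s := Real.sqrt (1 + 8 * x)
  have hx' : x = (s ^ 2 - 1) / 8 := by linarith
  have h1 : (1 + s) ≠ 0 := by positivity
  rw [hx']
  field_simp
  ring

theorem one_le_yy {x : ℝ} (hx1 : x ≤ 1) : 1 ≤ yy x := by
  unfold yy
  have h0 : 0 ≤ Real.sqrt (1 + 8 * x) := Real.sqrt_nonneg _
  have h3 : Real.sqrt (1 + 8 * x) ≤ 3 := by
    rw [Real.sqrt_le_left (by norm_num)]
    linarith
  rw [le_div_iff₀ (by positivity)]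
  linarith

/-- the polynomial inequality -/
theorem poly_nonneg {t : ℝ} (h0 : 0 ≤ t) (h1 : t ≤ 1) :
    0 ≤ 277 / 100 - 3443 / 800 * t - 1833 / 320 * t ^ 2 + 8957 / 1600 * t ^ 3 + 4901 / 320 * t ^ 4
      + 4901 / 1600 * t ^ 5 := by
  have h2 : 0 ≤ 1 - t := by linarith
  have e : 277 / 100 - 3443 / 800 * t - 1833 / 320 * t ^ 2 + 8957 / 1600 * t ^ 3
      + 4901 / 320 * t ^ 4 + 4901 / 1600 * t ^ 5 =
      (277 / 100) * (1 - t) ^ 8 +
      (2857 / 160) * t ^ 1 * (1 - t) ^ 7 +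
      (66729 / 1600) * t ^ 2 * (1 - t) ^ 6 +
      (57553 / 1600) * t ^ 3 * (1 - t) ^ 5 +
      (209 / 320) * t ^ 4 * (1 - t) ^ 4 +
      (16373 / 1600) * t ^ 5 * (1 - t) ^ 3 +
      (46659 / 800) * t ^ 6 * (1 - t) ^ 2 +
      (22443 / 400) * t ^ 7 * (1 - t) ^ 1 +
      (3343 / 200) * t ^ 8 := by ring
  rw [e]
  positivity

/-- the scalar inequality -/
theorem sc_ineq {x : ℝ} (hx0 : 0 ≤ x) (hx1 : x ≤ 1) :
    cd x * (4 * (yy x - 1)) ≤ w1 x * (1 - x) := by
  have hs : Real.sqrt (1 + 8 * x) ^ 2 = 1 + 8 * x := Real.sq_sqrt (by positivity)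
  have hs0 : 0 ≤ Real.sqrt (1 + 8 * x) := Real.sqrt_nonneg _
  have hs1 : 1 ≤ Real.sqrt (1 + 8 * x) := by
    rw [Real.le_sqrt (by norm_num) (by positivity)]
    linarith
  have hs3 : Real.sqrt (1 + 8 * x) ≤ 3 := by
    rw [Real.sqrt_le_left (by norm_num)]
    linarith
  unfold cd yy w1
  set s := Real.sqrt (1 + 8 * x)
  obtain ⟨t, ht⟩ : ∃ t : ℝ, s = 1 + 2 * t := ⟨(s - 1) / 2, by ring⟩
  have ht0 : 0 ≤ t := by linarith
  have ht1 : t ≤ 1 := by linarith
  have hx : x = (t + t ^ 2) / 2 := by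
    rw [ht] at hs
    linarith [hs, show (1 + 2 * t) ^ 2 = 1 + 4 * t + 4 * t ^ 2 by ring]
  have hp := poly_nonneg ht0 ht1
  have hd : 0 < 1 + 13 / 4 * x := by positivity
  have hsp : 0 < 1 + s := by linarith
  have key : (29 / 100 + 71 / 100 / (1 + 13 / 4 * x)) * (1 - x)
      - (1 / 4 + 923 / 800 * (x / (1 + 13 / 4 * x)) ^ 2) * (4 * (4 / (1 + s) - 1))
      = (3 - s) * t * (277 / 100 - 3443 / 800 * t - 1833 / 320 * t ^ 2 + 8957 / 1600 * t ^ 3
        + 4901 / 320 * t ^ 4 + 4901 / 1600 * t ^ 5) / (8 * (1 + s) * (1 + 13 / 4 * x) ^ 2) := by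
    have hd' : (1 + 13 / 4 * x) ≠ 0 := hd.ne'
    have hsp' : (1 + s) ≠ 0 := hsp.ne'
    have hd2 : (1 + 13 / 4 * ((t + t ^ 2) / 2)) ≠ 0 := by rw [← hx]; exact hd'
    rw [ht] at hsp' ⊢
    rw [hx]
    rw [hx] at hd'
    field_simp
    ring
  have hq : 0 ≤ (3 - s) * t * (277 / 100 - 3443 / 800 * t - 1833 / 320 * t ^ 2
      + 8957 / 1600 * t ^ 3 + 4901 / 320 * t ^ 4 + 4901 / 1600 * t ^ 5)
      / (8 * (1 + s) * (1 + 13 / 4 * x) ^ 2) := by
    apply div_nonneg
    · exact mul_nonneg (mul_nonneg (by linarith) ht0) hp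
    · positivity
  linarith [key, hq]

/-- the divided difference of `w1` -/
theorem w1_sub {x y : ℝ} (hx : 0 ≤ x) (hy : 0 ≤ y) :
    w1 x - w1 y = -(923 / 400) * (x - y) / ((1 + 13 / 4 * x) * (1 + 13 / 4 * y)) := by
  unfold w1
  have h1 : (1 + 13 / 4 * x) ≠ 0 := by positivity
  have h2 : (1 + 13 / 4 * y) ≠ 0 := by positivity
  field_simp
  ring

/-- the kernel -/
noncomputable def ck (x y : ℝ) : ℝ :=
  1 / 4 + 923 / 800 * (x / (1 + 13 / 4 * x)) * (y / (1 + 13 / 4 * y))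

theorem ck_eq {x y : ℝ} (hx : 0 ≤ x) (hy : 0 ≤ y) (hxy : x ≠ y) :
    ck x y = 1 / 4 - 1 / 2 * (x * y) * ((w1 x - w1 y) / (x - y)) := by
  rw [w1_sub hx hy]
  unfold ck
  have h1 : (1 + 13 / 4 * x) ≠ 0 := by positivity
  have h2 : (1 + 13 / 4 * y) ≠ 0 := by positivity
  have h3 : x - y ≠ 0 := sub_ne_zero.2 hxy
  field_simp
  ring

theorem ck_self (x : ℝ) : ck x x = cd x := by
  unfold ck cd
  ring

theorem cd_pos (x : ℝ) : 0 < cd x := by
  unfold cd
  positivity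

/-- the kernel condition -/
theorem ck_le {x y : ℝ} (hx : 0 ≤ x) (hy : 0 ≤ y) :
    ck x y ≤ Real.sqrt (cd x) * Real.sqrt (cd y) := by
  rw [← Real.sqrt_mul (cd_pos x).le]
  apply Real.le_sqrt_of_sq_le
  unfold ck cd
  have h1 : 0 ≤ x / (1 + 13 / 4 * x) := by positivity
  have h2 : 0 ≤ y / (1 + 13 / 4 * y) := by positivity
  set p := x / (1 + 13 / 4 * x)
  set q := y / (1 + 13 / 4 * y)
  nlinarith [sq_nonneg (p - q)]

theorem log_bound : Real.log (17 / 4) ≤ 144693 / 100000 := by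
  have h1 : Real.log (17 / 4) = 2 * Real.log 2 + Real.log (17 / 16) := by
    rw [show (17 / 4 : ℝ) = 2 ^ 2 * (17 / 16) by norm_num, Real.log_mul (by norm_num) (by norm_num),
      Real.log_pow]
    norm_num
  have h2 : Real.log (17 / 16) ≤ 60630 / 1000000 := by
    rw [Real.log_le_iff_le_exp (by norm_num)]
    have := Real.exp_bound' (x := 60630 / 1000000) (by norm_num) (by norm_num) (n := 3) (by norm_num)
    have h3 := Real.sum_le_exp_of_nonneg (x := 60630 / 1000000) (by norm_num) 5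
    refine le_trans ?_ h3
    norm_num [Finset.sum_range_succ, Nat.factorial]
  have h3 := Real.log_two_lt_d9
  rw [h1]
  linarith

theorem w0_one : w0 1 ≤ 60611 / 100000 := by
  unfold w0
  have h := log_bound
  rw [show (1 + 13 / 4 * 1 : ℝ) = 17 / 4 by norm_num]
  linarith

theorem w0_zero : w0 0 = 0 := by
  unfold w0
  simp

theorem log_pi_bound : 11447 / 10000 ≤ Real.log Real.pi := by
  rw [Real.le_log_iff_exp_le Real.pi_pos]
  have h1 : Real.exp (11447 / 10000) = Real.exp 1 * Real.exp (1447 / 10000) := by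
    rw [← Real.exp_add]
    norm_num
  have h2 := Real.exp_bound' (x := 1447 / 10000) (by norm_num) (by norm_num) (n := 5) (by norm_num)
  have h3 : Real.exp (1447 / 10000) ≤ 115570 / 100000 := by
    refine h2.trans ?_
    norm_num [Finset.sum_range_succ, Nat.factorial]
  have h4 := Real.exp_one_lt_d9
  have h5 := Real.pi_gt_d6
  have h6 : 0 < Real.exp (1447 / 10000) := Real.exp_pos _
  rw [h1]
  nlinarith

/-- the Gaussian value `½ log (2πe) - 1` -/
theorem gauss_bound : 41892 / 100000 ≤ 1 / 2 * Real.log (2 * Real.pi * Real.exp 1) - 1 := by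
  rw [Real.log_mul (by positivity) (by positivity), Real.log_mul (by norm_num) (by positivity),
    Real.log_exp]
  have h1 := log_pi_bound
  have h2 := Real.log_two_gt_d9
  linarith

/-- the loss per dimension -/
theorem loss : w0 1 - (1 / 2 * Real.log (2 * Real.pi * Real.exp 1) - 1) ≤ 18719 / 100000 := by
  have h1 := w0_one
  have h2 := gauss_bound
  linarith

end Vale.Agent.P254.X.Sc244
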