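import Vale.Agent.P227.M.ID.XId
import Vale.Agent.P254.X.Alg560

/-! P254 stage 3, (S2b): the integral inequality `2 N1 ≤ E tr (W t W t) - E tr (W t W t V'' t)` in the frame
`TD t V` (Lipschitz `t`, no evenness). -/

open MeasureTheory Set Metric Filter
open scoped Topology NNReal

namespace Vale.Agent.P254.X.Stat

open Vale.Agent.P227.M Vale.Agent.P227.M.X

variable {n : ℕ}

/-- `xxw` with one compactly supported function only -/
theorem xxw1 {V : E n → ℝ} (hV : ContDiff ℝ 1 V) {W Z : E n → ℝ} (hW : LL W)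
    (hZ : LL Z) (hZc : CS Z) (i j : Fin n) :
    ∫ x, pd i W x * (pd j V x * Z x - pd j Z x) * Real.exp (-V x) =
      ∫ x, pd j W x * (pd i V x * Z x - pd i Z x) * Real.exp (-V x) := by
  obtain ⟨R, hR⟩ := id hZc
  let η : ContDiffBump (0 : E n) := ⟨max R 0 + 1, max R 0 + 2, by positivity, by linarith⟩
  have hη : LL (fun x => η x) := LL.of_contDiff (η.contDiff (n := 1))
  have hηc : CS (fun x => η x) := CS.of_hasCompactSupport η.hasCompactSupport
  have h := xxw hV (hη.mul hW) (hηc.mul_right W) hZ hZc i j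
  have key : ∀ (a b : Fin n) (x : E n), pd a W x * (pd b V x * Z x - pd b Z x) * Real.exp (-V x) =
      pd a (fun x => η x * W x) x * (pd b V x * Z x - pd b Z x) * Real.exp (-V x) := by
    intro a b x
    by_cases hx : R < ‖x‖
    · have h1 : pd b Z x = 0 := by
        have h1 : Z =ᶠ[𝓝 x] fun _ => (0 : ℝ) := by
          have : {y : E n | R < ‖y‖} ∈ 𝓝 x := (isOpen_lt continuous_const continuous_norm).mem_nhds hx
          filter_upwards [this] with y hy
          exact hR y hy
        unfold Vale.Agent.P227.M.pd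
        rw [h1.fderiv_eq]
        simp
      rw [h1, hR x hx]
      ring
    · have h2 : (fun x => η x * W x) =ᶠ[𝓝 x] W := by
        have hx' : ‖x‖ < max R 0 + 1 := (not_lt.1 hx).trans_lt (by linarith [le_max_left R 0])
        filter_upwards [ball_nhds x hx'] with y hy
        rw [η.one_of_mem_closedBall hy, one_mul]
      have h3 : pd a (fun x => η x * W x) x = pd a W x := by
        unfold Vale.Agent.P227.M.pd
        rw [h2.fderiv_eq]
      rw [h3]
  calc ∫ x, pd i W x * (pd j V x * Z x - pd j Z x) * Real.exp (-V x)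
      = ∫ x, pd i (fun x => η x * W x) x * (pd j V x * Z x - pd j Z x) * Real.exp (-V x) :=
        integral_congr_ae (Eventually.of_forall fun x => key i j x)
    _ = ∫ x, pd j (fun x => η x * W x) x * (pd i V x * Z x - pd i Z x) * Real.exp (-V x) := h
    _ = _ := integral_congr_ae (Eventually.of_forall fun x => (key j i x).symm)

/-- (K0) -/
theorem K0 {V : E n → ℝ} (hV : ContDiff ℝ (⊤ : ℕ∞) V) {f g : E n → ℝ} (hf : LL f) (hg : LL g) (hc : CS g)
    (b c : Fin n) :
    I V (fun x => pd c (pd b V) x * f x * g x) =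
      I V (fun x => (pd b V x * f x - pd b f x) * (pd c V x * g x - pd c g x))
        - I V (fun x => pd c f x * pd b g x) := by
  have hVa : ∀ a, LL (pd a V) := fun a => ll_pdV hV a
  have bg : BC g := ⟨hg.lb, hc⟩
  have bpg : ∀ a, BC (pd a g) := fun a => ⟨LB.pd hg a, hc.pd a⟩
  have b1 : ∀ a, BC (fun x => pd a V x * g x - pd a g x) := fun a =>
    (BC.mul_left bg (hVa a).lb).sub (bpg a)
  -- `∫ ∂_c (V_b f) g = ∫ V_b f (V_c g - ∂_c g)`
  have e1 : I V (fun x => pd c (fun x => pd b V x * f x) x * g x) =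
      I V (fun x => pd b V x * f x * (pd c V x * g x - pd c g x)) :=
    ibpw (V_one hV) ((hVa b).mul hf) hg (Or.inr hc) c
  have e2 : I V (fun x => pd b f x * (pd c V x * g x - pd c g x)) =
      I V (fun x => pd c f x * (pd b V x * g x - pd b g x)) :=
    xxw1 (V_one hV) hf hg hc b c
  have b2 : BC (fun x => pd b V x * f x * (pd c V x * g x - pd c g x)) :=
    BC.mul_left (b1 c) ((hVa b).lb.mul hf.lb)
  have b3 : BC (fun x => pd b f x * (pd c V x * g x - pd c g x)) := BC.mul_left (b1 c) (LB.pd hf b)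
  have b4 : BC (fun x => pd c f x * (pd b V x * g x - pd b g x)) := BC.mul_left (b1 b) (LB.pd hf c)
  have b5 : BC (fun x => pd c f x * pd b g x) := BC.mul_left (bpg b) (LB.pd hf c)
  have b6 : BC (fun x => pd c (fun x => pd b V x * f x) x * g x) :=
    BC.mul_left bg (LB.pd ((hVa b).mul hf) c)
  have e3 : I V (fun x => (pd b V x * f x - pd b f x) * (pd c V x * g x - pd c g x)) =
      I V (fun x => pd c (fun x => pd b V x * f x) x * g x) -
        I V (fun x => pd c f x * (pd b V x * g x - pd b g x)) := by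
    rw [e1, ← e2, ← I_sub hV b2 b3]
    exact I_congr' fun x => by ring
  rw [e3, ← I_sub hV b6 b4, ← I_sub hV (b6.sub b4) b5]
  refine I_congr ?_
  filter_upwards [hf.ae_diff] with x hx
  rw [pd_mul c (smooth_diff (smooth_pd hV b) x) hx]
  ring

section
variable {t : Fin n → Fin n → E n → ℝ} {V : E n → ℝ} (h : TD t V)
include h

/-- the identity for one pair `a, i` and a test function `g` -/
theorem pair_id {g : E n → ℝ} (hg : LL g) (hc : CS g) (a i : Fin n) :
    I V (fun x => ∑ b, ∑ c, pd c (pd b V) x * t a b x * (t i c x * g x)) =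
      I V (fun x => t a i x * g x)
        - I V (fun x => ∑ b, ∑ c, pd c (t a b) x * pd b (t i c) x * g x)
        - I V (fun x => ∑ b, D t b (t a i) x * pd b g x) := by
  have hV := h.V_smooth
  have hVa : ∀ a, LL (pd a V) := fun a => ll_pdV hV a
  have htg : ∀ c, LL (fun x => t i c x * g x) := fun c => (h.ll i c).mul hg
  have htgc : ∀ c, CS (fun x => t i c x * g x) := fun c => hc.mul_left _
  have bg : BC g := ⟨hg.lb, hc⟩
  have bpg : ∀ a, BC (pd a g) := fun a => ⟨LB.pd hg a, hc.pd a⟩
  have btg : ∀ c, BC (fun x => t i c x * g x) := fun c => ⟨(htg c).lb, htgc c⟩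
  have bptg : ∀ b c, BC (pd b (fun x => t i c x * g x)) := fun b c => ⟨LB.pd (htg c) b, (htgc c).pd b⟩
  have b0 : ∀ b c, BC (fun x => pd c (pd b V) x * t a b x * (t i c x * g x)) := fun b c =>
    BC.mul_left (btg c) ((smooth_ll (smooth_pd (smooth_pd hV b) c)).lb.mul (h.ll a b).lb)
  have b1 : ∀ b c, BC (fun x => (pd b V x * t a b x - pd b (t a b) x) *
      (pd c V x * (t i c x * g x) - pd c (fun x => t i c x * g x) x)) := fun b c =>
    BC.mul_left ((BC.mul_left (btg c) (hVa c).lb).sub (bptg c c))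
      (((hVa b).lb.mul (h.ll a b).lb).sub (LB.pd (h.ll a b) b))
  have b2 : ∀ b c, BC (fun x => pd c (t a b) x * pd b (fun x => t i c x * g x) x) := fun b c =>
    BC.mul_left (bptg b c) (LB.pd (h.ll a b) c)
  have b3 : BC (fun x => ∑ b, ∑ c, pd c (t a b) x * pd b (t i c) x * g x) :=
    BC.sum fun b _ => BC.sum fun c _ => BC.mul_left bg ((LB.pd (h.ll a b) c).mul (LB.pd (h.ll i c) b))
  have b4 : BC (fun x => ∑ b, D t b (t a i) x * pd b g x) :=
    BC.sum fun b _ => BC.mul_left (bpg b) (lb_D h (h.ll a i) b)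
  have e1 : I V (fun x => ∑ b, ∑ c, pd c (pd b V) x * t a b x * (t i c x * g x)) =
      I V (fun x => ∑ b, ∑ c, (pd b V x * t a b x - pd b (t a b) x) *
        (pd c V x * (t i c x * g x) - pd c (fun x => t i c x * g x) x))
      - I V (fun x => ∑ b, ∑ c, pd c (t a b) x * pd b (fun x => t i c x * g x) x) := by
    rw [I_sum hV fun b _ => BC.sum fun c _ => b0 b c, I_sum hV fun b _ => BC.sum fun c _ => b1 b c,
      I_sum hV fun b _ => BC.sum fun c _ => b2 b c, ← Finset.sum_sub_distrib]
    refine Finset.sum_congr rfl fun b _ => ?_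
    rw [I_sum hV fun c _ => b0 b c, I_sum hV fun c _ => b1 b c, I_sum hV fun c _ => b2 b c,
      ← Finset.sum_sub_distrib]
    exact Finset.sum_congr rfl fun c _ => K0 hV (h.ll a b) (htg c) (htgc c) b c
  have e2 : I V (fun x => ∑ b, ∑ c, (pd b V x * t a b x - pd b (t a b) x) *
        (pd c V x * (t i c x * g x) - pd c (fun x => t i c x * g x) x)) =
      I V (fun x => t a i x * g x) := by
    have e3 : I V (fun x => ∑ b, ∑ c, (pd b V x * t a b x - pd b (t a b) x) *
        (pd c V x * (t i c x * g x) - pd c (fun x => t i c x * g x) x)) =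
        I V (fun x => Ds t i g x * x a) := by
      refine I_congr ?_
      filter_upwards [hg.ae_diff, ae_t h, h.ST] with x hgx htx hST
      have s1 : ∀ c, pd c V x * (t i c x * g x) - pd c (fun x => t i c x * g x) x =
          (pd c V x * t i c x - pd c (t i c) x) * g x - t i c x * pd c g x := by
        intro c
        rw [pd_mul c (htx i c) hgx]; ring
      have s2 : ∑ c, (pd c V x * (t i c x * g x) - pd c (fun x => t i c x * g x) x) = Ds t i g x := by
        rw [Finset.sum_congr rfl fun c _ => s1 c, Finset.sum_sub_distrib, ← Finset.sum_mul, hST i]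
        rfl
      rw [← Finset.sum_mul_sum, s2, hST a]
      ring
    have e4 := ibpD h hg (coord_ll a) (Or.inl hc) i
    rw [e3, ← e4]
    refine I_congr' fun x => ?_
    rw [D_coord, h.symm a i]; ring
  have e5 : I V (fun x => ∑ b, ∑ c, pd c (t a b) x * pd b (fun x => t i c x * g x) x) =
      I V (fun x => ∑ b, ∑ c, pd c (t a b) x * pd b (t i c) x * g x) +
        I V (fun x => ∑ b, D t b (t a i) x * pd b g x) := by
    rw [← I_add hV b3 b4]
    refine I_congr ?_
    filter_upwards [hg.ae_diff, ae_t h, h.SY] with x hgx htx hSY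
    rw [← Finset.sum_add_distrib]
    refine Finset.sum_congr rfl fun b _ => ?_
    have s1 : ∀ c, pd c (t a b) x * pd b (fun x => t i c x * g x) x =
        pd c (t a b) x * pd b (t i c) x * g x + t i c x * pd c (t a b) x * pd b g x := by
      intro c
      rw [pd_mul b (htx i c) hgx]; ring
    -- `D_i t_ab = D_b t_ai`
    have s2 : ∑ c, t i c x * pd c (t a b) x = ∑ c, t b c x * pd c (t a i) x := by
      rw [h.symm a b, hSY i b a, h.symm i a]
    rw [Finset.sum_congr rfl fun c _ => s1 c, Finset.sum_add_distrib]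
    congr 1
    rw [← Finset.sum_mul, s2]
    rfl
  rw [e1, e2, e5]
  ring

end

end Vale.Agent.P254.X.Stat
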