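import Vale.Agent.P254.X.Stat560

/-! P254 stage 3, (S2b): cut-off and limit: `2 E N1 ≤ E tr (W t W t) - E tr (W t W t V'' t)`. -/

open MeasureTheory Set Metric Filter
open scoped Topology NNReal

namespace Vale.Agent.P254.X.Stat

open Vale.Agent.P227.M Vale.Agent.P227.M.X

variable {n : ℕ}

/-- `∑ w_a w_i ⟨t ∇t_ai, ∇t_ai⟩` -/
noncomputable def N1f (t : Fin n → Fin n → E n → ℝ) (w : Fin n → ℝ) (x : E n) : ℝ :=
  ∑ a, ∑ i, w a * w i * ∑ b, D t b (t a i) x * pd b (t a i) x

/-- `∑ w_a w_i t_ai ∂_c t_ab ∂_b t_ic` -/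
noncomputable def N2f (t : Fin n → Fin n → E n → ℝ) (w : Fin n → ℝ) (x : E n) : ℝ :=
  ∑ a, ∑ i, ∑ b, ∑ c, w a * w i * t a i x * pd c (t a b) x * pd b (t i c) x

/-- `tr (W t W t)` -/
noncomputable def Af (t : Fin n → Fin n → E n → ℝ) (w : Fin n → ℝ) (x : E n) : ℝ :=
  ∑ a, ∑ i, w a * w i * (t a i x) ^ 2

/-- `tr (W t W t V'' t)` -/
noncomputable def Qf (t : Fin n → Fin n → E n → ℝ) (V : E n → ℝ) (w : Fin n → ℝ) (x : E n) : ℝ :=
  ∑ a, ∑ i, w a * w i * t a i x * ∑ b, ∑ c, pd c (pd b V) x * t a b x * t i c x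

/-- the error term of the cut-off -/
noncomputable def Zf (t : Fin n → Fin n → E n → ℝ) (w : Fin n → ℝ) (χ : E n → ℝ) (x : E n) : ℝ :=
  ∑ a, ∑ i, w a * w i * t a i x * ∑ b, D t b (t a i) x * pd b χ x

/-- bounded and measurable -/
def Bd (f : E n → ℝ) : Prop := Measurable f ∧ ∃ B : ℝ, ∀ x, |f x| ≤ B

theorem Bd.const (c : ℝ) : Bd (fun _ : E n => c) := ⟨measurable_const, |c|, fun _ => le_rfl⟩

theorem Bd.add {f g : E n → ℝ} (hf : Bd f) (hg : Bd g) : Bd (fun x => f x + g x) := by
  obtain ⟨mf, A, hA⟩ := hf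
  obtain ⟨mg, B, hB⟩ := hg
  exact ⟨mf.add mg, A + B, fun x => (abs_add_le _ _).trans (add_le_add (hA x) (hB x))⟩

theorem Bd.mul {f g : E n → ℝ} (hf : Bd f) (hg : Bd g) : Bd (fun x => f x * g x) := by
  obtain ⟨mf, A, hA⟩ := hf
  obtain ⟨mg, B, hB⟩ := hg
  refine ⟨mf.mul mg, A * B, fun x => ?_⟩
  rw [abs_mul]
  exact mul_le_mul (hA x) (hB x) (abs_nonneg _) ((abs_nonneg _).trans (hA x))

theorem Bd.sum {ι : Type*} {s : Finset ι} {f : ι → E n → ℝ} (hf : ∀ i ∈ s, Bd (f i)) :
    Bd (fun x => ∑ i ∈ s, f i x) := by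
  classical
  induction s using Finset.induction_on with
  | empty => simpa using Bd.const (n := n) 0
  | insert a s ha ih =>
    have h1 := (hf a (Finset.mem_insert_self a s)).add
      (ih fun i hi => hf i (Finset.mem_insert_of_mem hi))
    simpa [Finset.sum_insert ha] using h1

theorem Bd.lb {f : E n → ℝ} (hf : Bd f) : LB f := ⟨hf.1, fun _ => ⟨hf.2.choose, fun x _ => hf.2.choose_spec x⟩⟩

theorem Bd.int {V : E n → ℝ} (hi : Integrable fun x => Real.exp (-V x)) {f : E n → ℝ} (hf : Bd f) :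
    Integrable fun x => f x * Real.exp (-V x) := by
  obtain ⟨mf, B, hB⟩ := hf
  exact hi.bdd_mul mf.aestronglyMeasurable (Eventually.of_forall fun x => by rw [Real.norm_eq_abs]; exact hB x)

section
variable {t : Fin n → Fin n → E n → ℝ} {V : E n → ℝ} (h : TD t V)
include h

/-- the inequality with a cut-off -/
theorem cut_le (hpd : ∀ x, (Matrix.of fun a b => t a b x).PosDef) (w : Fin n → ℝ) {χ : E n → ℝ}
    (hχ : LL χ) (hc : CS χ) (h0 : ∀ x, 0 ≤ χ x) :
    2 * I V (fun x => χ x * N1f t w x) ≤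
      I V (fun x => χ x * Af t w x) - I V (fun x => χ x * Qf t V w x) - I V (Zf t w χ) := by
  have hV := h.V_smooth
  have bχ : BC χ := ⟨hχ.lb, hc⟩
  have ht : ∀ a b, LB (t a b) := fun a b => (h.ll a b).lb
  have hpt : ∀ a b c, LB (pd c (t a b)) := fun a b c => LB.pd (h.ll a b) c
  have hDt : ∀ a b c, LB (D t c (t a b)) := fun a b c => lb_D h (h.ll a b) c
  have hVV : ∀ b c, LB (pd c (pd b V)) := fun b c => (smooth_ll (smooth_pd (smooth_pd hV b) c)).lb
  have lg : ∀ a i, LL (fun x => χ x * (w a * w i * t a i x)) := fun a i =>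
    hχ.mul ((LL.const _).mul (h.ll a i))
  have cg : ∀ a i, CS (fun x => χ x * (w a * w i * t a i x)) := fun a i => hc.mul_right _
  have bg : ∀ a i, BC (fun x => χ x * (w a * w i * t a i x)) := fun a i => ⟨(lg a i).lb, cg a i⟩
  have bpg : ∀ a i b, BC (pd b (fun x => χ x * (w a * w i * t a i x))) := fun a i b =>
    ⟨LB.pd (lg a i) b, (cg a i).pd b⟩
  -- membership
  have bQ : ∀ a i, BC (fun x => ∑ b, ∑ c, pd c (pd b V) x * t a b x * (t i c x * (χ x * (w a * w i * t a i x)))) :=
    fun a i => BC.sum fun b _ => BC.sum fun c _ =>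
      BC.mul_left (BC.mul_left (bg a i) (ht i c)) ((hVV b c).mul (ht a b))
  have bA : ∀ a i, BC (fun x => t a i x * (χ x * (w a * w i * t a i x))) := fun a i =>
    BC.mul_left (bg a i) (ht a i)
  have bN : ∀ a i, BC (fun x => ∑ b, ∑ c, pd c (t a b) x * pd b (t i c) x * (χ x * (w a * w i * t a i x))) :=
    fun a i => BC.sum fun b _ => BC.sum fun c _ => BC.mul_left (bg a i) ((hpt a b c).mul (hpt i c b))
  have bZ : ∀ a i, BC (fun x => ∑ b, D t b (t a i) x * pd b (fun x => χ x * (w a * w i * t a i x)) x) :=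
    fun a i => BC.sum fun b _ => BC.mul_left (bpg a i b) (hDt a i b)
  have bN1 : BC (fun x => χ x * N1f t w x) := BC.mul_right bχ (LB.sum fun a _ => LB.sum fun i _ =>
    (LB.const _).mul (LB.sum fun b _ => (hDt a i b).mul (hpt a i b)))
  have bN2 : BC (fun x => χ x * N2f t w x) := BC.mul_right bχ (LB.sum fun a _ => LB.sum fun i _ =>
    LB.sum fun b _ => LB.sum fun c _ => (((LB.const _).mul (ht a i)).mul (hpt a b c)).mul (hpt i c b))
  have bZ' : BC (Zf t w χ) := BC.sum fun a _ => BC.sum fun i _ =>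
    BC.mul_left (BC.sum fun b _ => BC.mul_left ⟨LB.pd hχ b, hc.pd b⟩ (hDt a i b)) ((LB.const _).mul (ht a i))
  -- the four sums
  have e0 : I V (fun x => χ x * Qf t V w x) = ∑ a, ∑ i,
      I V (fun x => ∑ b, ∑ c, pd c (pd b V) x * t a b x * (t i c x * (χ x * (w a * w i * t a i x)))) := by
    rw [← Finset.sum_congr rfl fun a _ => I_sum hV fun i _ => bQ a i,
      ← I_sum hV fun a _ => BC.sum fun i _ => bQ a i]
    refine I_congr' fun x => ?_
    unfold Qf
    simp only [Finset.mul_sum]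
    refine Finset.sum_congr rfl fun a _ => Finset.sum_congr rfl fun i _ => Finset.sum_congr rfl fun b _ =>
      Finset.sum_congr rfl fun c _ => ?_
    ring
  have e1 : I V (fun x => χ x * Af t w x) = ∑ a, ∑ i, I V (fun x => t a i x * (χ x * (w a * w i * t a i x))) := by
    rw [← Finset.sum_congr rfl fun a _ => I_sum hV fun i _ => bA a i,
      ← I_sum hV fun a _ => BC.sum fun i _ => bA a i]
    refine I_congr' fun x => ?_
    unfold Af
    simp only [Finset.mul_sum]
    refine Finset.sum_congr rfl fun a _ => Finset.sum_congr rfl fun i _ => ?_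
    ring
  have e2 : I V (fun x => χ x * N2f t w x) = ∑ a, ∑ i,
      I V (fun x => ∑ b, ∑ c, pd c (t a b) x * pd b (t i c) x * (χ x * (w a * w i * t a i x))) := by
    rw [← Finset.sum_congr rfl fun a _ => I_sum hV fun i _ => bN a i,
      ← I_sum hV fun a _ => BC.sum fun i _ => bN a i]
    refine I_congr' fun x => ?_
    unfold N2f
    simp only [Finset.mul_sum]
    refine Finset.sum_congr rfl fun a _ => Finset.sum_congr rfl fun i _ => Finset.sum_congr rfl fun b _ =>
      Finset.sum_congr rfl fun c _ => ?_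
    ring
  have e3 : I V (fun x => χ x * N1f t w x) + I V (Zf t w χ) = ∑ a, ∑ i,
      I V (fun x => ∑ b, D t b (t a i) x * pd b (fun x => χ x * (w a * w i * t a i x)) x) := by
    rw [← Finset.sum_congr rfl fun a _ => I_sum hV fun i _ => bZ a i,
      ← I_sum hV fun a _ => BC.sum fun i _ => bZ a i, ← I_add hV bN1 bZ']
    refine I_congr ?_
    filter_upwards [hχ.ae_diff, ae_t h] with x hχx htx
    unfold N1f Zf
    simp only [Finset.mul_sum]
    rw [← Finset.sum_add_distrib]
    refine Finset.sum_congr rfl fun a _ => ?_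
    rw [← Finset.sum_add_distrib]
    refine Finset.sum_congr rfl fun i _ => ?_
    rw [← Finset.sum_add_distrib]
    refine Finset.sum_congr rfl fun b _ => ?_
    have d1 : DifferentiableAt ℝ (fun x => w a * w i * t a i x) x := (htx a i).const_mul _
    have s1 : pd b (fun x => w a * w i * t a i x) x = w a * w i * pd b (t a i) x := by
      unfold Vale.Agent.P227.M.pd
      rw [fderiv_const_mul (htx a i)]
      simp
    rw [pd_mul b hχx d1, s1]
    ring
  have e4 : I V (fun x => χ x * Qf t V w x) = I V (fun x => χ x * Af t w x) - I V (fun x => χ x * N2f t w x)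
      - (I V (fun x => χ x * N1f t w x) + I V (Zf t w χ)) := by
    rw [e3, e0, e1, e2, ← Finset.sum_sub_distrib, ← Finset.sum_sub_distrib]
    refine Finset.sum_congr rfl fun a _ => ?_
    rw [← Finset.sum_sub_distrib, ← Finset.sum_sub_distrib]
    exact Finset.sum_congr rfl fun i _ => pair_id h (lg a i) (cg a i) a i
  have e5 : I V (fun x => χ x * N1f t w x) ≤ I V (fun x => χ x * N2f t w x) := by
    refine I_mono hV bN1 bN2 ?_
    filter_upwards [h.SY] with x hSY
    refine mul_le_mul_of_nonneg_left ?_ (h0 x)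
    exact N_le (Matrix.of fun a b => t a b x) (hpd x) w (fun a b c => pd a (t b c) x)
      (fun a b c => by rw [h.symm b c]) (fun a b c => hSY a b c)
  linarith

end

/-- Lipschitz cut-off -/
noncomputable def cut (k : ℕ) (x : E n) : ℝ := max 0 (min 1 (2 - ‖x‖ / (k + 1)))

theorem cut_nonneg (k : ℕ) (x : E n) : 0 ≤ cut k x := le_max_left _ _

theorem cut_le_one (k : ℕ) (x : E n) : cut k x ≤ 1 := max_le zero_le_one (min_le_left _ _)

theorem cut_lip (k : ℕ) : LipschitzWith (1 / ((k : ℝ≥0) + 1)) (cut k : E n → ℝ) := by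
  have h1 : LipschitzWith (1 / ((k : ℝ≥0) + 1)) (fun x : E n => 2 - ‖x‖ / ((k : ℝ) + 1)) := by
    refine LipschitzWith.of_dist_le_mul fun x y => ?_
    have e : (2 - ‖x‖ / ((k : ℝ) + 1)) - (2 - ‖y‖ / ((k : ℝ) + 1)) = (‖y‖ - ‖x‖) / ((k : ℝ) + 1) := by ring
    have hk : (0 : ℝ) < (k : ℝ) + 1 := by positivity
    rw [Real.dist_eq, e, abs_div, abs_of_pos hk, dist_eq_norm]
    push_cast
    rw [div_mul_eq_mul_div, one_mul]
    refine div_le_div_of_nonneg_right ?_ hk.le
    rw [← norm_neg (x - y), neg_sub]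
    exact abs_norm_sub_norm_le y x
  exact (h1.const_min 1).const_max 0

theorem cut_ll (k : ℕ) : LL (cut k : E n → ℝ) := by
  refine LL.of_lip (C := 1 / ((k : ℝ) + 1)) fun x y => ?_
  have := (cut_lip (n := n) k).dist_le_mul x y
  rw [Real.dist_eq, dist_eq_norm] at this
  push_cast at this
  exact this

theorem cut_cs (k : ℕ) : CS (cut k : E n → ℝ) := by
  refine ⟨2 * (k + 1), fun x hx => ?_⟩
  have hk : (0 : ℝ) < (k : ℝ) + 1 := by positivity
  have h1 : 2 - ‖x‖ / ((k : ℝ) + 1) ≤ 0 := by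
    rw [sub_nonpos, le_div_iff₀ hk]
    exact hx.le
  exact max_eq_left ((min_le_right _ _).trans h1)

theorem cut_tendsto (x : E n) : Tendsto (fun k => cut k x) atTop (𝓝 1) := by
  refine tendsto_const_nhds.congr' ?_
  obtain ⟨K, hK⟩ := exists_nat_gt ‖x‖
  filter_upwards [eventually_ge_atTop K] with k hk
  have hk' : (K : ℝ) ≤ k := by exact_mod_cast hk
  have h1 : ‖x‖ / ((k : ℝ) + 1) ≤ 1 := by
    rw [div_le_one (by positivity)]
    linarith
  unfold cut
  rw [min_eq_left (by linarith), max_eq_right zero_le_one]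

theorem cut_pd (k : ℕ) (b : Fin n) (x : E n) : |pd b (cut k) x| ≤ 1 / ((k : ℝ) + 1) := by
  have h1 := norm_fderiv_le_of_lipschitz ℝ (cut_lip (n := n) k) (x₀ := x)
  have h2 : ‖fderiv ℝ (cut k) x (ei b)‖ ≤ ‖fderiv ℝ (cut k) x‖ * ‖(ei b : E n)‖ :=
    ContinuousLinearMap.le_opNorm _ _
  have h3 : ‖(ei b : E n)‖ = 1 := by simp [ei]
  rw [h3, mul_one] at h2
  push_cast at h1
  exact h2.trans h1

theorem cut_lim {V : E n → ℝ} (hi : Integrable fun x => Real.exp (-V x)) {f : E n → ℝ} (hf : Bd f) :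
    Tendsto (fun k => I V (fun x => cut k x * f x)) atTop (𝓝 (I V f)) := by
  obtain ⟨mf, B, hB⟩ := hf
  have hVm : AEStronglyMeasurable (fun x => Real.exp (-V x)) (volume : Measure (E n)) := hi.1
  unfold I
  refine tendsto_integral_of_dominated_convergence (fun x => B * Real.exp (-V x)) ?_ (hi.const_mul B) ?_ ?_
  · intro k
    exact (((cut_ll k).continuous.measurable.mul mf).aestronglyMeasurable).mul hVm
  · intro k
    refine Eventually.of_forall fun x => ?_
    rw [norm_mul, norm_mul, Real.norm_eq_abs, Real.norm_eq_abs, Real.norm_eq_abs, abs_of_pos (Real.exp_pos _)]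
    refine mul_le_mul_of_nonneg_right ?_ (Real.exp_pos _).le
    rw [abs_of_nonneg (cut_nonneg k x)]
    calc cut k x * |f x| ≤ 1 * |f x| := mul_le_mul_of_nonneg_right (cut_le_one k x) (abs_nonneg _)
      _ ≤ B := by rw [one_mul]; exact hB x
  · refine Eventually.of_forall fun x => ?_
    have := ((cut_tendsto x).mul_const (f x)).mul_const (Real.exp (-V x))
    simpa using this

section
variable {t : Fin n → Fin n → E n → ℝ} {V : E n → ℝ} (h : TD t V)
include h

/-- **(S2b)** -/
theorem static_int (hpd : ∀ x, (Matrix.of fun a b => t a b x).PosDef) (w : Fin n → ℝ)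
    (hi : Integrable fun x => Real.exp (-V x))
    (bt : ∀ a b, Bd (t a b)) (bp : ∀ a b c, Bd (pd c (t a b))) (bV : ∀ b c, Bd (pd c (pd b V))) :
    2 * I V (N1f t w) ≤ I V (Af t w) - I V (Qf t V w) := by
  have bD : ∀ a b c, Bd (D t c (t a b)) := fun a b c => Bd.sum fun e _ => (bt c e).mul (bp a b e)
  have bN1 : Bd (N1f t w) := Bd.sum fun a _ => Bd.sum fun i _ =>
    (Bd.const _).mul (Bd.sum fun b _ => (bD a i b).mul (bp a i b))
  have bA : Bd (Af t w) := Bd.sum fun a _ => Bd.sum fun i _ => (Bd.const _).mul (by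
    have := (bt a i).mul (bt a i)
    simpa [sq] using this)
  have bQ : Bd (Qf t V w) := Bd.sum fun a _ => Bd.sum fun i _ => ((Bd.const _).mul (bt a i)).mul
    (Bd.sum fun b _ => Bd.sum fun c _ => ((bV b c).mul (bt a b)).mul (bt i c))
  -- the error term
  have bZ : ∃ B : ℝ, ∀ (k : ℕ) x, |Zf t w (cut k) x| ≤ B * (1 / ((k : ℝ) + 1)) := by
    have bb : ∀ a i b, Bd (fun x => w a * w i * t a i x * D t b (t a i) x) := fun a i b =>
      ((Bd.const _).mul (bt a i)).mul (bD a i b)
    choose m B hB using fun a i b => bb a i b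
    refine ⟨∑ a, ∑ i, ∑ b, B a i b, fun k x => ?_⟩
    unfold Zf
    simp only [Finset.mul_sum, Finset.sum_mul]
    refine (Finset.abs_sum_le_sum_abs _ _).trans (Finset.sum_le_sum fun a _ => ?_)
    refine (Finset.abs_sum_le_sum_abs _ _).trans (Finset.sum_le_sum fun i _ => ?_)
    refine (Finset.abs_sum_le_sum_abs _ _).trans (Finset.sum_le_sum fun b _ => ?_)
    rw [← mul_assoc, abs_mul]
    exact mul_le_mul (hB a i b x) (cut_pd k b x) (abs_nonneg _) ((abs_nonneg _).trans (hB a i b x))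
  have lZ : Tendsto (fun k : ℕ => I V (Zf t w (cut k))) atTop (𝓝 0) := by
    obtain ⟨B, hB⟩ := bZ
    have h1 : ∀ k : ℕ, ‖I V (Zf t w (cut k))‖ ≤ (B * ∫ x, Real.exp (-V x)) * (1 / ((k : ℝ) + 1)) := by
      intro k
      unfold I
      refine (norm_integral_le_integral_norm _).trans ?_
      have h2 : ∫ x, ‖Zf t w (cut k) x * Real.exp (-V x)‖ ≤
          ∫ x, (B * (1 / ((k : ℝ) + 1))) * Real.exp (-V x) := by
        refine integral_mono_of_nonneg (Eventually.of_forall fun x => norm_nonneg _) (hi.const_mul _)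
          (Eventually.of_forall fun x => ?_)
        simp only
        rw [norm_mul, Real.norm_eq_abs, Real.norm_eq_abs, abs_of_pos (Real.exp_pos _)]
        exact mul_le_mul_of_nonneg_right (hB k x) (Real.exp_pos _).le
      rw [integral_const_mul] at h2
      calc _ ≤ _ := h2
        _ = _ := by ring
    refine squeeze_zero_norm h1 ?_
    have := (tendsto_one_div_add_atTop_nhds_zero_nat (𝕜 := ℝ)).const_mul (B * ∫ x, Real.exp (-V x))
    simpa using this
  have key : ∀ k : ℕ, 2 * I V (fun x => cut k x * N1f t w x) ≤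
      I V (fun x => cut k x * Af t w x) - I V (fun x => cut k x * Qf t V w x) - I V (Zf t w (cut k)) :=
    fun k => cut_le h hpd w (cut_ll k) (cut_cs k) (cut_nonneg k)
  have l1 := (cut_lim hi bN1).const_mul 2
  have l2 := ((cut_lim hi bA).sub (cut_lim hi bQ)).sub lZ
  rw [sub_zero] at l2
  exact le_of_tendsto_of_tendsto' l1 l2 key

end

end Vale.Agent.P254.X.Stat
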