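import Vale.Agent.P227.M.ID.Alg

/-!
P254, stage 3 (general bodies), block N2: pointwise algebra of the static inequality.
`t` = `tau` (Hessian of the moment map in `x`-space), `d a b e = ∂_e tau_ab`,
`Phi a b c = ∑ e, t a e * d b c e` totally symmetric.  `N1 <= N2` pointwise.
-/

namespace Vale.Agent.P254.X

open Finset Vale.Agent.P227.M.ID
open scoped MatrixOrder Matrix.Norms.L2Operator

variable {I : Type*} [Fintype I] [DecidableEq I]

theorem tP_neg_left (ti : I → I → ℝ) (U V : I → I → I → ℝ) :
    tP ti (fun a b c => -U a b c) V = -tP ti U V := by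
  simp only [tP, neg_mul, mul_neg, Finset.sum_neg_distrib]

theorem tP_neg_right (ti : I → I → ℝ) (U V : I → I → I → ℝ) :
    tP ti U (fun a b c => -V a b c) = -tP ti U V := by
  simp only [tP, mul_neg, Finset.sum_neg_distrib]

/-- `|T|^2 - t2 >= 0` -/
theorem tT2_sub_tt2_nonneg {M : Type*} [Fintype M] {tau ti : I → I → ℝ} {A : M → I → ℝ}
    (hA : ∀ a b, ti a b = ∑ m, A m a * A m b)
    (hinv : ∀ a b, ∑ c, ti a c * tau c b = if a = b then 1 else 0)
    {Y : I → I → I → ℝ} (hY : ∀ c j k, Y c j k = Y c k j) :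
    0 ≤ tT2 tau ti Y - tt2 ti Y := by
  have hti : ∀ a b, ti a b = ti b a := by
    intro a b
    rw [hA, hA]
    exact Finset.sum_congr rfl fun m _ => mul_comm _ _
  have h1 := tP_nonneg hA fun a b c => tT tau Y a b c + -(tT tau Y b a c)
  rw [tP_add_left, tP_add_right, tP_add_right, tP_neg_left, tP_neg_left, tP_neg_right,
    tP_neg_right] at h1
  have h2 : tP ti (fun a b c => tT tau Y b a c) (fun a b c => tT tau Y b a c) =
      tP ti (fun a b c => tT tau Y a b c) (fun a b c => tT tau Y a b c) :=
    tP_swap ti (tT tau Y) (tT tau Y)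
  have h3 : tP ti (fun a b c => tT tau Y b a c) (fun a b c => tT tau Y a b c) =
      tP ti (fun a b c => tT tau Y a b c) (fun a b c => tT tau Y b a c) :=
    tP_swap ti (tT tau Y) (fun a b c => tT tau Y b a c)
  rw [← tT2_eq, ← tt2_eq hti hinv Y hY, tJ_eq_tP hti hinv, tJ_eq_tP hti hinv]
  rw [h2, h3] at h1
  change 0 ≤ tP ti (tT tau Y) (tT tau Y) + -tP ti (tT tau Y) (fun a b c => tT tau Y b a c) +
    (-tP ti (tT tau Y) (fun a b c => tT tau Y b a c) + - -tP ti (tT tau Y) (tT tau Y)) at h1
  linarith

/-- `Phi a b c = t_ae ∂_e t_bc` -/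
def Ph (t : I → I → ℝ) (d : I → I → I → ℝ) (a b c : I) : ℝ := ∑ e, t a e * d b c e

theorem ph_con {t ti : I → I → ℝ} (hinv : ∀ a b, ∑ c, ti a c * t c b = if a = b then 1 else 0)
    (d : I → I → I → ℝ) (a b c : I) : ∑ e, ti a e * Ph t d e b c = d b c a :=
  tcontract hinv (fun c j k => d j k c) a b c

theorem n2_eq {t ti : I → I → ℝ} (hti : ∀ a b, ti a b = ti b a)
    (hinv : ∀ a b, ∑ c, ti a c * t c b = if a = b then 1 else 0)
    {d : I → I → I → ℝ} (hd : ∀ a b e, d a b e = d b a e)
    (h1 : ∀ a b c, Ph t d a b c = Ph t d b a c) (w : I → ℝ) :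
    tT2 t ti (fun b a c => w b * Ph t d b a c) =
      ∑ a, ∑ i, w a * w i * t a i * ∑ b, ∑ c, d a b c * d i c b := by
  have h2 : ∀ a b c, Ph t d a b c = Ph t d a c b := by
    intro a b c
    unfold Ph
    exact Finset.sum_congr rfl fun e _ => by rw [hd b c e]
  have h3 : ∀ a b c, Ph t d a b c = Ph t d c b a := by
    intro a b c
    rw [h1 a b c, h2 b a c, h1 b c a]
  have hc := ph_con hinv d
  unfold tT2
  refine Finset.sum_congr rfl fun b _ => Finset.sum_congr rfl fun b' _ => ?_
  calc ∑ a, ∑ a', ∑ c, ∑ c', t b b' * ti a a' * ti c c' * (w b * Ph t d b a c) *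
        (w b' * Ph t d b' a' c')
      = ∑ a, ∑ c', ∑ c, ∑ a', t b b' * ti a a' * ti c c' * (w b * Ph t d b a c) *
        (w b' * Ph t d b' a' c') := by
        refine Finset.sum_congr rfl fun a _ => ?_
        rw [Finset.sum_comm]
        rw [Finset.sum_congr rfl fun c _ => Finset.sum_comm]
        rw [Finset.sum_comm]
    _ = ∑ a, ∑ c', w b * w b' * t b b' * (d b a c' * d b' c' a) := by
        refine Finset.sum_congr rfl fun a _ => Finset.sum_congr rfl fun c' _ => ?_
        have e1 : ∑ c, ti c c' * Ph t d b a c = d b a c' := by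
          rw [hd b a c', ← hc c' a b]
          refine Finset.sum_congr rfl fun c _ => ?_
          rw [hti c c', h3 b a c]
        have e2 : ∑ a', ti a a' * Ph t d b' a' c' = d b' c' a := by
          rw [← hc a b' c']
          refine Finset.sum_congr rfl fun a' _ => ?_
          rw [h1 b' a' c']
        rw [← e1, ← e2, Finset.sum_mul_sum, Finset.mul_sum]
        refine Finset.sum_congr rfl fun c _ => ?_
        rw [Finset.mul_sum]
        refine Finset.sum_congr rfl fun a' _ => ?_
        ring
    _ = _ := by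
        rw [Finset.mul_sum]
        exact Finset.sum_congr rfl fun a _ => by rw [Finset.mul_sum]

theorem n1_eq {t ti : I → I → ℝ}
    (hinv : ∀ a b, ∑ c, ti a c * t c b = if a = b then 1 else 0)
    {d : I → I → I → ℝ} (hd : ∀ a b e, d a b e = d b a e)
    (h1 : ∀ a b c, Ph t d a b c = Ph t d b a c) (w : I → ℝ) :
    tt2 ti (fun b a c => w b * Ph t d b a c) =
      ∑ a, ∑ i, w a * w i * ∑ e, ∑ f, t e f * d a i e * d a i f := by
  have h2 : ∀ a b c, Ph t d a b c = Ph t d a c b := by
    intro a b c
    unfold Ph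
    exact Finset.sum_congr rfl fun e _ => by rw [hd b c e]
  have hc := ph_con hinv d
  unfold tt2
  calc ∑ c, ∑ a, ∑ e, ∑ b, ti c a * (w e * Ph t d e a b) * (w b * Ph t d b e c)
      = ∑ e, ∑ b, ∑ c, ∑ a, ti c a * (w e * Ph t d e a b) * (w b * Ph t d b e c) := by
        rw [Finset.sum_congr rfl fun c _ => Finset.sum_comm]
        rw [Finset.sum_comm]
        refine Finset.sum_congr rfl fun e _ => ?_
        rw [Finset.sum_congr rfl fun c _ => Finset.sum_comm]
        rw [Finset.sum_comm]
    _ = _ := by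
        refine Finset.sum_congr rfl fun e _ => Finset.sum_congr rfl fun b _ => ?_
        rw [Finset.mul_sum]
        refine Finset.sum_congr rfl fun c _ => ?_
        have e1 : ∑ a, ti c a * Ph t d e a b = d e b c := by
          rw [← hc c e b]
          refine Finset.sum_congr rfl fun a _ => ?_
          rw [h1 e a b]
        have e2 : Ph t d b e c = ∑ f, t c f * d e b f := by
          rw [h2 b e c, h1 b c e]
          unfold Ph
          exact Finset.sum_congr rfl fun f _ => by rw [hd b e f]
        calc ∑ a, ti c a * (w e * Ph t d e a b) * (w b * Ph t d b e c)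
            = (∑ a, ti c a * Ph t d e a b) * (w e * w b * Ph t d b e c) := by
              rw [Finset.sum_mul]
              exact Finset.sum_congr rfl fun a _ => by ring
          _ = w e * w b * ∑ f, t c f * d e b c * d e b f := by
              rw [e1, e2, Finset.mul_sum, Finset.mul_sum, Finset.mul_sum]
              exact Finset.sum_congr rfl fun f _ => by ring

/-- `N1 <= N2` pointwise (matrix form, `t` positive definite) -/
theorem n1_le_n2 {t : Matrix I I ℝ} (ht : t.PosDef)
    {d : I → I → I → ℝ} (hd : ∀ a b e, d a b e = d b a e)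
    (h1 : ∀ a b c, ∑ e, t a e * d b c e = ∑ e, t b e * d a c e) (w : I → ℝ) :
    ∑ a, ∑ i, w a * w i * ∑ e, ∑ f, t e f * d a i e * d a i f ≤
      ∑ a, ∑ i, w a * w i * t a i * ∑ b, ∑ c, d a b c * d i c b := by
  obtain ⟨A, hA⟩ := t_matrix_root ht
  have hinv := t_matrix_inv ht
  have hti := t_matrix_symm ht
  have hs : ∀ a b c, Ph t d a b c = Ph t d b a c := h1
  have h := tT2_sub_tt2_nonneg (tau := t) (ti := (t⁻¹ : Matrix I I ℝ)) hA hinv
    (Y := fun b a c => w b * Ph t d b a c) (by
      intro c j k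
      simp only [Ph]
      congr 1
      exact Finset.sum_congr rfl fun e _ => by rw [hd j k e])
  rw [n2_eq hti hinv hd hs w, n1_eq hinv hd hs w] at h
  linarith

end Vale.Agent.P254.X
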