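import Vale.Agent.P227.M.ID.Alg

/-!
P254, stage 3 (general bodies), block N2 / S2p: pointwise algebra of the cubic term.
`t` positive definite (= `tau`), `H = D²V >= diag b`, `w`, `y` real vectors.
-/

namespace Vale.Agent.P254.X

open Finset Vale.Agent.P227.M.ID
open scoped MatrixOrder Matrix.Norms.L2Operator

variable {I : Type*} [Fintype I] [DecidableEq I]

theorem posDef_root {t : Matrix I I ℝ} (h : t.PosDef) :
    ∃ A : I → I → ℝ, ∀ a b, t a b = ∑ m, A m a * A m b := by
  obtain ⟨B, hB⟩ := CStarAlgebra.nonneg_iff_eq_star_mul_self.1 h.posSemidef.nonneg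
  refine ⟨fun m a => B m a, fun a b => ?_⟩
  rw [hB, Matrix.mul_apply]
  exact Finset.sum_congr rfl fun m _ => by rw [Matrix.star_apply, star_trivial]

theorem posDef_symm {t : Matrix I I ℝ} (h : t.PosDef) (a b : I) : t a b = t b a := by
  obtain ⟨A, hA⟩ := posDef_root h
  rw [hA, hA]
  exact Finset.sum_congr rfl fun m _ => mul_comm _ _

/-- `∑ w_a w_i t_ai (t H t)_ai` as a sum of values of the form `H` -/
theorem cub_eq {t : Matrix I I ℝ} {A : I → I → ℝ} (hA : ∀ a b, t a b = ∑ m, A m a * A m b)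
    (H : I → I → ℝ) (w : I → ℝ) :
    ∑ a, ∑ i, w a * w i * t a i * ∑ c, ∑ d, t a c * H c d * t d i =
      ∑ m, ∑ c, ∑ d, H c d * (∑ a, w a * A m a * t a c) * (∑ i, w i * A m i * t i d) := by
  have hs : ∀ a b, t a b = t b a := by
    intro a b
    rw [hA, hA]
    exact Finset.sum_congr rfl fun m _ => mul_comm _ _
  have e1 : ∀ m c d, H c d * (∑ a, w a * A m a * t a c) * (∑ i, w i * A m i * t i d) =
      ∑ a, ∑ i, w a * w i * (A m a * A m i) * (t a c * H c d * t d i) := by
    intro m c d
    rw [mul_assoc, Finset.sum_mul_sum, Finset.mul_sum]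
    refine Finset.sum_congr rfl fun a _ => ?_
    rw [Finset.mul_sum]
    refine Finset.sum_congr rfl fun i _ => ?_
    rw [hs i d]
    ring
  calc ∑ a, ∑ i, w a * w i * t a i * ∑ c, ∑ d, t a c * H c d * t d i
      = ∑ a, ∑ i, ∑ m, ∑ c, ∑ d, w a * w i * (A m a * A m i) * (t a c * H c d * t d i) := by
        refine Finset.sum_congr rfl fun a _ => Finset.sum_congr rfl fun i _ => ?_
        rw [show w a * w i * t a i = ∑ m, w a * w i * (A m a * A m i) by
          rw [hA a i, Finset.mul_sum], Finset.sum_mul]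
        refine Finset.sum_congr rfl fun m _ => ?_
        rw [Finset.mul_sum]
        refine Finset.sum_congr rfl fun c _ => ?_
        rw [Finset.mul_sum]
    _ = ∑ m, ∑ a, ∑ i, ∑ c, ∑ d, w a * w i * (A m a * A m i) * (t a c * H c d * t d i) := by
        rw [Finset.sum_congr rfl fun a _ => Finset.sum_comm]
        rw [Finset.sum_comm]
    _ = ∑ m, ∑ c, ∑ d, ∑ a, ∑ i, w a * w i * (A m a * A m i) * (t a c * H c d * t d i) := by
        refine Finset.sum_congr rfl fun m _ => ?_
        rw [Finset.sum_congr rfl fun a _ => Finset.sum_comm]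
        rw [Finset.sum_comm]
        refine Finset.sum_congr rfl fun c _ => ?_
        rw [Finset.sum_congr rfl fun a _ => Finset.sum_comm]
        rw [Finset.sum_comm]
    _ = _ := by
        simp only [e1]

/-- monotonicity in `H`: `tr (W t W t H t) >= tr (W t W t B t)` -/
theorem cub_mono {t : Matrix I I ℝ} (ht : t.PosDef) {H : I → I → ℝ} {b : I → ℝ}
    (hH : ∀ v : I → ℝ, ∑ i, b i * v i ^ 2 ≤ ∑ i, ∑ j, H i j * v i * v j) (w : I → ℝ) :
    ∑ a, ∑ i, w a * w i * t a i * ∑ c, t a c * b c * t c i ≤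
      ∑ a, ∑ i, w a * w i * t a i * ∑ c, ∑ d, t a c * H c d * t d i := by
  obtain ⟨A, hA⟩ := posDef_root ht
  have h1 : ∑ a, ∑ i, w a * w i * t a i * ∑ c, t a c * b c * t c i =
      ∑ a, ∑ i, w a * w i * t a i * ∑ c, ∑ d, t a c * (if c = d then b c else 0) * t d i := by
    refine Finset.sum_congr rfl fun a _ => Finset.sum_congr rfl fun i _ => ?_
    congr 1
    refine Finset.sum_congr rfl fun c _ => ?_
    simp
  rw [h1, cub_eq hA, cub_eq hA]
  refine Finset.sum_le_sum fun m _ => ?_
  refine le_trans (le_of_eq ?_) (hH fun c => ∑ a, w a * A m a * t a c)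
  refine Finset.sum_congr rfl fun c _ => ?_
  simp only [ite_mul, zero_mul, Finset.sum_ite_eq, Finset.mem_univ, if_true]
  ring

/-- linearisation of the cubic term: `(t - Y) W t W (t - Y) >= 0` against `B = diag b >= 0` -/
theorem cub_lin {t : Matrix I I ℝ} (ht : t.PosDef) {b : I → ℝ} (hb : ∀ i, 0 ≤ b i)
    (w y : I → ℝ) :
    ∑ i, ∑ j, w i * w j * (b i * y i + b j * y j) * t i j ^ 2 - ∑ i, b i * y i ^ 2 * w i ^ 2 * t i i ≤
      ∑ a, ∑ i, w a * w i * t a i * ∑ c, t a c * b c * t c i := by
  obtain ⟨A, hA⟩ := posDef_root ht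
  have hs := posDef_symm ht
  have h0 : 0 ≤ ∑ c, b c * ∑ m, ((∑ a, t c a * (w a * A m a)) - y c * w c * A m c) ^ 2 :=
    Finset.sum_nonneg fun c _ => mul_nonneg (hb c) (Finset.sum_nonneg fun m _ => sq_nonneg _)
  have e1 : ∀ c, ∑ m, (∑ a, t c a * (w a * A m a)) ^ 2 =
      ∑ a, ∑ i, w a * w i * t a i * (t a c * t c i) := by
    intro c
    calc ∑ m, (∑ a, t c a * (w a * A m a)) ^ 2
        = ∑ m, ∑ a, ∑ i, w a * w i * (A m a * A m i) * (t a c * t c i) := by
          refine Finset.sum_congr rfl fun m _ => ?_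
          rw [sq, Finset.sum_mul_sum]
          refine Finset.sum_congr rfl fun a _ => Finset.sum_congr rfl fun i _ => ?_
          rw [hs a c]
          ring
      _ = ∑ a, ∑ i, ∑ m, w a * w i * (A m a * A m i) * (t a c * t c i) := by
          rw [Finset.sum_comm]
          refine Finset.sum_congr rfl fun a _ => ?_
          rw [Finset.sum_comm]
      _ = _ := by
          refine Finset.sum_congr rfl fun a _ => Finset.sum_congr rfl fun i _ => ?_
          rw [hA a i, Finset.mul_sum, Finset.sum_mul]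
  have e2 : ∀ c, ∑ m, (∑ a, t c a * (w a * A m a)) * A m c = ∑ a, w a * t a c ^ 2 := by
    intro c
    calc ∑ m, (∑ a, t c a * (w a * A m a)) * A m c
        = ∑ m, ∑ a, w a * t a c * (A m a * A m c) := by
          refine Finset.sum_congr rfl fun m _ => ?_
          rw [Finset.sum_mul]
          refine Finset.sum_congr rfl fun a _ => ?_
          rw [hs a c]
          ring
      _ = ∑ a, ∑ m, w a * t a c * (A m a * A m c) := Finset.sum_comm
      _ = _ := by
          refine Finset.sum_congr rfl fun a _ => ?_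
          rw [← Finset.mul_sum, ← hA a c]
          ring
  have e3 : ∀ c, ∑ m, ((∑ a, t c a * (w a * A m a)) - y c * w c * A m c) ^ 2 =
      (∑ a, ∑ i, w a * w i * t a i * (t a c * t c i)) - 2 * (y c * w c) * (∑ a, w a * t a c ^ 2) +
        (y c * w c) ^ 2 * t c c := by
    intro c
    rw [← e1 c, ← e2 c, hA c c, Finset.mul_sum, Finset.mul_sum, ← Finset.sum_sub_distrib,
      ← Finset.sum_add_distrib]
    refine Finset.sum_congr rfl fun m _ => ?_
    ring
  simp only [e3] at h0
  have e4 : ∑ c, b c * ((∑ a, ∑ i, w a * w i * t a i * (t a c * t c i)) -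
      2 * (y c * w c) * (∑ a, w a * t a c ^ 2) + (y c * w c) ^ 2 * t c c) =
      (∑ a, ∑ i, w a * w i * t a i * ∑ c, t a c * b c * t c i) -
        (∑ i, ∑ j, w i * w j * (b i * y i + b j * y j) * t i j ^ 2) +
        ∑ i, b i * y i ^ 2 * w i ^ 2 * t i i := by
    have f1 : ∑ c, b c * ∑ a, ∑ i, w a * w i * t a i * (t a c * t c i) =
        ∑ a, ∑ i, w a * w i * t a i * ∑ c, t a c * b c * t c i := by
      calc ∑ c, b c * ∑ a, ∑ i, w a * w i * t a i * (t a c * t c i)
          = ∑ c, ∑ a, ∑ i, w a * w i * t a i * (t a c * b c * t c i) := by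
            refine Finset.sum_congr rfl fun c _ => ?_
            rw [Finset.mul_sum]
            refine Finset.sum_congr rfl fun a _ => ?_
            rw [Finset.mul_sum]
            exact Finset.sum_congr rfl fun i _ => by ring
        _ = ∑ a, ∑ i, ∑ c, w a * w i * t a i * (t a c * b c * t c i) := by
            rw [Finset.sum_comm]
            refine Finset.sum_congr rfl fun a _ => ?_
            rw [Finset.sum_comm]
        _ = _ := by
            refine Finset.sum_congr rfl fun a _ => Finset.sum_congr rfl fun i _ => ?_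
            rw [Finset.mul_sum]
    have f2 : ∑ c, b c * (2 * (y c * w c) * (∑ a, w a * t a c ^ 2)) =
        ∑ i, ∑ j, w i * w j * (b i * y i + b j * y j) * t i j ^ 2 := by
      have g1 : ∑ c, b c * (2 * (y c * w c) * (∑ a, w a * t a c ^ 2)) =
          ∑ c, ∑ a, (w c * w a * (b c * y c) * t c a ^ 2 + w c * w a * (b c * y c) * t c a ^ 2) := by
        refine Finset.sum_congr rfl fun c _ => ?_
        rw [Finset.mul_sum, Finset.mul_sum]
        refine Finset.sum_congr rfl fun a _ => ?_
        rw [hs a c]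
        ring
      have g2 : ∑ c, ∑ a, w c * w a * (b c * y c) * t c a ^ 2 =
          ∑ c, ∑ a, w c * w a * (b a * y a) * t c a ^ 2 := by
        rw [Finset.sum_comm]
        refine Finset.sum_congr rfl fun c _ => Finset.sum_congr rfl fun a _ => ?_
        rw [hs a c]
        ring
      rw [g1]
      simp only [Finset.sum_add_distrib]
      nth_rw 2 [g2]
      rw [← Finset.sum_add_distrib]
      refine Finset.sum_congr rfl fun c _ => ?_
      rw [← Finset.sum_add_distrib]
      exact Finset.sum_congr rfl fun a _ => by ring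
    rw [← f1, ← f2, ← Finset.sum_sub_distrib, ← Finset.sum_add_distrib]
    exact Finset.sum_congr rfl fun c _ => by ring
  rw [e4] at h0
  linarith

/-- `H >= diag b >= 0`: lower bound of the cubic term by quadratic ones -/
theorem cub_lower {t : Matrix I I ℝ} (ht : t.PosDef) {H : I → I → ℝ} {b : I → ℝ} (hb : ∀ i, 0 ≤ b i)
    (hH : ∀ v : I → ℝ, ∑ i, b i * v i ^ 2 ≤ ∑ i, ∑ j, H i j * v i * v j) (w y : I → ℝ) :
    ∑ i, ∑ j, w i * w j * (b i * y i + b j * y j) * t i j ^ 2 - ∑ i, b i * y i ^ 2 * w i ^ 2 * t i i ≤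
      ∑ a, ∑ i, w a * w i * t a i * ∑ c, ∑ d, t a c * H c d * t d i :=
  (cub_lin ht hb w y).trans (cub_mono ht hH w)

end Vale.Agent.P254.X
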