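import Vale.Agent.P254.St625.Def0

/-!
P254, stage 3 (general bodies), block N2 / S2p: scalar end of the static inequality.
From `∑ w_i w_j (1 + b_i y_i + b_j y_j) Var t_ij <= ∑ w_i² (1 - 2 b_i y_i + b_i y_i²)` for all `w > 0`
and Bessel `∑_k T_ijk² <= 4 Var t_ij` to the form of `StmtStatic`.
-/

namespace Vale.Agent.P254.X

open Finset Vale.Agent.P254.St625

theorem yy_pos {b : ℝ} (hb : 0 < b) : 0 < yy b := by
  unfold yy
  apply div_pos _ (by linarith)
  have : (1 : ℝ) < Real.sqrt (1 + 8 * b) := by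
    rw [Real.lt_sqrt (by norm_num)]
    linarith
  linarith

/-- `b y² + y = 2` -/
theorem yy_eq {b : ℝ} (hb : 0 < b) : b * yy b ^ 2 + yy b = 2 := by
  unfold yy
  have h : Real.sqrt (1 + 8 * b) ^ 2 = 1 + 8 * b := Real.sq_sqrt (by linarith)
  have hb' : b ≠ 0 := hb.ne'
  generalize Real.sqrt (1 + 8 * b) = s at h
  field_simp
  linear_combination h

/-- `1 - 2 b y + b y² = (1 + 2 b y) (y - 1)` -/
theorem yy_fac {b : ℝ} (hb : 0 < b) :
    1 - 2 * (b * yy b) + b * yy b ^ 2 = (1 + 2 * (b * yy b)) * (yy b - 1) := by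
  have h := yy_eq hb
  linear_combination (-1) * h

theorem kst_eq (b : ℝ) : kst b = 4 * (yy b - 1) := rfl

/-- AM-GM -/
theorem amgm {p q : ℝ} (hp : 0 ≤ p) (hq : 0 ≤ q) :
    Real.sqrt (1 + 2 * p) * Real.sqrt (1 + 2 * q) ≤ 1 + p + q := by
  have h1 : Real.sqrt (1 + 2 * p) ^ 2 = 1 + 2 * p := Real.sq_sqrt (by linarith)
  have h2 : Real.sqrt (1 + 2 * q) ^ 2 = 1 + 2 * q := Real.sq_sqrt (by linarith)
  nlinarith [sq_nonneg (Real.sqrt (1 + 2 * p) - Real.sqrt (1 + 2 * q))]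

/-- scalar end of the static inequality -/
theorem static_fin {n : ℕ} {b r : Fin n → ℝ} (hb : ∀ i, 0 < b i) (hr : ∀ i, 0 < r i)
    {v T2 : Fin n → Fin n → ℝ} (hv : ∀ i j, 0 ≤ v i j) (hT : ∀ i j, T2 i j ≤ 4 * v i j)
    (H : ∀ w : Fin n → ℝ, (∀ i, 0 < w i) →
      ∑ i, ∑ j, w i * w j * (1 + b i * yy (b i) + b j * yy (b j)) * v i j ≤
        ∑ i, w i ^ 2 * (1 - 2 * (b i * yy (b i)) + b i * yy (b i) ^ 2)) :
    ∑ i, ∑ j, r i * r j * T2 i j ≤ ∑ i, r i ^ 2 * kst (b i) := by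
  have hy : ∀ i, 0 < b i * yy (b i) := fun i => mul_pos (hb i) (yy_pos (hb i))
  have hc : ∀ i, 0 < 1 + 2 * (b i * yy (b i)) := fun i => by have := hy i; linarith
  have hs : ∀ i, 0 < Real.sqrt (1 + 2 * (b i * yy (b i))) := fun i => Real.sqrt_pos.2 (hc i)
  have h1 := H (fun i => r i / Real.sqrt (1 + 2 * (b i * yy (b i)))) fun i => div_pos (hr i) (hs i)
  have h2 : ∑ i, (r i / Real.sqrt (1 + 2 * (b i * yy (b i)))) ^ 2 *
      (1 - 2 * (b i * yy (b i)) + b i * yy (b i) ^ 2) = ∑ i, r i ^ 2 * (yy (b i) - 1) := by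
    refine Finset.sum_congr rfl fun i _ => ?_
    rw [yy_fac (hb i), div_pow, Real.sq_sqrt (hc i).le]
    have h0 := (hc i).ne'
    generalize 1 + 2 * (b i * yy (b i)) = z at h0
    field_simp
  have h3 : ∑ i, ∑ j, r i * r j * v i j ≤
      ∑ i, ∑ j, (r i / Real.sqrt (1 + 2 * (b i * yy (b i)))) *
        (r j / Real.sqrt (1 + 2 * (b j * yy (b j)))) *
          (1 + b i * yy (b i) + b j * yy (b j)) * v i j := by
    refine Finset.sum_le_sum fun i _ => Finset.sum_le_sum fun j _ => ?_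
    refine mul_le_mul_of_nonneg_right ?_ (hv i j)
    have h4 := amgm (hy i).le (hy j).le
    have h5 : 0 < Real.sqrt (1 + 2 * (b i * yy (b i))) * Real.sqrt (1 + 2 * (b j * yy (b j))) :=
      mul_pos (hs i) (hs j)
    have h6 : (r i / Real.sqrt (1 + 2 * (b i * yy (b i)))) *
        (r j / Real.sqrt (1 + 2 * (b j * yy (b j)))) =
        r i * r j / (Real.sqrt (1 + 2 * (b i * yy (b i))) * Real.sqrt (1 + 2 * (b j * yy (b j)))) := by
      rw [div_mul_div_comm]
    rw [h6, div_mul_eq_mul_div, le_div_iff₀ h5]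
    exact mul_le_mul_of_nonneg_left h4 (mul_pos (hr i) (hr j)).le
  calc ∑ i, ∑ j, r i * r j * T2 i j ≤ ∑ i, ∑ j, r i * r j * (4 * v i j) :=
        Finset.sum_le_sum fun i _ => Finset.sum_le_sum fun j _ =>
          mul_le_mul_of_nonneg_left (hT i j) (mul_pos (hr i) (hr j)).le
    _ = 4 * ∑ i, ∑ j, r i * r j * v i j := by
        rw [Finset.mul_sum]
        refine Finset.sum_congr rfl fun i _ => ?_
        rw [Finset.mul_sum]
        exact Finset.sum_congr rfl fun j _ => by ring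
    _ ≤ 4 * ∑ i, r i ^ 2 * (yy (b i) - 1) := by
        refine mul_le_mul_of_nonneg_left ?_ (by norm_num)
        rw [← h2]
        exact h3.trans h1
    _ = _ := by
        rw [Finset.mul_sum]
        exact Finset.sum_congr rfl fun i _ => by rw [kst_eq]; ring

/-- from the second moments: `m i j = E t_ij²`, `E t_ii = 1`, `Var t_ij = m i j - δ_ij` -/
theorem static_fin2 {n : ℕ} {b r : Fin n → ℝ} (hb : ∀ i, 0 < b i) (hr : ∀ i, 0 < r i)
    {v m T2 : Fin n → Fin n → ℝ} (hv : ∀ i j, 0 ≤ v i j) (hT : ∀ i j, T2 i j ≤ 4 * v i j)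
    (hm : ∀ i j, m i j = v i j + if i = j then 1 else 0)
    (H : ∀ w y : Fin n → ℝ, (∀ i, 0 < w i) → (∀ i, 0 < y i) →
      2 * ∑ i, ∑ j, w i * w j * v i j ≤ ∑ i, ∑ j, w i * w j * m i j -
        (∑ i, ∑ j, w i * w j * (b i * y i + b j * y j) * m i j - ∑ i, b i * y i ^ 2 * w i ^ 2)) :
    ∑ i, ∑ j, r i * r j * T2 i j ≤ ∑ i, r i ^ 2 * kst (b i) := by
  refine static_fin hb hr hv hT fun w hw => ?_
  have h := H w (fun i => yy (b i)) hw fun i => yy_pos (hb i)
  have e1 : ∑ i, ∑ j, w i * w j * m i j = ∑ i, ∑ j, w i * w j * v i j + ∑ i, w i ^ 2 := by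
    rw [← Finset.sum_add_distrib]
    refine Finset.sum_congr rfl fun i _ => ?_
    have : ∀ j, w i * w j * m i j = w i * w j * v i j + if i = j then w i * w j else 0 := by
      intro j
      rw [hm]
      split_ifs <;> ring
    simp only [this, Finset.sum_add_distrib, Finset.sum_ite_eq, Finset.mem_univ, if_true]
    ring
  have e2 : ∑ i, ∑ j, w i * w j * (b i * yy (b i) + b j * yy (b j)) * m i j =
      ∑ i, ∑ j, w i * w j * (b i * yy (b i) + b j * yy (b j)) * v i j +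
        ∑ i, w i ^ 2 * (2 * (b i * yy (b i))) := by
    rw [← Finset.sum_add_distrib]
    refine Finset.sum_congr rfl fun i _ => ?_
    have : ∀ j, w i * w j * (b i * yy (b i) + b j * yy (b j)) * m i j =
        w i * w j * (b i * yy (b i) + b j * yy (b j)) * v i j +
          if i = j then w i * w j * (b i * yy (b i) + b j * yy (b j)) else 0 := by
      intro j
      rw [hm]
      split_ifs <;> ring
    simp only [this, Finset.sum_add_distrib, Finset.sum_ite_eq, Finset.mem_univ, if_true]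
    ring
  have e3 : ∑ i, ∑ j, w i * w j * (1 + b i * yy (b i) + b j * yy (b j)) * v i j =
      ∑ i, ∑ j, w i * w j * v i j +
        ∑ i, ∑ j, w i * w j * (b i * yy (b i) + b j * yy (b j)) * v i j := by
    rw [← Finset.sum_add_distrib]
    refine Finset.sum_congr rfl fun i _ => ?_
    rw [← Finset.sum_add_distrib]
    exact Finset.sum_congr rfl fun j _ => by ring
  have e4 : ∑ i, w i ^ 2 * (1 - 2 * (b i * yy (b i)) + b i * yy (b i) ^ 2) =
      ∑ i, w i ^ 2 - ∑ i, w i ^ 2 * (2 * (b i * yy (b i))) + ∑ i, b i * yy (b i) ^ 2 * w i ^ 2 := by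
    rw [← Finset.sum_sub_distrib, ← Finset.sum_add_distrib]
    exact Finset.sum_congr rfl fun i _ => by ring
  rw [e1, e2] at h
  rw [e3, e4]
  linarith

end Vale.Agent.P254.X
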