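import Vale.Agent.P254.X.MMc
import Vale.Agent.P254.X.N1.Inv

/-! # P254/X: class invariance in helper464's form (`ClassC`), from helper570's `N1.ClsC.TKc_mem`. -/

open MeasureTheory

namespace Vale.Agent.P254.X

open Vale.Agent.P227.M

variable {n : ℕ} {k c0 C0 m : ℝ} {c : E n → ℝ}

theorem classC_iff : ClassC k c0 C0 m c ↔ N1.ClsC k c0 C0 m c :=
  ⟨fun h => ⟨h.reg, h.sc, h.zero, h.grad⟩, fun h => ⟨h.reg, h.sc, h.zero, h.grad⟩⟩

theorem TKc_eq_step (k : ℝ) (V c : E n → ℝ) : N1.TKc k V c =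
    fun x => (V x + LK.QK k c x) / k - (V 0 + LK.QK k c 0) / k -
      fderiv ℝ (fun z => (V z + LK.QK k c z) / k) 0 x := by
  have h1 : LK.TK k V c = fun z => (V z + LK.QK k c z) / k - (V 0 + LK.QK k c 0) / k := by
    funext z; unfold LK.TK; ring
  funext x
  have h2 : fderiv ℝ (LK.TK k V c) 0 = fderiv ℝ (fun z => (V z + LK.QK k c z) / k) 0 := by
    rw [h1, fderiv_sub_const]
  rw [N1.TKc, h2, h1]

theorem classC_step (hSC : StmtSC) {V : E n → ℝ} {MV : ℝ} (hV : Reg V c0 C0)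
    (hC0 : 0 < C0) (hMV : 0 ≤ MV) (hVs : SelfConc MV V) (hm : 2 / 3 * MV * √(C0 / c0) ≤ m)
    (hk : 0 < k) (hmk : m ^ 2 ≤ k) (hc : ClassC k c0 C0 m c) :
    ClassC k c0 C0 m (fun x => (V x + LK.QK k c x) / k - (V 0 + LK.QK k c 0) / k -
      fderiv ℝ (fun z => (V z + LK.QK k c z) / k) 0 x) := by
  rw [← TKc_eq_step, classC_iff]
  exact N1.ClsC.TKc_mem hSC hV hC0 hMV hVs hm hk hmk (classC_iff.1 hc)

/-- the Kähler-like potential `phiK` of a member of the class -/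
theorem classC_phiK (hSC : StmtSC) (hk : 0 < k) (hc0 : 0 < c0) (hC0 : 0 < C0) (hm : 0 ≤ m)
    (hmk : m ^ 2 ≤ k) (hc : ClassC k c0 C0 m c) :
    Reg (LK.phiK k c) (k / ((k + 1) * C0)) (k / ((k + 1) * c0)) ∧ SelfConc m (LK.phiK k c) :=
  ⟨N1.reg_phiK hk hc0 hC0 hc.reg, N1.sc_phiK hSC hk hC0 hm hmk hc.reg hc.sc⟩

end Vale.Agent.P254.X
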