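import Vale.Agent.P254.St625.Z1
import Vale.Agent.P254.St625.Def0

/-!
P254, stage 3, leaf S3w: the one-variable data `WP (19/100) kst`.
-/

namespace Vale.Agent.P254.X.W904

open Set
open Vale.Agent.P254.L Vale.Agent.P254.St625

/-- the potential -/
noncomputable def pw (x : ℝ) : ℝ :=
  29 / 100 * x + 71 / 325 * Real.log (1 + 13 / 4 * x) - 19 / 100

/-- its derivative -/
noncomputable def pw1 (x : ℝ) : ℝ := 29 / 100 + 71 / 100 * (1 + 13 / 4 * x)⁻¹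

/-- its second derivative -/
noncomputable def pw2 (x : ℝ) : ℝ := -(923 / 400) * ((1 + 13 / 4 * x)⁻¹) ^ 2

theorem quintic {y : ℝ} (h1 : 1 ≤ y) (h2 : y ≤ 2) :
    0 ≤ 4901 / 400 - 40053 / 1600 * y ^ 2 + 1937 / 100 * y ^ 3 - 11 / 2 * y ^ 4 + y ^ 5 := by
  rcases le_total y (3 / 2) with h | h
  · set s := y - 1 with hs
    set r := 3 / 2 - y with hr
    have hs0 : 0 ≤ s := by linarith
    have hr0 : 0 ≤ r := by linarith
    have e : 4901 / 400 - 40053 / 1600 * y ^ 2 + 1937 / 100 * y ^ 3 - 11 / 2 * y ^ 4 + y ^ 5 =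
        3343 / 1600 * ((2 * s) ^ 0 * (2 * r) ^ 5) + 191 / 32 * ((2 * s) ^ 1 * (2 * r) ^ 4) + 35203 / 6400 * ((2 * s) ^ 2 * (2 * r) ^ 3) + 641 / 256 * ((2 * s) ^ 3 * (2 * r) ^ 2) + 12181 / 6400 * ((2 * s) ^ 4 * (2 * r) ^ 1) + 6731 / 6400 * ((2 * s) ^ 5 * (2 * r) ^ 0) := by
      rw [hs, hr]; ring
    rw [e]; positivity
  · set s := y - 3 / 2 with hs
    set r := 2 - y with hr
    have hs0 : 0 ≤ s := by linarith
    have hr0 : 0 ≤ r := by linarith
    have e : 4901 / 400 - 40053 / 1600 * y ^ 2 + 1937 / 100 * y ^ 3 - 11 / 2 * y ^ 4 + y ^ 5 =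
        6731 / 6400 * ((2 * s) ^ 0 * (2 * r) ^ 5) + 55129 / 6400 * ((2 * s) ^ 1 * (2 * r) ^ 4) + 187817 / 6400 * ((2 * s) ^ 2 * (2 * r) ^ 3) + 307083 / 6400 * ((2 * s) ^ 3 * (2 * r) ^ 2) + 29797 / 800 * ((2 * s) ^ 4 * (2 * r) ^ 1) + 277 / 25 * ((2 * s) ^ 5 * (2 * r) ^ 0) := by
      rw [hs, hr]; ring
    rw [e]; positivity

theorem yy_facts {x : ℝ} (h0 : 0 < x) (h1 : x < 1) :
    1 < yy x ∧ yy x < 2 ∧ x * yy x ^ 2 + yy x = 2 := by
  have hs0 : 0 ≤ 1 + 8 * x := by linarith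
  set s := Real.sqrt (1 + 8 * x) with hs
  have hss : s ^ 2 = 1 + 8 * x := Real.sq_sqrt hs0
  have hsn : 0 ≤ s := Real.sqrt_nonneg _
  have hs1 : 1 < s := by nlinarith
  have hs3 : s < 3 := by nlinarith
  have hy : yy x = 4 / (s + 1) := by
    unfold yy
    rw [← hs]
    rw [div_eq_div_iff (by positivity) (by positivity)]
    nlinarith
  have hx : x = (s ^ 2 - 1) / 8 := by linarith
  refine ⟨?_, ?_, ?_⟩
  · rw [hy, lt_div_iff₀ (by positivity)]; linarith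
  · rw [hy, div_lt_iff₀ (by positivity)]; linarith
  · rw [hy, hx]; field_simp; ring

theorem pos1 {x : ℝ} (h0 : 0 < x) : 0 < 1 + 13 / 4 * x := by positivity

theorem c_eq (x : ℝ) : 1 / 4 - x ^ 2 * pw2 x / 2 =
    1 / 4 + 923 / 800 * (x * (1 + 13 / 4 * x)⁻¹) ^ 2 := by
  unfold pw2; ring

theorem ode904 {x : ℝ} (h0 : 0 < x) (h1 : x < 1) :
    (1 / 4 - x ^ 2 * pw2 x / 2) * kst x ≤ pw1 x * (1 - x) := by
  obtain ⟨hy1, hy2, hy⟩ := yy_facts h0 h1
  set y := yy x with hyd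
  have hy0 : 0 < y := by linarith
  have hx : x = (2 - y) / y ^ 2 := by
    rw [eq_div_iff (by positivity)]; linarith
  set D : ℝ := y ^ 2 + 13 / 4 * (2 - y) with hD
  have hD0 : 0 < D := by nlinarith
  have e1 : (1 + 13 / 4 * x)⁻¹ = y ^ 2 / D := by
    rw [hx]
    rw [inv_eq_iff_eq_inv, inv_div, hD]
    field_simp
  have e2 : x * (1 + 13 / 4 * x)⁻¹ = (2 - y) / D := by
    rw [e1, hx]; field_simp
  have e3 : 1 - x = (y - 1) * (y + 2) / y ^ 2 := by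
    rw [hx]; field_simp; ring
  have hk : kst x = 4 * (y - 1) := by rw [hyd]; rfl
  rw [c_eq, e2, hk, e3]
  unfold pw1
  rw [e1]
  have hq := quintic hy1.le hy2.le
  have hm : 0 ≤ (2 - y) * (4901 / 400 - 40053 / 1600 * y ^ 2 + 1937 / 100 * y ^ 3
      - 11 / 2 * y ^ 4 + y ^ 5) := mul_nonneg (by linarith) hq
  have key : (29 / 100 + 71 / 100 * (y ^ 2 / D)) * ((y - 1) * (y + 2) / y ^ 2)
      - (1 / 4 + 923 / 800 * ((2 - y) / D) ^ 2) * (4 * (y - 1))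
      = (y - 1) * ((2 - y) * (4901 / 400 - 40053 / 1600 * y ^ 2 + 1937 / 100 * y ^ 3
      - 11 / 2 * y ^ 4 + y ^ 5)) / (y ^ 2 * D ^ 2) := by
    have hD' : D ≠ 0 := hD0.ne'
    field_simp
    rw [hD]
    ring
  have : 0 ≤ (y - 1) * ((2 - y) * (4901 / 400 - 40053 / 1600 * y ^ 2 + 1937 / 100 * y ^ 3
      - 11 / 2 * y ^ 4 + y ^ 5)) / (y ^ 2 * D ^ 2) :=
    div_nonneg (mul_nonneg (by linarith) hm) (by positivity)
  linarith

theorem log_bound : 29 / 100 + 71 / 325 * Real.log (17 / 4) - 19 / 100 ≤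
    1 / 2 * Real.log (2 * Real.pi * Real.exp 1) - 1 := by
  have hpi := Real.pi_gt_d2
  have hpi0 := Real.pi_pos
  have h2 := Real.log_two_gt_d9
  have h2' := Real.log_two_lt_d9
  have e1 : Real.log (2 * Real.pi * Real.exp 1) = Real.log (2 * Real.pi) + 1 := by
    rw [Real.log_mul (by positivity) (Real.exp_pos 1).ne', Real.log_exp]
  have e2 : Real.log (17 / 4) = 2 * Real.log 2 + Real.log (17 / 16) := by
    have : (17 / 4 : ℝ) = 2 ^ 2 * (17 / 16) := by norm_num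
    rw [this, Real.log_mul (by norm_num) (by norm_num), Real.log_pow]
    norm_num
  have e3 : Real.log (17 / 16) ≤ 17 / 16 - 1 := Real.log_le_sub_one_of_pos (by norm_num)
  have e4 : 3 * Real.log (2 * Real.pi) = Real.log ((2 * Real.pi) ^ 3) := by
    rw [Real.log_pow]; norm_num
  have e5 : (247 : ℝ) ≤ (2 * Real.pi) ^ 3 := by
    have h : (6.28 : ℝ) ≤ 2 * Real.pi := by linarith
    calc (247 : ℝ) ≤ 6.28 ^ 3 := by norm_num
      _ ≤ (2 * Real.pi) ^ 3 := pow_le_pow_left₀ (by norm_num) h 3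
  have e6 : Real.log 247 ≤ Real.log ((2 * Real.pi) ^ 3) := Real.log_le_log (by norm_num) e5
  have e7 : Real.log 247 = 8 * Real.log 2 + Real.log (247 / 256) := by
    have : (247 : ℝ) = 2 ^ 8 * (247 / 256) := by norm_num
    rw [this, Real.log_mul (by norm_num) (by norm_num), Real.log_pow]
    norm_num
  have e8 : 1 - (247 / 256 : ℝ)⁻¹ ≤ Real.log (247 / 256) :=
    Real.one_sub_inv_le_log_of_pos (by norm_num)
  norm_num at e8
  rw [e1, e2]
  linarith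

theorem pw_le {x : ℝ} (h0 : 0 < x) (h1 : x < 1) :
    pw x ≤ 1 / 2 * Real.log (2 * Real.pi * Real.exp 1) - 1 := by
  refine le_trans ?_ log_bound
  unfold pw
  have h : Real.log (1 + 13 / 4 * x) ≤ Real.log (17 / 4) :=
    Real.log_le_log (pos1 h0) (by linarith)
  linarith

theorem pw_ge {x : ℝ} (h0 : 0 < x) : -(19 / 100) ≤ pw x := by
  unfold pw
  have h : 0 ≤ Real.log (1 + 13 / 4 * x) := Real.log_nonneg (by linarith)
  linarith

theorem d1_904 {x : ℝ} (h0 : 0 < x) : HasDerivAt pw (pw1 x) x := by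
  have hp := pos1 h0
  have h1 : HasDerivAt (fun x : ℝ => 1 + 13 / 4 * x) (13 / 4) x := by
    simpa using ((hasDerivAt_id x).const_mul (13 / 4 : ℝ)).const_add 1
  have h2 := h1.log hp.ne'
  have h3 : HasDerivAt (fun x : ℝ => 29 / 100 * x) (29 / 100) x := by
    simpa using (hasDerivAt_id x).const_mul (29 / 100 : ℝ)
  have h4 := (h3.add (h2.const_mul (71 / 325))).sub_const (19 / 100)
  have h5 : HasDerivAt pw (29 / 100 + 71 / 325 * (13 / 4 / (1 + 13 / 4 * x))) x := h4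
  refine h5.congr_deriv ?_
  unfold pw1
  rw [div_eq_mul_inv]
  ring

theorem d2_904 {x : ℝ} (h0 : 0 < x) : HasDerivAt pw1 (pw2 x) x := by
  have hp := pos1 h0
  have h1 : HasDerivAt (fun x : ℝ => 1 + 13 / 4 * x) (13 / 4) x := by
    simpa using ((hasDerivAt_id x).const_mul (13 / 4 : ℝ)).const_add 1
  have h2 := (h1.inv hp.ne').const_mul (71 / 100 : ℝ)
  have h4 := h2.const_add (29 / 100 : ℝ)
  have h5 : HasDerivAt pw1 (71 / 100 * (-(13 / 4) / (1 + 13 / 4 * x) ^ 2)) x := h4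
  refine h5.congr_deriv ?_
  unfold pw2
  field_simp
  ring

theorem dd_904 {x y : ℝ} (hx : 0 < x) (hy : 0 < y) :
    dd1 pw1 pw2 x y = -(923 / 400) * ((1 + 13 / 4 * x)⁻¹ * (1 + 13 / 4 * y)⁻¹) := by
  unfold dd1
  split_ifs with h
  · subst h
    unfold pw2; ring
  · have hxy : x - y ≠ 0 := sub_ne_zero.2 h
    have h1 := (pos1 hx).ne'
    have h2 := (pos1 hy).ne'
    unfold pw1
    field_simp
    ring

theorem cij_904 {x y : ℝ} (hx : 0 < x) (hy : 0 < y) :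
    (1 / 4 - x * y * dd1 pw1 pw2 x y / 2)
      ≤ Real.sqrt (1 / 4 - x ^ 2 * pw2 x / 2) * Real.sqrt (1 / 4 - y ^ 2 * pw2 y / 2) := by
  rw [dd_904 hx hy, c_eq, c_eq]
  set u := x * (1 + 13 / 4 * x)⁻¹ with hu
  set v := y * (1 + 13 / 4 * y)⁻¹ with hv
  have hu0 : 0 ≤ u := mul_nonneg hx.le (inv_nonneg.2 (pos1 hx).le)
  have hv0 : 0 ≤ v := mul_nonneg hy.le (inv_nonneg.2 (pos1 hy).le)
  have e : 1 / 4 - x * y * (-(923 / 400) * ((1 + 13 / 4 * x)⁻¹ * (1 + 13 / 4 * y)⁻¹)) / 2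
      = 1 / 4 + 923 / 800 * (u * v) := by
    rw [hu, hv]; ring
  rw [e, ← Real.sqrt_mul (by positivity)]
  refine Real.le_sqrt_of_sq_le ?_
  nlinarith [sq_nonneg (u - v)]

theorem cpos_904 (x : ℝ) : 0 < 1 / 4 - x ^ 2 * pw2 x / 2 := by
  rw [c_eq]; positivity

/-- **The one-variable data of the static method**, `δ = 19/100`. -/
noncomputable def wp904 : WP (19 / 100) kst where
  w := pw
  w1 := pw1
  w2 := pw2
  d1 := fun _ hx => d1_904 hx.1
  d2 := fun _ hx => d2_904 hx.1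
  ode := fun _ hx => ode904 hx.1 hx.2
  c_pos := fun x _ => cpos_904 x
  w_ge := fun _ hx => pw_ge hx.1
  w_le := fun _ hx => pw_le hx.1 hx.2
  cij := fun _ hx _ hy => cij_904 hx.1 hy.1

end Vale.Agent.P254.X.W904
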